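import Vale.Agent.P366.Fun

/-! P366 Asy: behaviour at infinity.  ε = s^(-q/2) → 0 (q > 0 as 2q > b + 2); O(ε)·O(ε) = O(ε²), ε² = s^(-q).
A, p → 1, G → 1 entrywise, so det G → 1 and Y = G⁻¹ → 1 entrywise (continuity of the inverse at 1, e.g. inv_contDiffAt for the identity map, or adjugate/det), Y - 1 = -Y (G - 1) = O(ε), and Y = 1 - γ + γ Y γ with γ = G - 1 when det G ≠ 0.
h = d + τ, τ = b α/A + tr(Y Γ) with α = s A', Γ = s dG; τ = b α + tr Γ + O(ε²); S = d - b a - tr γ + O(ε²) (a = A - 1, 1/A = 1 - a + a²/A); s κ² = O(ε²).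
1 - y = (d S p - h² + p s κ²)/(d S p), numerator = d ef + O(ε²), denominator → d².
Vf^α = s^((b+2)/2) (A^b det G)^α for large s (Real.mul_rpow, Real.rpow_natCast, Real.rpow_mul), and s^((b+2)/2) ε² → 0. -/

namespace Vale.Agent.P366

open Matrix Filter Topology

variable {b : ℕ} {c k : Co} {q : ℝ}

open Asymptotics in
/-- First order expansion `f = a + f1 + O(e²)` with `f1 = O(e)`. -/
structure J_Asy (e f : ℝ → ℝ) (a : ℝ) (f1 : ℝ → ℝ) : Prop where
  o1 : f1 =O[atTop] e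
  o2 : (fun s => f s - a - f1 s) =O[atTop] fun s => e s * e s

section

open Asymptotics

variable {e f g f1 g1 : ℝ → ℝ} {a a' : ℝ}

theorem J_Asy.tendsto (h : J_Asy e f a f1) (he : Tendsto e atTop (𝓝 0)) :
    Tendsto f atTop (𝓝 a) := by
  have h1 := h.o1.trans_tendsto he
  have h2 := h.o2.trans_tendsto (by simpa using he.mul he)
  have h3 := (h2.add h1).add_const a
  simp only [zero_add] at h3
  exact h3.congr fun s => by ring

theorem J_Asy.congr (h : J_Asy e f a f1) (h1 : f =ᶠ[atTop] g) (h2 : a = a')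
    (h3 : ∀ s, f1 s = g1 s) : J_Asy e g a' g1 := by
  obtain rfl : f1 = g1 := funext h3
  subst h2
  exact ⟨h.o1, h.o2.congr' (h1.mono fun s hs => by simp only [hs]) EventuallyEq.rfl⟩

theorem const_Asy (e : ℝ → ℝ) (a : ℝ) : J_Asy e (fun _ => a) a fun _ => 0 :=
  ⟨isBigO_zero _ _, by simpa using isBigO_zero _ _⟩

theorem mk_Asy (a : ℝ) (h : (fun s => f s - a) =O[atTop] e) : J_Asy e f a fun s => f s - a :=
  ⟨h, by simpa using isBigO_zero _ _⟩

theorem mk0_Asy (h : f =O[atTop] e) : J_Asy e f 0 f :=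
  ⟨h, by simpa using isBigO_zero _ _⟩

theorem J_Asy.add (h : J_Asy e f a f1) (h' : J_Asy e g a' g1) :
    J_Asy e (fun s => f s + g s) (a + a') fun s => f1 s + g1 s :=
  ⟨h.o1.add h'.o1, (h.o2.add h'.o2).congr_left fun s => by ring⟩

theorem J_Asy.sub (h : J_Asy e f a f1) (h' : J_Asy e g a' g1) :
    J_Asy e (fun s => f s - g s) (a - a') fun s => f1 s - g1 s :=
  ⟨h.o1.sub h'.o1, (h.o2.sub h'.o2).congr_left fun s => by ring⟩

theorem J_Asy.mul (he : Tendsto e atTop (𝓝 0)) (h : J_Asy e f a f1) (h' : J_Asy e g a' g1) :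
    J_Asy e (fun s => f s * g s) (a * a') fun s => a * g1 s + a' * f1 s := by
  refine ⟨(h'.o1.const_mul_left a).add (h.o1.const_mul_left a'), ?_⟩
  have b1 : g =O[atTop] fun _ => (1 : ℝ) := (h'.tendsto he).isBigO_one ℝ
  have b2 : (fun s => a + f1 s) =O[atTop] fun _ => (1 : ℝ) :=
    ((h.o1.trans_tendsto he).const_add a).isBigO_one ℝ
  have c1 := (h.o2.mul b1).congr_right fun s => mul_one (e s * e s)
  have c2 := (b2.mul h'.o2).congr_right fun s => one_mul (e s * e s)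
  exact ((c1.add c2).add (h.o1.mul h'.o1)).congr_left fun s => by ring

theorem J_Asy.inv (he : Tendsto e atTop (𝓝 0)) (h : J_Asy e f a f1) (ha : a ≠ 0) :
    J_Asy e (fun s => (f s)⁻¹) a⁻¹ fun s => -(a ^ 2)⁻¹ * f1 s := by
  refine ⟨h.o1.const_mul_left _, ?_⟩
  have b1 : (fun s => (f s)⁻¹) =O[atTop] fun _ => (1 : ℝ) :=
    ((h.tendsto he).inv₀ ha).isBigO_one ℝ
  have b2 : (fun s => f1 s - a) =O[atTop] fun _ => (1 : ℝ) :=
    ((h.o1.trans_tendsto he).sub_const a).isBigO_one ℝ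
  have c1 := (b2.mul h.o2).congr_right fun s => one_mul (e s * e s)
  have c2 := (((c1.add (h.o1.mul h.o1)).mul b1).congr_right
    fun s => mul_one (e s * e s)).const_mul_left (a ^ 2)⁻¹
  refine c2.congr' ?_ EventuallyEq.rfl
  filter_upwards [(h.tendsto he).eventually_ne ha] with s hs
  field_simp
  ring

theorem sum_Asy {ι : Type} (t : Finset ι) {F F1 : ι → ℝ → ℝ} {A : ι → ℝ}
    (h : ∀ i, J_Asy e (F i) (A i) (F1 i)) :
    J_Asy e (fun s => ∑ i ∈ t, F i s) (∑ i ∈ t, A i) fun s => ∑ i ∈ t, F1 i s :=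
  ⟨IsBigO.fun_sum fun i _ => (h i).o1, (IsBigO.fun_sum fun i (_ : i ∈ t) => (h i).o2).congr_left fun s => by
    simp only [Finset.sum_sub_distrib]⟩

theorem G_Asy {G : ℝ → Mat 3} (he : Tendsto e atTop (𝓝 0))
    (h : ∀ i j, (fun s => (G s - 1) i j) =O[atTop] e) : Tendsto G atTop (𝓝 1) := by
  refine tendsto_pi_nhds.2 fun i => tendsto_pi_nhds.2 fun j => ?_
  have h1 := ((h i j).trans_tendsto he).add_const ((1 : Mat 3) i j)
  simpa using h1

theorem Y_Asy {G : ℝ → Mat 3} (he : Tendsto e atTop (𝓝 0))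
    (h : ∀ i j, (fun s => (G s - 1) i j) =O[atTop] e) (i j : Fin 3) :
    J_Asy e (fun s => (G s)⁻¹ i j) ((1 : Mat 3) i j) fun s => -(G s - 1) i j := by
  have hG := G_Asy he h
  have hd : Tendsto (fun s => (G s).det) atTop (𝓝 1) := by
    simpa [Function.comp_def] using ((continuous_id.matrix_det (A := fun M : Mat 3 => id M)).tendsto 1).comp hG
  have hY : Tendsto (fun s => (G s)⁻¹) atTop (𝓝 (1 : Mat 3)⁻¹) := by
    refine (continuousAt_matrix_inv (1 : Mat 3) ?_).tendsto.comp hG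
    rw [Ring.inverse_eq_inv', det_one]
    exact continuousAt_inv₀ one_ne_zero
  have hb : ∀ i j, (fun s => (G s)⁻¹ i j) =O[atTop] fun _ => (1 : ℝ) := fun i j =>
    (tendsto_pi_nhds.1 (tendsto_pi_nhds.1 hY i) j).isBigO_one ℝ
  refine ⟨(h i j).neg_left, ?_⟩
  have c1 : (fun s => ∑ l, (∑ m, (G s - 1) i m * (G s)⁻¹ m l) * (G s - 1) l j) =O[atTop]
      fun s => e s * e s :=
    IsBigO.fun_sum fun l _ => (IsBigO.fun_sum fun m _ =>
      ((h i m).mul (hb m l)).congr_right fun s => mul_one (e s)).mul (h l j)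
  refine c1.congr' ?_ EventuallyEq.rfl
  filter_upwards [hd.eventually_ne one_ne_zero] with s hs
  have e1 : (G s - 1) * (G s)⁻¹ * (G s - 1) = (G s)⁻¹ - 1 + (G s - 1) := by
    rw [Matrix.sub_mul, mul_nonsing_inv _ (Ne.isUnit hs), Matrix.one_mul, Matrix.sub_mul,
      Matrix.one_mul, Matrix.mul_sub, nonsing_inv_mul _ (Ne.isUnit hs), Matrix.mul_one]
    abel
  have e2 := congrFun (congrFun e1 i) j
  simp only [mul_apply] at e2
  rw [e2]
  simp only [Matrix.add_apply, Matrix.sub_apply]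
  ring

theorem tr_Asy {G H : ℝ → Mat 3} (he : Tendsto e atTop (𝓝 0))
    (h : ∀ i j, (fun s => (G s - 1) i j) =O[atTop] e) {w : ℝ → ℝ}
    (hH : ∀ i j, (fun s => w s * H s i j) =O[atTop] e) :
    J_Asy e (fun s => w s * ((G s)⁻¹ * H s).trace) 0 fun s => w s * (H s).trace := by
  refine (sum_Asy Finset.univ fun i => sum_Asy Finset.univ fun j =>
    (Y_Asy he h i j).mul he (mk0_Asy (hH j i))).congr (Eventually.of_forall fun s => ?_)
      (by simp) fun s => ?_
  · simp only [trace, diag_apply, mul_apply, Finset.mul_sum]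
    exact Finset.sum_congr rfl fun i _ => Finset.sum_congr rfl fun j _ => by ring
  · simp [trace, one_apply, Finset.mul_sum]

end

theorem e_Asy (hq : 0 < q) : Tendsto (fun s : ℝ => s ^ (-q / 2)) atTop (𝓝 0) := by
  simpa [neg_div] using tendsto_rpow_neg_atTop (half_pos hq)

theorem Dec.Ai_Asy (h : Dec c k q) (hq : 0 < q) :
    J_Asy (fun s => s ^ (-q / 2)) (fun s => (c.A s)⁻¹) 1 fun s => -(c.A s - 1) :=
  ((mk_Asy 1 h.A).inv (e_Asy hq) one_ne_zero).congr EventuallyEq.rfl inv_one fun s => by simp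

theorem Dec.h_Asy (h : Dec c k q) (hq : 0 < q) :
    J_Asy (fun s => s ^ (-q / 2)) (hf b c) (b + 3)
      fun s => s * (b * deriv c.A s + (dG c s).trace) := by
  have he := e_Asy hq
  refine (((const_Asy _ (b + 3 : ℝ)).add ((const_Asy _ (b : ℝ)).mul he
    ((mk0_Asy h.A1).mul he (h.Ai_Asy hq)))).add (tr_Asy he h.G h.G1)).congr
      (Eventually.of_forall fun s => ?_) (by simp) fun s => by ring
  simp only [hf, tf, Ym]
  ring

theorem Dec.S_Asy (h : Dec c k q) (hq : 0 < q) :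
    J_Asy (fun s => s ^ (-q / 2)) (Sf b c) (b + 3)
      fun s => -(b * (c.A s - 1)) - ((Gm c s).trace - 3) := by
  have he := e_Asy hq
  refine (((const_Asy _ (b : ℝ)).mul he (h.Ai_Asy hq)).add
    (sum_Asy Finset.univ fun i => Y_Asy he h.G i i)).congr
      (Eventually.of_forall fun s => ?_) (by simp) fun s => ?_
  · simp only [Sf, Ym, trace, diag_apply, div_eq_mul_inv]
  · simp only [trace, diag_apply, Matrix.sub_apply, one_apply_eq, Fin.sum_univ_three]
    ring

theorem Dec.k_Asy (h : Dec c k q) (hq : 0 < q) :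
    ∃ k1, J_Asy (fun s => s ^ (-q / 2)) (fun s => √s * kap b c k s) 0 k1 := by
  have he := e_Asy hq
  refine ⟨_, (((const_Asy _ (b : ℝ)).mul he ((mk0_Asy h.AK).mul he (h.Ai_Asy hq))).add
    (tr_Asy he h.G h.GK)).congr (Eventually.of_forall fun s => ?_) (by simp) fun s => rfl⟩
  simp only [kap, Ym]
  ring

theorem Dec.y_Asy (h : Dec c k q) (hq : 0 < q) :
    J_Asy (fun s => s ^ (-q / 2)) (fun s => 1 - yf b c k s) 0 fun s => ef b c s / (b + 3) := by
  have he := e_Asy hq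
  have hd : (b + 3 : ℝ) ≠ 0 := by positivity
  obtain ⟨k1, hk⟩ := h.k_Asy (b := b) hq
  refine ((const_Asy _ (1 : ℝ)).sub (((((h.h_Asy (b := b) hq).mul he (h.h_Asy (b := b) hq)).mul he
    ((mk_Asy 1 h.p).inv he one_ne_zero)).sub (hk.mul he hk)).mul he
      (((const_Asy _ (b + 3 : ℝ)).mul he (h.S_Asy (b := b) hq)).inv he
        (mul_ne_zero hd hd)))).congr ?_ (by field_simp; ring) fun s => ?_
  · filter_upwards [eventually_ge_atTop (0 : ℝ)] with s hs
    have e1 : √s * kap b c k s * (√s * kap b c k s) = s * kap b c k s ^ 2 := by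
      rw [mul_mul_mul_comm, Real.mul_self_sqrt hs, sq]
    simp only [e1, yf, div_eq_mul_inv, sq]
  · simp only [ef]
    field_simp
    ring

theorem Dec.Ff_pos (h : Dec c k q) (hq : 0 < q) : ∀ᶠ s in atTop, 0 < Ff b c k s := by
  have he := e_Asy hq
  obtain ⟨k1, hk⟩ := h.k_Asy (b := b) hq
  have h1 := ((h.h_Asy (b := b) hq).tendsto he).sub
    (((mk_Asy 1 h.p).tendsto he).sqrt.mul (hk.tendsto he).abs)
  have h2 : (0 : ℝ) < b + 3 - √1 * |0| := by
    rw [abs_zero, mul_zero, sub_zero]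
    positivity
  filter_upwards [h1.eventually (lt_mem_nhds h2), eventually_ge_atTop (0 : ℝ)] with s hs h0
  rw [abs_mul, abs_of_nonneg (Real.sqrt_nonneg s)] at hs
  rw [Ff, Real.sqrt_mul h0]
  linarith

theorem Dec.Mf_lim (h : Dec c k q) (hq : (b + 2 : ℝ) / 2 < q) {m : ℝ}
    (hm : Tendsto (fun s : ℝ => s ^ ((b + 2 : ℝ) / 2) * ef b c s) atTop (𝓝 ((b + 3) * m))) :
    Tendsto (Mf b c k) atTop (𝓝 m) := by
  have hq0 : 0 < q := lt_trans (by positivity) hq
  have he := e_Asy hq0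
  have hd : (b + 3 : ℝ) ≠ 0 := by positivity
  have hy := h.y_Asy (b := b) hq0
  have hdet : Tendsto (fun s => (Gm c s).det) atTop (𝓝 1) := by
    simpa [Function.comp_def] using ((continuous_id.matrix_det (A := fun M : Mat 3 => id M)).tendsto 1).comp
      (G_Asy he h.G)
  have hW : Tendsto (fun s => c.A s ^ b * (Gm c s).det) atTop (𝓝 1) := by
    simpa using (((mk_Asy 1 h.A).tendsto he).pow b).mul hdet
  have hW' := hW.rpow_const (p := ((b + 2) / (2 * (b + 3)) : ℝ)) (Or.inl one_ne_zero)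
  have h1 : Tendsto (fun s : ℝ => s ^ ((b + 2 : ℝ) / 2) * (s ^ (-q / 2) * s ^ (-q / 2))) atTop
      (𝓝 0) := by
    refine (tendsto_rpow_neg_atTop (sub_pos.2 hq)).congr' ?_
    filter_upwards [eventually_gt_atTop (0 : ℝ)] with s hs
    rw [← Real.rpow_add hs, ← Real.rpow_add hs]
    congr 1
    ring
  have h2 := ((Asymptotics.isBigO_refl (fun s : ℝ => s ^ ((b + 2 : ℝ) / 2)) atTop).mul
    hy.o2).trans_tendsto h1
  have h3 := hW'.mul ((hm.div_const (b + 3 : ℝ)).add h2)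
  rw [Real.one_rpow, one_mul, add_zero, mul_div_cancel_left₀ _ hd] at h3
  refine h3.congr' ?_
  filter_upwards [eventually_gt_atTop (0 : ℝ), hW.eventually (lt_mem_nhds zero_lt_one)] with s hs h0
  have e1 : (s ^ (b + 3)) ^ ((b + 2) / (2 * (b + 3)) : ℝ) = s ^ ((b + 2 : ℝ) / 2) := by
    rw [← Real.rpow_natCast, ← Real.rpow_mul hs.le]
    congr 1
    push_cast
    field_simp
  rw [Mf, Vf, mul_assoc (s ^ (b + 3)), Real.mul_rpow (by positivity) h0.le, e1]
  ring

end Vale.Agent.P366
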