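import Vale.Agent.P366.PDefs

/-! P366 Gen1: calculus of the inverse matrix and of the Christoffel symbols.
inv_contDiffAt: Matrix.inv_def, Ring.inverse_eq_inv', the entries of the adjugate are determinants (adjugate_apply, det_apply'), so they are ContDiffAt by contDiffAt_prod / ContDiffAt.sum; ContDiffAt.inv.
Derivative of the inverse: det is continuous, so G t * (G t)⁻¹ = 1 near the point; differentiate every entry of this identity (product rule) and multiply by the inverse.  A common lemma on a normed space F with HasFDerivAt gives both versions.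
chr_diff: pd i f = fun y => fderiv ℝ f y v is ContDiffAt 1 (ContDiffAt.fderiv_right, clm_apply).
compat: ∑ l, chr l k i * g l j = (∂k g_ij + ∂i g_kj - ∂j g_ki)/2 by mul_nonsing_inv and symmetry of g (as functions).
pd_inv: ∂P = -P (∂g) P, insert compat, P symmetric (transpose_nonsing_inv). -/

namespace Vale.Agent.P366

open Matrix Filter Topology

variable {n : ℕ} {g : Ten n} {x : E n}

theorem det_contDiffAt_Gen1 {F : Type*} [NormedAddCommGroup F] [NormedSpace ℝ F] {m : ℕ}
    {G : F → Mat m} {y : F} {k : WithTop ℕ∞} (h : ∀ a b, ContDiffAt ℝ k (fun t => G t a b) y) :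
    ContDiffAt ℝ k (fun t => (G t).det) y := by
  simp only [det_apply']
  exact ContDiffAt.sum fun σ _ => contDiffAt_const.mul (contDiffAt_prod fun i _ => h _ _)

theorem det_diffAt_Gen1 {F : Type*} [NormedAddCommGroup F] [NormedSpace ℝ F] {m : ℕ}
    {G : F → Mat m} {y : F} (h : ∀ a b, DifferentiableAt ℝ (fun t => G t a b) y) :
    DifferentiableAt ℝ (fun t => (G t).det) y := by
  simp only [det_apply']
  exact DifferentiableAt.fun_sum fun σ _ => (differentiableAt_const _).mul
    (HasFDerivAt.finsetProd fun i _ => (h _ _).hasFDerivAt).differentiableAt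

theorem inv_eq_Gen1 {m : ℕ} (A : Mat m) (a b : Fin m) :
    A⁻¹ a b = (A.det)⁻¹ * (A.updateRow b (Pi.single a 1)).det := by
  rw [Matrix.inv_def, Ring.inverse_eq_inv', Matrix.smul_apply, adjugate_apply, smul_eq_mul]

theorem inv_contDiffAt {F : Type*} [NormedAddCommGroup F] [NormedSpace ℝ F] {m : ℕ}
    {G : F → Mat m} {y : F} {k : WithTop ℕ∞} (h : ∀ a b, ContDiffAt ℝ k (fun t => G t a b) y)
    (hd : (G y).det ≠ 0) (a b : Fin m) : ContDiffAt ℝ k (fun t => (G t)⁻¹ a b) y := by
  simp only [inv_eq_Gen1]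
  refine ((det_contDiffAt_Gen1 h).inv hd).mul (det_contDiffAt_Gen1 fun c d => ?_)
  simp only [updateRow_apply]
  split_ifs
  exacts [contDiffAt_const, h c d]

theorem inv_hasDerivAt {m : ℕ} {G : ℝ → Mat m} {G' : Mat m} {s : ℝ}
    (h : ∀ a b, HasDerivAt (fun t => G t a b) (G' a b) s) (hd : (G s).det ≠ 0) (a b : Fin m) :
    HasDerivAt (fun t => (G t)⁻¹ a b) (-((G s)⁻¹ * G' * (G s)⁻¹) a b) s := by
  have hdet := det_diffAt_Gen1 fun a b => (h a b).differentiableAt
  have hi : ∀ a b, DifferentiableAt ℝ (fun t => (G t)⁻¹ a b) s := fun a b => by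
    simp only [inv_eq_Gen1]
    refine (hdet.inv hd).mul (det_diffAt_Gen1 fun c d => ?_)
    simp only [updateRow_apply]
    split_ifs
    exacts [differentiableAt_const _, (h c d).differentiableAt]
  let D : Mat m := of fun a b => deriv (fun t => (G t)⁻¹ a b) s
  have e : G' * (G s)⁻¹ + G s * D = 0 := by
    ext c d
    have h1 := HasDerivAt.fun_sum (u := Finset.univ) fun l _ => (h c l).fun_mul (hi l d).hasDerivAt
    have h2 : (fun t => ∑ l, G t c l * (G t)⁻¹ l d) =ᶠ[𝓝 s] fun _ => (1 : Mat m) c d := by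
      filter_upwards [hdet.continuousAt.eventually_ne hd] with t ht
      rw [← mul_apply, mul_nonsing_inv _ (Ne.isUnit ht)]
    have h3 := (h1.congr_of_eventuallyEq h2.symm).unique (hasDerivAt_const s _)
    simpa [mul_apply, D, Finset.sum_add_distrib] using h3
  have e2 : D = -((G s)⁻¹ * G' * (G s)⁻¹) := by
    have := congrArg ((G s)⁻¹ * ·) e
    simp only [Matrix.mul_add, ← Matrix.mul_assoc, nonsing_inv_mul _ (Ne.isUnit hd), Matrix.one_mul,
      Matrix.mul_zero] at this
    exact eq_neg_of_add_eq_zero_right this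
  have := (hi a b).hasDerivAt
  rwa [show deriv (fun t => (G t)⁻¹ a b) s = D a b from rfl, e2] at this

theorem sy_Gen1 (hs : ∀ y, (g y).IsSymm) (i j : Fin n) :
    (fun y => g y i j) = fun y => g y j i := funext fun y => ((hs y).apply i j).symm

theorem chr_symm (hs : ∀ y, (g y).IsSymm) (k i j : Fin n) : chr g k i j = chr g k j i := by
  funext x
  simp only [chr, sy_Gen1 hs i j]
  exact Finset.sum_congr rfl fun l _ => by ring

theorem Rg.inv_symm (h : Rg g x) (y : E n) (i j : Fin n) : (g y)⁻¹ i j = (g y)⁻¹ j i := by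
  rw [← transpose_apply (g y)⁻¹, transpose_nonsing_inv, (h.sy y).eq]

theorem Rg.inv_diff (h : Rg g x) (i j : Fin n) :
    DifferentiableAt ℝ (fun y => (g y)⁻¹ i j) x :=
  (inv_contDiffAt h.sm h.un i j).differentiableAt (by norm_num)

theorem Rg.chr_diff (h : Rg g x) (k i j : Fin n) : DifferentiableAt ℝ (chr g k i j) x := by
  have hp : ∀ a b c, DifferentiableAt ℝ (pd a fun y => g y b c) x := fun a b c =>
    (((h.sm b c).fderiv_right (m := 1) (by norm_num)).clm_apply contDiffAt_const).differentiableAt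
      one_ne_zero
  exact DifferentiableAt.fun_sum fun l _ => (h.inv_diff k l).mul
    ((((hp i j l).add (hp j i l)).sub (hp l i j)).mul_const (2 : ℝ)⁻¹)

theorem Rg.low_Gen1 (h : Rg g x) (k i j : Fin n) : ∑ l, chr g l k i x * g x l j =
    (pd k (fun y => g y i j) x + pd i (fun y => g y k j) x - pd j (fun y => g y k i) x) / 2 := by
  have e : ∀ a, ∑ l, g x j l * (g x)⁻¹ l a = (1 : Mat n) j a := fun a => by
    rw [← mul_apply, mul_nonsing_inv _ (Ne.isUnit h.un)]
  simp only [chr, Finset.sum_mul]
  rw [Finset.sum_comm]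
  have e2 : ∀ a (T : ℝ), ∑ l, (g x)⁻¹ l a * T * g x l j = (1 : Mat n) j a * T := fun a T => by
    rw [← e, Finset.sum_mul]
    exact Finset.sum_congr rfl fun l _ => by rw [(h.sy x).apply l j]; ring
  simp only [e2, one_apply, ite_mul, one_mul, zero_mul, Finset.sum_ite_eq, Finset.mem_univ, if_true]

theorem Rg.compat (h : Rg g x) (k i j : Fin n) : pd k (fun y => g y i j) x =
    ∑ l, (chr g l k i x * g x l j + chr g l k j x * g x i l) := by
  simp only [Finset.sum_add_distrib, (h.sy x).apply _ i, h.low_Gen1]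
  rw [sy_Gen1 h.sy j i]
  ring

theorem line_Gen1 {f : E n → ℝ} (hf : DifferentiableAt ℝ f x) (k : Fin n) :
    HasDerivAt (fun t : ℝ => f (x + t • EuclideanSpace.single k 1)) (pd k f x) 0 :=
  hf.hasFDerivAt.hasLineDerivAt _

theorem Rg.pd_inv (h : Rg g x) (k i j : Fin n) : pd k (fun y => (g y)⁻¹ i j) x =
    -∑ l, (chr g i k l x * (g x)⁻¹ l j + chr g j k l x * (g x)⁻¹ i l) := by
  let C : Mat n := of fun l a => chr g l k a x
  have h1 := inv_hasDerivAt (G := fun t : ℝ => g (x + t • EuclideanSpace.single k 1))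
    (G' := of fun a b => pd k (fun y => g y a b) x) (s := 0)
    (fun a b => line_Gen1 ((h.sm a b).differentiableAt (by norm_num)) k) (by simpa using h.un) i j
  rw [(line_Gen1 (h.inv_diff i j) k).unique h1]
  have e : (of fun a b => pd k (fun y => g y a b) x) = Cᵀ * g x + g x * C := by
    ext a b
    simp [h.compat, mul_apply, C, Finset.sum_add_distrib, mul_comm]
  have hu := Ne.isUnit h.un
  simp only [zero_smul, add_zero]
  rw [e, Matrix.mul_add, Matrix.add_mul, ← Matrix.mul_assoc, ← Matrix.mul_assoc,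
    nonsing_inv_mul _ hu, Matrix.one_mul, Matrix.mul_assoc _ (g x), mul_nonsing_inv _ hu,
    Matrix.mul_one]
  simp [mul_apply, C, Finset.sum_add_distrib, mul_comm, add_comm]

end Vale.Agent.P366
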