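import Vale.Agent.P366.Tab
import Vale.Agent.P366.Gen1

/-! P366 C1a: contracted Christoffel symbols of g = sym L c (C not diagonal).  s = ‖y‖^2 = x·x (dot_self), x = y.ofLp, P = Pm (inv_eq), p = pf.
YC: Y = G⁻¹ commutes with C and s * Y C = 1 - A Y (from Y G = 1); so Y C is symmetric and, by Qt.mulX and the antisymmetry of eps, ∑ a e, (Y C) a e * (L e (L a x))·w = -tr(Y C) (x·w).  Also tr(Y dG) = A' tr Y + tr(Y C) + s tr(Y C1).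
gam: ∑ l, chr l l k = ∑ l m, P l m * ta(ev l, ev k, ev m); ctr_Pm with f u w = ta u (ev k) w (Tri.bil13); use ta_symm and ta(v,u,u) or directly ta u v w + ta w v u = ds v u w.  With the table: write ta u (ev k) u' through ta_eq, or note ta(h,v,h) = A' (x·v)|h|², ta(x,v,x) = s p' (x·v), ∑ Y a e ta(X_a,v,X_e)/s = tr(Y dG)(x·v).
Wz k = ∑ l, P k l * Γc l with Γc l = ∑ i j, P i j ta(ev i, ev j, ev l) = (B S - t + p'/p - (3 - A tr Y)/s) x l by ctr_Pm (Tri.bil12), ta_hh, ta_xx, ta_XX, sum_hh; then Pm_x, and s B = p - A. -/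

namespace Vale.Agent.P366

open Matrix

variable {n b : ℕ} {L : Fin 3 → Mat n} {c : Co} {y : E n}

theorem LX_C1a (q : Qt L) (e a : Fin 3) (x w : Fin n → ℝ) : (L e *ᵥ (L a *ᵥ x)) ⬝ᵥ w =
    -(if e = a then x ⬝ᵥ w else 0) + ∑ f, eps e a f * ((L f *ᵥ x) ⬝ᵥ w) := by
  rw [q.mulX, add_dotProduct, neg_dotProduct, sum_dotProduct]
  split_ifs <;> simp [smul_dotProduct]

theorem Y_C1a (ok : c.Ok) {s : ℝ} (hy : Gd c s) : (Ym c s).IsSymm ∧ (Ym c s * c.C s).IsSymm ∧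
    s * (Ym c s * c.C s).trace = 3 - c.A s * (Ym c s).trace := by
  have h1 : (Ym c s).IsSymm := (ok.Gm_symm s).inv
  have h2 : Ym c s * Gm c s = 1 := nonsing_inv_mul _ hy.G.det_pos.ne'.isUnit
  rw [Gm, mul_add, mul_smul_comm, mul_smul_comm, mul_one] at h2
  have h3 : Ym c s * c.C s = s⁻¹ • (1 - c.A s • Ym c s) := by
    rw [← h2, add_sub_cancel_left, inv_smul_smul₀ hy.pos.ne']
  refine ⟨h1, h3 ▸ (isSymm_one.sub (h1.smul _)).smul _, ?_⟩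
  rw [h3, trace_smul, smul_eq_mul, mul_inv_cancel_left₀ hy.pos.ne', trace_sub, trace_smul,
    trace_one]
  simp

theorem XvX_C1a (h : St L b c) (x v : Fin n → ℝ) (a e : Fin 3) :
    ta L c x (L a *ᵥ x) v (L e *ᵥ x) = (x ⬝ᵥ x) * ((x ⬝ᵥ v) *
      ((if a = e then deriv c.A (x ⬝ᵥ x) else 0) + x ⬝ᵥ x * c.C1 (x ⬝ᵥ x) a e) +
      ∑ f, ∑ g, c.C (x ⬝ᵥ x) f g * ((L g *ᵥ x) ⬝ᵥ v) * eps f a e +
      ∑ f, c.C (x ⬝ᵥ x) f a * ((if f = e then x ⬝ᵥ v else 0) -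
        ∑ g, eps f e g * ((L g *ᵥ x) ⬝ᵥ v))) := by
  have h1 : ∀ f, (L f *ᵥ v) ⬝ᵥ (L e *ᵥ x) = (if f = e then x ⬝ᵥ v else 0) -
      ∑ g, eps f e g * ((L g *ᵥ x) ⬝ᵥ v) := fun f => by
    rw [h.q.adj, dotProduct_comm, LX_C1a h.q]
    ring
  have h2 : ∀ f, (L f *ᵥ (L a *ᵥ x)) ⬝ᵥ (L e *ᵥ x) = x ⬝ᵥ x * eps f a e := fun f => by
    rw [LX_C1a h.q]
    simp [h.q.xX, h.q.XX, mul_comm]
  rw [h.ta_eq]
  simp only [h1, h2, tn_bil, h.q.xX, h.q.XX, Pi.zero_apply, zero_mul, mul_zero, ite_mul, mul_ite,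
    Finset.sum_ite_eq', Finset.mem_univ, if_true, Finset.sum_const_zero, mul_add,
    Finset.sum_add_distrib, add_zero, zero_add, sub_zero, ite_self]
  simp only [Fin.sum_univ_three]
  split_ifs <;> ring

theorem ga_C1a (h : St L b c) {x : Fin n → ℝ} (hx : x ≠ 0) (hy : Gd c (x ⬝ᵥ x)) (v : Fin n → ℝ) :
    ∑ i, ∑ j, Pm L x (c.A (x ⬝ᵥ x)) (pf c (x ⬝ᵥ x)) (Ym c (x ⬝ᵥ x)) i j *
      ta L c x (ev i) v (ev j) =
      (tf b c (x ⬝ᵥ x) + p1 c (x ⬝ᵥ x) / pf c (x ⬝ᵥ x)) * (x ⬝ᵥ v) := by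
  rw [h.q.ctr_Pm hx _ _ _ ((ta_tri L c x).bil13 v)]
  have h1 : ∀ i, ta L c x (Pj L x i) v (Pj L x i) =
      deriv c.A (x ⬝ᵥ x) * (x ⬝ᵥ v) * (Pj L x i ⬝ᵥ Pj L x i) := fun i => by
    have hz := h.q.hz_Pj hx i
    rw [h.ta_eq]
    simp only [tn_bil, hz.1, hz.2, h.q.Xx, zero_mul, mul_zero, Finset.sum_const_zero, add_zero]
    ring
  have h2 : ta L c x x v x = x ⬝ᵥ x * p1 c (x ⬝ᵥ x) * (x ⬝ᵥ v) := by
    rw [h.ta_eq]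
    simp only [tn_bil, h.q.Xx, zero_mul, mul_zero, Finset.sum_const_zero, add_zero,
      Pi.zero_apply, p1, dotProduct_comm v x]
    ring
  obtain ⟨y1, y2, -⟩ := Y_C1a h.ok hy
  have c1 := h.ok.sy (x ⬝ᵥ x)
  have d1 := h.ok.C1_symm (x ⬝ᵥ x)
  have hs := hy.pos.ne'
  have hp := hy.p.ne'
  simp only [h1, h2, XvX_C1a h, ← Finset.mul_sum, h.q.sum_hh hx h.dim, mul_left_comm _ (x ⬝ᵥ x),
    mul_div_cancel_left₀ _ hs]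
  have e1 := y2.apply 0 1
  have e2 := y2.apply 0 2
  have e3 := y2.apply 1 2
  simp only [tf, dG, trace, diag, Matrix.mul_apply, Fin.sum_univ_three, Matrix.add_apply,
    Matrix.smul_apply, Matrix.one_apply, smul_eq_mul] at e1 e2 e3 ⊢
  simp [eps, y1.apply 0 1, y1.apply 0 2, y1.apply 1 2, c1.apply 0 1, c1.apply 0 2, c1.apply 1 2,
    d1.apply 0 1, d1.apply 0 2, d1.apply 1 2] at e1 e2 e3 ⊢
  field_simp
  linear_combination pf c (x ⬝ᵥ x) * ((L 1 *ᵥ x) ⬝ᵥ v * e2 - (L 2 *ᵥ x) ⬝ᵥ v * e1 -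
    (L 0 *ᵥ x) ⬝ᵥ v * e3)

theorem gc_C1a (h : St L b c) {x : Fin n → ℝ} (hx : x ≠ 0) (hy : Gd c (x ⬝ᵥ x)) (w : Fin n → ℝ) :
    ∑ i, ∑ j, Pm L x (c.A (x ⬝ᵥ x)) (pf c (x ⬝ᵥ x)) (Ym c (x ⬝ᵥ x)) i j *
      ta L c x (ev i) (ev j) w = pf c (x ⬝ᵥ x) * (wf b c (x ⬝ᵥ x) +
        (tf b c (x ⬝ᵥ x) + p1 c (x ⬝ᵥ x) / pf c (x ⬝ᵥ x)) / pf c (x ⬝ᵥ x)) * (x ⬝ᵥ w) := by
  rw [h.q.ctr_Pm hx _ _ _ ((ta_tri L c x).bil12 w)]
  obtain ⟨y1, y2, y3⟩ := Y_C1a h.ok hy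
  have c1 := h.ok.sy (x ⬝ᵥ x)
  have d1 := h.ok.C1_symm (x ⬝ᵥ x)
  have hs := hy.pos.ne'
  have hp := hy.p.ne'
  have hA := hy.A.ne'
  have hB : c.B (x ⬝ᵥ x) = (pf c (x ⬝ᵥ x) - c.A (x ⬝ᵥ x)) / (x ⬝ᵥ x) := by
    rw [pf, add_sub_cancel_left, mul_div_cancel_left₀ _ hs]
  simp only [h.ta_hh (h.q.hz_Pj hx _) (h.q.hz_Pj hx _), h.ta_xx, h.ta_XX, LX_C1a h.q,
    ← Finset.mul_sum, ← Finset.sum_mul, h.q.sum_hh hx h.dim]
  have e1 := y2.apply 0 1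
  have e2 := y2.apply 0 2
  have e3 := y2.apply 1 2
  simp only [wf, hf, Sf, tf, dG, trace, diag, Matrix.mul_apply, Fin.sum_univ_three, Matrix.add_apply,
    Matrix.smul_apply, Matrix.one_apply, smul_eq_mul, hB] at e1 e2 e3 y3 ⊢
  simp [eps, y1.apply 0 1, y1.apply 0 2, y1.apply 1 2, c1.apply 0 1, c1.apply 0 2, c1.apply 1 2,
    d1.apply 0 1, d1.apply 0 2, d1.apply 1 2] at e1 e2 e3 y3 ⊢
  field_simp
  linear_combination pf c (x ⬝ᵥ x) * c.A (x ⬝ᵥ x) * (2 * (x ⬝ᵥ x) * ((L 2 *ᵥ x) ⬝ᵥ w * e1 -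
    (L 1 *ᵥ x) ⬝ᵥ w * e2 + (L 0 *ᵥ x) ⬝ᵥ w * e3) - x ⬝ᵥ w * y3)

theorem St.rg (h : St L b c) (hy : Gd c (‖y‖ ^ 2)) : Rg (sym L c) y := by
  refine ⟨fun i j => (sym_contDiff L h.ok i j).contDiffAt, sym_symm L h.ok, ?_⟩
  rw [h.det_eq hy]
  exact (mul_pos (mul_pos (pow_pos hy.A _) hy.p) hy.G.det_pos).ne'

theorem St.Px (h : St L b c) (hy : Gd c (‖y‖ ^ 2)) (i : Fin n) :
    ∑ k, (sym L c y)⁻¹ i k * y k = y i / pf c (‖y‖ ^ 2) := by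
  rw [h.inv_eq hy, div_eq_inv_mul]
  exact congrFun (h.q.Pm_x hy.ne _ _ _) i

theorem St.N2_eq (h : St L b c) (hy : Gd c (‖y‖ ^ 2)) :
    N2 (sym L c) y = ‖y‖ ^ 2 / pf c (‖y‖ ^ 2) := by
  rw [N2, ← dot_self y, dotProduct, Finset.sum_div]
  refine Finset.sum_congr rfl fun k _ => ?_
  rw [mul_div_assoc, show ∑ i, y i * y i = ‖y‖ ^ 2 from dot_self y, ← h.Px hy, Finset.mul_sum]
  exact Finset.sum_congr rfl fun l _ => by ring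

theorem St.gam_eq (h : St L b c) (hy : Gd c (‖y‖ ^ 2)) (k : Fin n) : gam (sym L c) k y =
    (tf b c (‖y‖ ^ 2) + p1 c (‖y‖ ^ 2) / pf c (‖y‖ ^ 2)) * y k := by
  have h1 := ga_C1a h hy.ne (dot_self y ▸ hy) (ev k)
  rw [dot_self, dot_ev_Der] at h1
  simp only [gam, chr_sym L h.ok, h.inv_eq hy]
  exact h1

theorem St.Wz_eq (h : St L b c) (hy : Gd c (‖y‖ ^ 2)) (k : Fin n) : Wz (sym L c) k y =
    (wf b c (‖y‖ ^ 2) + (tf b c (‖y‖ ^ 2) + p1 c (‖y‖ ^ 2) / pf c (‖y‖ ^ 2)) / pf c (‖y‖ ^ 2)) *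
      y k := by
  have h1 := fun l => gc_C1a h hy.ne (dot_self y ▸ hy) (ev l)
  simp only [dot_self, dot_ev_Der, ← h.inv_eq hy] at h1
  have h2 : Wz (sym L c) k y = ∑ l, (sym L c y)⁻¹ k l * ∑ i, ∑ j, (sym L c y)⁻¹ i j *
      ta L c y.ofLp (ev i) (ev j) (ev l) := by
    simp only [Wz, chr_sym L h.ok, Finset.mul_sum]
    refine Eq.trans ?_ Finset.sum_comm
    refine Finset.sum_congr rfl fun i _ => Finset.sum_comm.trans ?_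
    exact Finset.sum_congr rfl fun l _ => Finset.sum_congr rfl fun j _ => mul_left_comm _ _ _
  have hp := hy.p.ne'
  simp only [h2, h1, mul_left_comm ((sym L c y)⁻¹ k _), ← Finset.mul_sum, h.Px hy]
  field_simp

theorem St.Wv_eq (h : St L b c) (hy : Gd c (‖y‖ ^ 2)) (k : Fin n) :
    Wv (sym L c) k y = wf b c (‖y‖ ^ 2) * y k := by
  simp only [Wv, h.Wz_eq hy, h.gam_eq hy, mul_left_comm ((sym L c y)⁻¹ k _), ← Finset.mul_sum,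
    (h.rg hy).inv_symm y _ k, h.Px hy]
  ring

end Vale.Agent.P366
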