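import Vale.Agent.P366.Gen1

/-! P366 Gen3: three general identities.
dvg_mom: mom g K y i j = K y i j - τ y * g y i j with τ = trg g K differentiable at x (inv_diff); product rule; the τ terms cancel by compat; ∑ i k, P i k * ∂kτ * g i j = ∂jτ.
thp_eq: con g j y = y j / √(N2 g y), N2 is differentiable and positive at x, so pd i (con g j) x = δ/√N - x j * c i for some numbers c i; ∑ j, tang i j * x j = 0 because ∑ j, (P x)_j x_j = N.
cs_cur: Cauchy-Schwarz for the positive form P = g⁻¹ (PosDef.inv): J·v = J ⬝ P (g v) and (g v) ⬝ P (g v) = v ⬝ g v; e.g. discrim_le_zero applied to t ↦ (J + t g v) ⬝ P (J + t g v); Real.abs_le_sqrt, Real.sqrt_mul. -/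

namespace Vale.Agent.P366

open Matrix

variable {n : ℕ} {g K : Ten n} {x : E n}

theorem pd_mul_Gen3 {f h : E n → ℝ} (hf : DifferentiableAt ℝ f x) (hh : DifferentiableAt ℝ h x)
    (k : Fin n) : pd k (fun y => f y * h y) x = pd k f x * h x + f x * pd k h x := by
  unfold pd
  rw [fderiv_fun_mul hf hh]
  simp only [_root_.add_apply, _root_.smul_apply, smul_eq_mul]
  ring

theorem pd_sub_Gen3 {f h : E n → ℝ} (hf : DifferentiableAt ℝ f x) (hh : DifferentiableAt ℝ h x)
    (k : Fin n) : pd k (fun y => f y - h y) x = pd k f x - pd k h x := by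
  unfold pd
  rw [fderiv_fun_sub hf hh]
  simp only [_root_.sub_apply]

theorem coord_Gen3 (j : Fin n) (x : E n) :
    HasFDerivAt (fun y : E n => y j) (EuclideanSpace.proj j : E n →L[ℝ] ℝ) x :=
  (EuclideanSpace.proj j : E n →L[ℝ] ℝ).hasFDerivAt

theorem pd_coord_Gen3 (i j : Fin n) (x : E n) :
    pd i (fun y : E n => y j) x = if i = j then 1 else 0 := by
  unfold pd
  rw [(coord_Gen3 j x).fderiv]
  by_cases h : i = j
  · subst h; simp
  · simp [h, Ne.symm h]

theorem cs_Gen3 {P : Mat n} (hP : P.PosDef) (a b : Fin n → ℝ) :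
    (a ⬝ᵥ P *ᵥ b) ^ 2 ≤ (a ⬝ᵥ P *ᵥ a) * (b ⬝ᵥ P *ᵥ b) := by
  have hs : Pᵀ = P := by
    have := hP.isHermitian
    rwa [Matrix.IsHermitian, conjTranspose_eq_transpose_of_trivial] at this
  have hsym : b ⬝ᵥ P *ᵥ a = a ⬝ᵥ P *ᵥ b := by
    rw [dotProduct_mulVec, ← mulVec_transpose, hs, dotProduct_comm]
  have hq : ∀ t : ℝ, 0 ≤ (b ⬝ᵥ P *ᵥ b) * (t * t) + (2 * (a ⬝ᵥ P *ᵥ b)) * t + a ⬝ᵥ P *ᵥ a := by
    intro t
    have h0 := hP.posSemidef.dotProduct_mulVec_nonneg (a + t • b)
    rw [star_trivial, mulVec_add, mulVec_smul, add_dotProduct, dotProduct_add, dotProduct_add,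
      dotProduct_smul, smul_dotProduct, smul_dotProduct, dotProduct_smul, hsym] at h0
    simp only [smul_eq_mul] at h0
    linarith
  have hd := discrim_le_zero hq
  rw [discrim] at hd
  nlinarith

theorem Rg.dvg_mom (h : Rg g x) (hK : ∀ i j, DifferentiableAt ℝ (fun y => K y i j) x) (j : Fin n) :
    dvg g (mom g K) j x = dvg g K j x - pd j (trg g K) x := by
  have hg : ∀ a b, DifferentiableAt ℝ (fun y => g y a b) x := fun a b =>
    (h.sm a b).differentiableAt (by simp)
  have hτ : DifferentiableAt ℝ (trg g K) x := by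
    unfold trg
    exact DifferentiableAt.fun_sum fun a _ => DifferentiableAt.fun_sum fun b _ =>
      (h.inv_diff a b).mul (hK a b)
  have hm : ∀ y a b, mom g K y a b = K y a b - trg g K y * g y a b := fun y a b => by
    simp only [mom, Matrix.sub_apply, Matrix.smul_apply, smul_eq_mul]
  have h1 : ∀ i k, pd k (fun y => mom g K y i j) x -
      ∑ l, (chr g l k i x * mom g K x l j + chr g l k j x * mom g K x i l) =
      (pd k (fun y => K y i j) x - ∑ l, (chr g l k i x * K x l j + chr g l k j x * K x i l)) -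
        pd k (trg g K) x * g x i j := by
    intro i k
    simp only [hm]
    rw [pd_sub_Gen3 (hK i j) (hτ.fun_mul (hg i j)), pd_mul_Gen3 hτ (hg i j), h.compat k i j,
      Finset.mul_sum]
    have h2 : ∑ l, (chr g l k i x * (K x l j - trg g K x * g x l j) +
        chr g l k j x * (K x i l - trg g K x * g x i l)) =
        ∑ l, (chr g l k i x * K x l j + chr g l k j x * K x i l) -
          ∑ l, trg g K x * (chr g l k i x * g x l j + chr g l k j x * g x i l) := by
      rw [← Finset.sum_sub_distrib]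
      exact Finset.sum_congr rfl fun l _ => by ring
    rw [h2]
    ring
  have h3 : ∑ i, ∑ k, (g x)⁻¹ i k * (pd k (trg g K) x * g x i j) = pd j (trg g K) x := by
    rw [Finset.sum_comm]
    have h4 : ∀ k, ∑ i, (g x)⁻¹ i k * (pd k (trg g K) x * g x i j) =
        pd k (trg g K) x * (1 : Mat n) k j := by
      intro k
      rw [← nonsing_inv_mul (g x) (Ne.isUnit h.un), mul_apply, Finset.mul_sum]
      exact Finset.sum_congr rfl fun i _ => by rw [h.inv_symm x i k]; ring
    simp only [h4, one_apply, mul_ite, mul_one, mul_zero, Finset.sum_ite_eq', Finset.mem_univ,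
      if_true]
  unfold dvg
  simp only [h1]
  rw [← h3, ← Finset.sum_sub_distrib]
  refine Finset.sum_congr rfl fun i _ => ?_
  rw [← Finset.sum_sub_distrib]
  exact Finset.sum_congr rfl fun k _ => by ring

theorem Rg.thp_eq (h : Rg g x) (hN : 0 < N2 g x) : thp g K x = ∑ i, ∑ j,
    ((g x)⁻¹ i j - (∑ k, (g x)⁻¹ i k * x k) * (∑ k, (g x)⁻¹ j k * x k) / N2 g x) *
      (((if i = j then 1 else 0) - ∑ k, chr g k i j x * x k) / √(N2 g x) + K x i j) := by
  have hs : 0 < √(N2 g x) := Real.sqrt_pos.2 hN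
  have hNd : DifferentiableAt ℝ (N2 g) x := by
    unfold N2
    exact DifferentiableAt.fun_sum fun a _ => DifferentiableAt.fun_sum fun b _ =>
      ((h.inv_diff a b).mul (coord_Gen3 a x).differentiableAt).mul
        (coord_Gen3 b x).differentiableAt
  have hu : DifferentiableAt ℝ (fun y => (√(N2 g y))⁻¹) x := (hNd.sqrt hN.ne').inv hs.ne'
  have hc : ∀ j, con g j = fun y => y j * (√(N2 g y))⁻¹ := fun j => by
    funext y
    rw [← div_eq_mul_inv]
    rfl
  have hpd : ∀ i j, pd i (con g j) x = (if i = j then 1 else 0) * (√(N2 g x))⁻¹ +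
      x j * pd i (fun y => (√(N2 g y))⁻¹) x := fun i j => by
    rw [hc j, pd_mul_Gen3 (coord_Gen3 j x).differentiableAt hu, pd_coord_Gen3]
  have hv : ∀ (c : Fin n → ℝ), ∑ k, c k * con g k x = (∑ k, c k * x k) * (√(N2 g x))⁻¹ := by
    intro c
    rw [Finset.sum_mul]
    exact Finset.sum_congr rfl fun k _ => by rw [hc k]; ring
  have hsq : (√(N2 g x))⁻¹ * (√(N2 g x))⁻¹ = (N2 g x)⁻¹ := by
    rw [← mul_inv, Real.mul_self_sqrt hN.le]
  have ht : ∀ i j, tang g x i j = (g x)⁻¹ i j -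
      (∑ k, (g x)⁻¹ i k * x k) * (∑ k, (g x)⁻¹ j k * x k) / N2 g x := fun i j => by
    unfold tang
    rw [hv, hv, div_eq_mul_inv, ← hsq]
    ring
  have hz : ∀ i, ∑ j, tang g x i j * x j = 0 := fun i => by
    have h1 : ∑ j, (∑ k, (g x)⁻¹ j k * x k) * x j = N2 g x := by
      unfold N2
      refine Finset.sum_congr rfl fun j _ => ?_
      rw [Finset.sum_mul]
      exact Finset.sum_congr rfl fun k _ => by ring
    have h2 : ∀ j, tang g x i j * x j = (g x)⁻¹ i j * x j -
        (∑ k, (g x)⁻¹ i k * x k) / N2 g x * ((∑ k, (g x)⁻¹ j k * x k) * x j) := fun j => by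
      rw [ht]; ring
    simp only [h2]
    rw [Finset.sum_sub_distrib, ← Finset.mul_sum, h1, div_mul_cancel₀ _ hN.ne', sub_self]
  unfold thp
  rw [← Finset.sum_add_distrib]
  refine Finset.sum_congr rfl fun i _ => ?_
  have h3 : ∑ j, tang g x i j * x j * pd i (fun y => (√(N2 g y))⁻¹) x = 0 := by
    rw [← Finset.sum_mul, hz, zero_mul]
  rw [← Finset.sum_add_distrib, ← sub_eq_zero, ← Finset.sum_sub_distrib]
  refine Eq.trans (Finset.sum_congr rfl fun j _ => ?_) h3
  rw [← ht, hpd, hv, div_eq_mul_inv]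
  ring

theorem cs_cur (hg : (g x).PosDef) (v : Fin n → ℝ) :
    |∑ j, dvg g (mom g K) j x * v j| ≤ curN g K x * √(v ⬝ᵥ g x *ᵥ v) := by
  have hu : IsUnit (g x).det := hg.det_pos.ne'.isUnit
  have hP := hg.inv
  have h1 : (g x)⁻¹ *ᵥ (g x *ᵥ v) = v := by
    rw [mulVec_mulVec, nonsing_inv_mul _ hu, one_mulVec]
  have h2 := cs_Gen3 hP (fun j => dvg g (mom g K) j x) (g x *ᵥ v)
  rw [h1, dotProduct_comm (g x *ᵥ v) v] at h2
  have h3 : (fun j => dvg g (mom g K) j x) ⬝ᵥ (g x)⁻¹ *ᵥ (fun j => dvg g (mom g K) j x) =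
      ∑ i, ∑ j, (g x)⁻¹ i j * dvg g (mom g K) i x * dvg g (mom g K) j x := by
    simp only [dotProduct, mulVec, Finset.mul_sum]
    exact Finset.sum_congr rfl fun i _ => Finset.sum_congr rfl fun j _ => by ring
  have h4 := hP.posSemidef.dotProduct_mulVec_nonneg (fun j => dvg g (mom g K) j x)
  rw [star_trivial] at h4
  unfold curN
  rw [← h3, ← Real.sqrt_mul h4]
  exact Real.abs_le_sqrt h2

end Vale.Agent.P366
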