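import Vale.Agent.P366.C1a
import Vale.Agent.P366.Gen3

/-! P366 C1b: trace of K, the expansion θ₊ and the ADM integrand.  s = ‖y‖^2, x = y.ofLp.
trg_eq: ctr_Pm with f u v = u ⬝ᵥ K *ᵥ v, tn_bil: K(h,h) = AK |h|², K(x,x) = s pf k, K(X_a,X_e) = s (Gm k) a e; sum_hh; trace (Y * GK) = ∑ a e, Y a e * GK e a and GK symmetric.
thp_eq: Rg.thp_eq, Px, N2_eq; ∑ P i j δ = S + 1/p (trg_eq-like, or ctr_Pm with f = dotProduct), ∑ P i j Γ^k_ij x_k = Wz·x, ∑ x_i x_j Γ^k_ij x_k = ta(x,x,x)/p = s² p'/p; the first sum equals hf/p; finally (hf/p)/√(s/p) = hf/√(s p).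
ef_eq: the left side is ∑ j, (ds (ev j) x (ev j) - ds x (ev j) (ev j)) (pd_sym, lin_ev); contract with 1 = Pm L x 1 1 1 (Pm_one, ctr_Pm), or compute with traces (trace (L a) = 0).  ef uses n = b + 4, p - 1 = A - 1 + s B, tr G = 3 A + s tr C. -/

namespace Vale.Agent.P366

open Matrix

variable {n b : ℕ} {L : Fin 3 → Mat n} {c k : Co} {y : E n}

theorem bil_C1b (M : Mat n) : Bil fun u v => u ⬝ᵥ M *ᵥ v :=
  ⟨fun u => ⟨fun v w => by simp only [mulVec_add, dotProduct_add],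
      fun r v => by simp only [mulVec_smul, dotProduct_smul]⟩,
    fun v => ⟨fun u w => by simp only [add_dotProduct], fun r u => by simp only [smul_dotProduct]⟩⟩

theorem tn_hh_C1b {x u : Fin n → ℝ} (hu : Hz L x u) (A B : ℝ) (C : Mat 3) (D : Fin 3 → ℝ) :
    u ⬝ᵥ tn L x A B C D *ᵥ u = A * (u ⬝ᵥ u) := by
  rw [tn_bil]
  simp [hu.1, hu.2]

theorem tn_xx_C1b (q : Qt L) (x : Fin n → ℝ) (A B : ℝ) (C : Mat 3) (D : Fin 3 → ℝ) :
    x ⬝ᵥ tn L x A B C D *ᵥ x = x ⬝ᵥ x * (A + x ⬝ᵥ x * B) := by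
  rw [tn_bil]
  simp only [q.Xx, mul_zero, zero_mul, add_zero, Finset.sum_const_zero]
  ring

theorem tn_XX_C1b (q : Qt L) (x : Fin n → ℝ) (A B : ℝ) (C : Mat 3) (D : Fin 3 → ℝ) (a e : Fin 3) :
    (L a *ᵥ x) ⬝ᵥ tn L x A B C D *ᵥ (L e *ᵥ x) =
      x ⬝ᵥ x * (A • (1 : Mat 3) + (x ⬝ᵥ x) • C) a e := by
  rw [tn_bil]
  simp only [q.xX, q.XX, mul_zero, zero_mul, add_zero, Finset.sum_const_zero, mul_ite, ite_mul,
    Finset.sum_ite_eq', Finset.mem_univ, if_true, Matrix.add_apply, Matrix.smul_apply,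
    smul_eq_mul, Matrix.one_apply]
  split_ifs <;> ring

theorem ctr_C1b (q : Qt L) {x : Fin n → ℝ} (hx : x ≠ 0) (hn : n = b + 4) (A p : ℝ) (Y : Mat 3)
    (A' B' : ℝ) (C' : Mat 3) (D' : Fin 3 → ℝ) :
    ∑ i, ∑ j, Pm L x A p Y i j * tn L x A' B' C' D' i j =
      b * A' / A + (A' + x ⬝ᵥ x * B') / p +
        ∑ a, ∑ e, Y a e * (A' • (1 : Mat 3) + (x ⬝ᵥ x) • C') a e := by
  have hs := ne_Qt2 hx
  have h := q.ctr_Pm hx A p Y (bil_C1b (tn L x A' B' C' D'))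
  simp only [ev_mul_Der] at h
  rw [h]
  simp only [fun i => tn_hh_C1b (q.hz_Pj hx i), tn_xx_C1b q, tn_XX_C1b q]
  rw [← Finset.mul_sum, q.sum_hh hx hn, mul_div_mul_left _ _ hs, mul_comm A']
  refine congrArg _ (Finset.sum_congr rfl fun a _ => Finset.sum_congr rfl fun e _ => ?_)
  field_simp

theorem tr_C1b (q : Qt L) {x : Fin n → ℝ} (hx : x ≠ 0) {f : (Fin n → ℝ) → (Fin n → ℝ) → ℝ}
    (hf : Bil f) : ∑ j, f (ev j) (ev j) = ∑ i, f (Pj L x i) (Pj L x i) + f x x / (x ⬝ᵥ x) +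
      ∑ a, f (L a *ᵥ x) (L a *ᵥ x) / (x ⬝ᵥ x) := by
  have h := q.ctr_Pm hx 1 1 1 hf
  rw [q.Pm_one hx] at h
  simpa only [Matrix.one_apply, ite_mul, one_mul, zero_mul, Finset.sum_ite_eq, Finset.mem_univ,
    if_true, div_one, mul_one, ite_div, zero_div] using h

theorem trace_C1b (Y G : Mat 3) (hG : G.IsSymm) : (Y * G).trace = ∑ a, ∑ e, Y a e * G a e := by
  simp only [Matrix.trace, Matrix.diag_apply, Matrix.mul_apply]
  refine Finset.sum_congr rfl fun a _ => Finset.sum_congr rfl fun e _ => ?_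
  rw [hG.apply a e]

theorem St.trg_eq (h : St L b c) (hk : k.Ok) (hy : Gd c (‖y‖ ^ 2)) :
    trg (sym L c) (sym L k) y = pf k (‖y‖ ^ 2) / pf c (‖y‖ ^ 2) + kap b c k (‖y‖ ^ 2) := by
  unfold trg
  rw [h.inv_eq hy]
  unfold sym
  rw [ctr_C1b h.q hy.ne h.dim, dot_self, kap, trace_C1b _ _ (hk.Gm_symm _)]
  simp only [pf, Gm]
  ring

theorem St.dl_C1b (h : St L b c) (hy : Gd c (‖y‖ ^ 2)) :
    ∑ i, ∑ j, (sym L c y)⁻¹ i j * (if i = j then 1 else 0) =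
      Sf b c (‖y‖ ^ 2) + 1 / pf c (‖y‖ ^ 2) := by
  have h1 := ctr_C1b h.q hy.ne h.dim (c.A (‖y‖ ^ 2)) (pf c (‖y‖ ^ 2)) (Ym c (‖y‖ ^ 2)) 1 0 0 0
  have h2 : tn L y.ofLp 1 0 0 0 = 1 := by simp [tn]
  rw [h2, ← h.inv_eq hy] at h1
  simp only [Matrix.one_apply, smul_zero, add_zero, one_smul, mul_ite, mul_one, mul_zero,
    Finset.sum_ite_eq, Finset.mem_univ, if_true] at h1 ⊢
  rw [h1]
  simp only [Sf, Matrix.trace, Matrix.diag_apply]
  ring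

theorem St.cx_C1b (h : St L b c) (hy : Gd c (‖y‖ ^ 2)) (i j : Fin n) :
    ∑ k, chr (sym L c) k i j y * y k = ta L c y.ofLp (ev i) (ev j) y.ofLp / pf c (‖y‖ ^ 2) := by
  simp only [chr_sym L h.ok, Finset.sum_mul]
  rw [Finset.sum_comm, ← lin_ev (((ta_tri L c y.ofLp).1 (ev i)).1 (ev j)) y.ofLp,
    Finset.sum_div]
  refine Finset.sum_congr rfl fun l _ => ?_
  have h1 := h.Px hy l
  have h2 : ∑ k, (sym L c y)⁻¹ k l * ta L c y.ofLp (ev i) (ev j) (ev l) * y k =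
      (∑ k, (sym L c y)⁻¹ l k * y k) * ta L c y.ofLp (ev i) (ev j) (ev l) := by
    rw [Finset.sum_mul]
    refine Finset.sum_congr rfl fun k _ => ?_
    rw [(h.rg hy).inv_symm y k l]
    ring
  rw [h2, h1]
  ring

theorem alg_C1b (P G K d : Fin n → Fin n → ℝ) (x : Fin n → ℝ) (p N r : ℝ) :
    ∑ i, ∑ j, (P i j - x i / p * (x j / p) / N) * ((d i j - G i j) / r + K i j) =
      (∑ i, ∑ j, P i j * d i j - ∑ i, ∑ j, P i j * G i j -
        (∑ i, ∑ j, x i * x j * d i j - ∑ i, ∑ j, x i * x j * G i j) / (p * p * N)) / r +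
      (∑ i, ∑ j, P i j * K i j - (∑ i, ∑ j, x i * x j * K i j) / (p * p * N)) := by
  simp only [Finset.sum_div, sub_div, ← Finset.sum_sub_distrib, ← Finset.sum_add_distrib]
  refine Finset.sum_congr rfl fun i _ => Finset.sum_congr rfl fun j _ => ?_
  ring

theorem St.thp_eq (h : St L b c) (hk : k.Ok) (hy : Gd c (‖y‖ ^ 2)) :
    thp (sym L c) (sym L k) y =
      hf b c (‖y‖ ^ 2) / √(‖y‖ ^ 2 * pf c (‖y‖ ^ 2)) + kap b c k (‖y‖ ^ 2) := by
  have hs := hy.pos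
  have hp := hy.p
  have hN : 0 < N2 (sym L c) y := by
    rw [h.N2_eq hy]
    positivity
  rw [(h.rg hy).thp_eq hN]
  simp only [h.Px hy]
  rw [alg_C1b (fun i j => (sym L c y)⁻¹ i j) (fun i j => ∑ k, chr (sym L c) k i j y * y k)
    (fun i j => sym L k y i j) (fun i j => if i = j then 1 else 0) y.ofLp, h.dl_C1b hy]
  have e1 : ∑ i, ∑ j, (sym L c y)⁻¹ i j * ∑ k, chr (sym L c) k i j y * y k =
      (wf b c (‖y‖ ^ 2) + (tf b c (‖y‖ ^ 2) + p1 c (‖y‖ ^ 2) / pf c (‖y‖ ^ 2)) /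
        pf c (‖y‖ ^ 2)) * ‖y‖ ^ 2 := by
    have : ∑ i, ∑ j, (sym L c y)⁻¹ i j * ∑ k, chr (sym L c) k i j y * y k =
        ∑ k, Wz (sym L c) k y * y k := by
      simp only [Wz, Finset.mul_sum, Finset.sum_mul]
      rw [eq_comm, Finset.sum_comm]
      refine Finset.sum_congr rfl fun i _ => ?_
      rw [Finset.sum_comm]
      refine Finset.sum_congr rfl fun j _ => Finset.sum_congr rfl fun l _ => ?_
      ring
    rw [this]
    simp only [h.Wz_eq hy, mul_assoc]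
    rw [← Finset.mul_sum]
    exact congrArg _ (dot_self y)
  have e2 : ∑ i, ∑ j, y.ofLp i * y.ofLp j * (if i = j then (1 : ℝ) else 0) = ‖y‖ ^ 2 := by
    simp only [mul_ite, mul_one, mul_zero, Finset.sum_ite_eq, Finset.mem_univ, if_true]
    exact dot_self y
  have e3 : ∑ i, ∑ j, y.ofLp i * y.ofLp j * ∑ k, chr (sym L c) k i j y * y k =
      ‖y‖ ^ 2 * p1 c (‖y‖ ^ 2) * ‖y‖ ^ 2 / pf c (‖y‖ ^ 2) := by
    simp only [h.cx_C1b hy, ← mul_div_assoc, ← Finset.sum_div]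
    rw [((ta_tri L c y.ofLp).bil12 y.ofLp).ev, h.ta_xx, dot_self]
  have e4 : ∑ i, ∑ j, y.ofLp i * y.ofLp j * sym L k y i j = ‖y‖ ^ 2 * pf k (‖y‖ ^ 2) := by
    have h1 := (bil_C1b (sym L k y)).ev y.ofLp y.ofLp
    simp only [ev_mul_Der] at h1
    rw [h1]
    unfold sym
    rw [tn_xx_C1b h.q, dot_self, pf]
  have e5 := h.trg_eq hk hy
  unfold trg at e5
  rw [e1, e2, e3, e4, e5, h.N2_eq hy]
  generalize ‖y‖ ^ 2 = s at hs hp
  have e6 : √(s * pf c s) = pf c s * √(s / pf c s) := by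
    rw [show s * pf c s = pf c s * pf c s * (s / pf c s) by field_simp,
      Real.sqrt_mul (by positivity), Real.sqrt_mul_self hp.le]
  have e7 : 0 < √(s / pf c s) := Real.sqrt_pos.2 (by positivity)
  rw [e6]
  simp only [wf, hf]
  field_simp
  ring

theorem St.ef_eq (h : St L b c) (hy : y ≠ 0) :
    ∑ i, ∑ j, (pd j (fun z => sym L c z i j) y - pd i (fun z => sym L c z j j) y) * y i =
      ef b c (‖y‖ ^ 2) := by
  have hx : y.ofLp ≠ 0 := fun h0 => hy (by ext i; exact congrFun h0 i)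
  have hs := ne_Qt2 hx
  have q := h.q
  simp only [pd_sym L h.ok]
  rw [Finset.sum_comm]
  have e1 : ∀ j, ∑ i, (ds L c y.ofLp (ev j) (ev i) (ev j) - ds L c y.ofLp (ev i) (ev j) (ev j)) *
      y i = ta L c y.ofLp (ev j) (ev j) y.ofLp - ta L c y.ofLp (ev j) y.ofLp (ev j) := by
    intro j
    have a1 := lin_ev (((ds_tri L c y.ofLp).1 (ev j)).2 (ev j)) y.ofLp
    have a2 := lin_ev ((ds_tri L c y.ofLp).2 (ev j) (ev j)) y.ofLp
    have a3 := ds_symm L h.ok y.ofLp (ev j) (ev j) y.ofLp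
    simp only [mul_comm _ (y.ofLp _)]
    simp only [mul_sub, Finset.sum_sub_distrib]
    rw [a1, a2]
    simp only [ta]
    linarith
  simp only [e1, Finset.sum_sub_distrib]
  rw [tr_C1b q hx ((ta_tri L c y.ofLp).bil12 y.ofLp),
    tr_C1b q hx ((ta_tri L c y.ofLp).bil13 y.ofLp), ← dot_self]
  generalize y.ofLp = x at hx hs
  have e2 : ∀ a e, (L e *ᵥ (L a *ᵥ x)) ⬝ᵥ x = -(if a = e then x ⬝ᵥ x else 0) := fun a e => by
    rw [q.adj, q.XX]
  simp only [fun i => h.ta_hh (q.hz_Pj hx i) (q.hz_Pj hx i), fun i => h.ta_hx (q.hz_Pj hx i),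
    fun a => ta_symm L h.ok x (L a *ᵥ x) x, h.ta_xX, h.ta_XX, e2, q.XX]
  rw [← Finset.sum_mul, ← Finset.mul_sum, ← Finset.mul_sum, q.sum_hh hx h.dim]
  simp only [ef, pf, Gm, dG, Matrix.trace, Matrix.diag_apply, Fin.sum_univ_three, Matrix.add_apply,
    Matrix.smul_apply, smul_eq_mul, Matrix.one_apply]
  simp
  field_simp
  ring

theorem St.gxx (h : St L b c) (y : E n) :
    y.ofLp ⬝ᵥ sym L c y *ᵥ y.ofLp = ‖y‖ ^ 2 * pf c (‖y‖ ^ 2) := by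
  unfold sym
  rw [tn_xx_C1b h.q, dot_self, pf]

end Vale.Agent.P366
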