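import Vale.Agent.P366.Der

/-! P366 Fr: contractions in a weighted frame P i j = ∑ s, w s * u s i * u s j (pure sum manipulation with lin_ev and Bil.ev).
fr3: first ∑ m, P k m * T a b (ev m) = ∑ t, w t * u t k * T a b (u t); then the sums over k, l, then over i, j. -/

namespace Vale.Agent.P366

open Matrix

variable {n : ℕ} {ι : Type*} [Fintype ι] {P : Mat n} {w : ι → ℝ} {u : ι → Fin n → ℝ}

theorem row_Fr (hP : ∀ i j, P i j = ∑ s, w s * u s i * u s j) {φ : (Fin n → ℝ) → ℝ}
    (h : IsLinearMap ℝ φ) (k : Fin n) : ∑ m, P k m * φ (ev m) = ∑ t, w t * u t k * φ (u t) := by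
  simp only [hP, Finset.sum_mul]
  rw [Finset.sum_comm]
  refine Finset.sum_congr rfl fun t _ => ?_
  rw [← lin_ev h (u t), Finset.mul_sum]
  exact Finset.sum_congr rfl fun m _ => by ring

theorem mulBil_Fr {φ ψ : (Fin n → ℝ) → ℝ} (h : IsLinearMap ℝ φ) (h' : IsLinearMap ℝ ψ) :
    Bil fun a b => φ a * ψ b :=
  ⟨fun a => ⟨fun x y => by simp only [h'.map_add, mul_add], fun c x => by
      simp only [h'.map_smul, smul_eq_mul]; ring⟩,
    fun b => ⟨fun x y => by simp only [h.map_add, add_mul], fun c x => by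
      simp only [h.map_smul, smul_eq_mul]; ring⟩⟩

theorem fr1 (hP : ∀ i j, P i j = ∑ s, w s * u s i * u s j)
    {f : (Fin n → ℝ) → (Fin n → ℝ) → ℝ} (hf : Bil f) :
    ∑ i, ∑ j, P i j * f (ev i) (ev j) = ∑ s, w s * f (u s) (u s) := by
  simp only [fun i => row_Fr hP (hf.1 (ev i)) i]
  rw [Finset.sum_comm]
  refine Finset.sum_congr rfl fun s _ => ?_
  rw [← lin_ev (hf.2 (u s)) (u s), Finset.mul_sum]
  exact Finset.sum_congr rfl fun i _ => by ring

theorem fr2 (hP : ∀ i j, P i j = ∑ s, w s * u s i * u s j)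
    {f f' : (Fin n → ℝ) → (Fin n → ℝ) → ℝ} (hf : Bil f) (hf' : Bil f') :
    ∑ i, ∑ j, ∑ k, ∑ l, P i k * P j l * f (ev i) (ev j) * f' (ev k) (ev l) =
      ∑ s, ∑ t, w s * w t * f (u s) (u t) * f' (u s) (u t) := by
  have h1 : ∀ i k, ∑ j, ∑ l, P i k * P j l * f (ev i) (ev j) * f' (ev k) (ev l) =
      ∑ t, w t * (P i k * (f (ev i) (u t) * f' (ev k) (u t))) := fun i k => by
    have h := fr1 hP (mulBil_Fr (hf.1 (ev i)) (hf'.1 (ev k)))
    calc _ = P i k * ∑ j, ∑ l, P j l * (f (ev i) (ev j) * f' (ev k) (ev l)) := by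
          simp only [Finset.mul_sum]
          exact Finset.sum_congr rfl fun j _ => Finset.sum_congr rfl fun l _ => by ring
      _ = _ := by
          rw [h, Finset.mul_sum]
          exact Finset.sum_congr rfl fun t _ => by ring
  calc _ = ∑ i, ∑ k, ∑ t, w t * (P i k * (f (ev i) (u t) * f' (ev k) (u t))) :=
        Finset.sum_congr rfl fun i _ => by
          rw [Finset.sum_comm]
          exact Finset.sum_congr rfl fun k _ => h1 i k
    _ = ∑ t, w t * ∑ i, ∑ k, P i k * (f (ev i) (u t) * f' (ev k) (u t)) := by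
        simp only [Finset.mul_sum]
        rw [Finset.sum_comm_cycle]
    _ = _ := by
        rw [Finset.sum_comm]
        refine Finset.sum_congr rfl fun t _ => ?_
        rw [fr1 hP (mulBil_Fr (hf.2 (u t)) (hf'.2 (u t))), Finset.mul_sum]
        exact Finset.sum_congr rfl fun s _ => by ring

theorem fr3 (hP : ∀ i j, P i j = ∑ s, w s * u s i * u s j)
    {T : (Fin n → ℝ) → (Fin n → ℝ) → (Fin n → ℝ) → ℝ} (hT : Tri T) :
    ∑ i, ∑ j, P i j * ∑ k, ∑ l, (∑ m, P k m * T (ev j) (ev l) (ev m)) *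
        ∑ m, P l m * T (ev i) (ev k) (ev m) =
      ∑ s, ∑ t, ∑ r, w s * w t * w r * (T (u s) (u r) (u t) * T (u s) (u t) (u r)) := by
  have h1 : ∀ i j, ∑ k, ∑ l, (∑ m, P k m * T (ev j) (ev l) (ev m)) *
        ∑ m, P l m * T (ev i) (ev k) (ev m) =
      ∑ t, ∑ r, w t * w r * (T (ev i) (u t) (u r) * T (ev j) (u r) (u t)) := fun i j => by
    simp only [fun a b k => row_Fr hP ((hT.1 a).1 b) k, Finset.sum_mul_sum]
    calc _ = ∑ t, ∑ r, ∑ k, ∑ l, w t * u t k * T (ev j) (ev l) (u t) *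
          (w r * u r l * T (ev i) (ev k) (u r)) := by
          rw [Finset.sum_comm_cycle]
          refine Finset.sum_congr rfl fun t _ => ?_
          rw [Finset.sum_comm_cycle]
      _ = _ := by
          refine Finset.sum_congr rfl fun t _ => Finset.sum_congr rfl fun r _ => ?_
          rw [← lin_ev ((hT.1 (ev i)).2 (u r)) (u t), ← lin_ev ((hT.1 (ev j)).2 (u t)) (u r),
            Finset.sum_mul_sum, Finset.mul_sum]
          refine Finset.sum_congr rfl fun k _ => ?_
          rw [Finset.mul_sum]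
          exact Finset.sum_congr rfl fun l _ => by ring
  simp only [h1]
  calc _ = ∑ t, ∑ r, w t * w r *
        ∑ i, ∑ j, P i j * (T (ev i) (u t) (u r) * T (ev j) (u r) (u t)) := by
        simp only [Finset.mul_sum]
        rw [Finset.sum_comm_cycle]
        refine Finset.sum_congr rfl fun t _ => ?_
        rw [Finset.sum_comm_cycle]
        exact Finset.sum_congr rfl fun r _ => Finset.sum_congr rfl fun i _ =>
          Finset.sum_congr rfl fun j _ => by ring
    _ = ∑ t, ∑ r, ∑ s, w s * w t * w r * (T (u s) (u r) (u t) * T (u s) (u t) (u r)) := by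
        refine Finset.sum_congr rfl fun t _ => Finset.sum_congr rfl fun r _ => ?_
        rw [fr1 hP (mulBil_Fr (hT.2 (u t) (u r)) (hT.2 (u r) (u t))), Finset.mul_sum]
        exact Finset.sum_congr rfl fun s _ => by ring
    _ = _ := Finset.sum_comm_cycle

theorem bil_mat (M : Mat n) : Bil fun u v => u ⬝ᵥ M *ᵥ v := by
  exact ⟨fun a => ⟨fun x y => by simp only [mulVec_add, dotProduct_add], fun c x => by
      simp only [mulVec_smul, dotProduct_smul]⟩,
    fun b => ⟨fun x y => add_dotProduct _ _ _, fun c x => smul_dotProduct _ _ _⟩⟩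

theorem ev_mat (M : Mat n) (i j : Fin n) : ev i ⬝ᵥ M *ᵥ ev j = M i j := by
  simp [ev]

end Vale.Agent.P366
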