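import Vale.Agent.P366.Tab
import Vale.Agent.P366.Fr

/-! P366 C2: the quadratic term Q1 when C(s) is diagonal, C a a = c_a, g_a = A + s c_a.
chr_sym, inv_eq, Ym_diag, Pm_fr, fr3; split the three sums (Fintype.sum_sum_type, Fintype.sum_option).  T = ta, h h' horizontal frame vectors (hz_Pj, hz_mul):
T(h,h',h'') = 0, T(h,h',x) = s(B-A')h·h', T(h,h',X_a) = 0, T(h,x,h') = T(x,h,h') = s A' h·h', T(h,X_a,h') = T(X_a,h,h') = s c_a (L_a h)·h', and T vanishes when exactly one slot is horizontal.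
Two horizontal slots give in total b (2 A'(B - A') + A'^2) s/(A² p) - b ∑ a, s c_a²/(A² g_a) (sum_hh2, sum_LL, adj).
The 4×4×4 part: T(x,x,x) = s² p', T(x,x,X)=T(x,X,x) = 0, T(x,X_a,X_e) = s² dG a e, T(X_a,X_e,x) = s²(δ B - δ A' - s C1 a e) - 2 s² δ c_a, T(X_a,X_e,X_f) = s² (c_e eps e a f + c_a eps a e f) (mulX, XX).  Prove these as separate lemmas, then simp [Fin.sum_univ_three, eps]; express B = (p - A)/s, c_a = (g_a - A)/s, s C1 = dG - A' - C; field_simp; ring (do it in a separate purely real lemma). -/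

namespace Vale.Agent.P366

open Matrix

variable {n b : ℕ} {L : Fin 3 → Mat n} {c : Co} {y : E n}

theorem split_C2 {ι κ : Type} [Fintype ι] [Fintype κ] (F : ι ⊕ κ → ι ⊕ κ → ι ⊕ κ → ℝ)
    (h0 : ∀ i j l, F (.inl i) (.inl j) (.inl l) = 0)
    (h1 : ∀ i o o', F (.inl i) (.inr o) (.inr o') = 0)
    (h2 : ∀ i o o', F (.inr o) (.inl i) (.inr o') = 0)
    (h3 : ∀ i o o', F (.inr o) (.inr o') (.inl i) = 0) :
    ∑ s, ∑ t, ∑ r, F s t r = ∑ o, ∑ i, ∑ j, (F (.inl i) (.inl j) (.inr o) +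
      F (.inl i) (.inr o) (.inl j) + F (.inr o) (.inl i) (.inl j)) +
      ∑ o, ∑ o', ∑ o'', F (.inr o) (.inr o') (.inr o'') := by
  simp only [Fintype.sum_sum_type, h0, h1, h2, h3, Finset.sum_const_zero, zero_add, add_zero,
    Finset.sum_add_distrib]
  have e1 : ∑ i, ∑ j, ∑ o, F (.inl i) (.inl j) (.inr o) =
      ∑ o, ∑ i, ∑ j, F (.inl i) (.inl j) (.inr o) := by
    rw [Finset.sum_comm_cycle]
  have e2 : ∑ i, ∑ o, ∑ j, F (.inl i) (.inr o) (.inl j) =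
      ∑ o, ∑ i, ∑ j, F (.inl i) (.inr o) (.inl j) := Finset.sum_comm
  rw [e1, e2]
  ring

theorem diag_C2 {C : Mat 3} (hd : C.IsDiag) (a : Fin 3) (f : Fin 3 → ℝ) :
    ∑ e, C e a * f e = C a a * f a :=
  Finset.sum_eq_single a (fun e _ he => by rw [hd he, zero_mul])
    fun h => absurd (Finset.mem_univ a) h

theorem hv_C2 {x u : Fin n → ℝ} (hu : Hz L x u) (o : Option (Fin 3)) :
    u ⬝ᵥ fr L x (.inr o) = 0 := by
  rw [dotProduct_comm]
  cases o with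
  | none => exact hu.1
  | some a => exact hu.2 a

theorem hvv_C2 (h : St L b c) {x u : Fin n → ℝ} (hu : Hz L x u) (o o' : Option (Fin 3)) :
    ta L c x u (fr L x (.inr o)) (fr L x (.inr o')) = 0 := by
  cases o with
  | none =>
    change ta L c x u x _ = 0
    rw [h.ta_hx hu, hv_C2 hu, mul_zero]
  | some a =>
    change ta L c x u (L a *ᵥ x) _ = 0
    simp only [h.ta_hX hu, fun e => hv_C2 (h.q.hz_mul hu e) o', mul_zero, Finset.sum_const_zero]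

theorem xXX_C2 (h : St L b c) (x : Fin n → ℝ) (a e : Fin 3) :
    ta L c x x (L a *ᵥ x) (L e *ᵥ x) = (x ⬝ᵥ x) ^ 2 * dG c (x ⬝ᵥ x) a e := by
  simp only [h.ta_xX, h.q.XX, mul_ite, mul_zero, Finset.sum_ite_eq', Finset.mem_univ, if_true]
  ring

theorem XXx_C2 (h : St L b c) (x : Fin n → ℝ) (hd : (c.C (x ⬝ᵥ x)).IsDiag) (a e : Fin 3) :
    ta L c x (L a *ᵥ x) (L e *ᵥ x) x = (x ⬝ᵥ x) ^ 2 *
      ((if a = e then c.B (x ⬝ᵥ x) - c.C (x ⬝ᵥ x) a a else 0) - dG c (x ⬝ᵥ x) a e) := by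
  rw [h.ta_XX, Finset.sum_add_distrib, diag_C2 hd, diag_C2 hd, h.q.adj e _ x, h.q.adj a _ x, h.q.XX,
    h.q.XX]
  simp only [dG, Matrix.add_apply, Matrix.smul_apply, smul_eq_mul, Matrix.one_apply]
  by_cases hae : a = e
  · subst hae
    simp only [if_true]
    ring
  · simp only [if_neg hae, if_neg (Ne.symm hae), hd hae]
    ring

theorem XXX_C2 (h : St L b c) (x : Fin n → ℝ) (hd : (c.C (x ⬝ᵥ x)).IsDiag) (a e f : Fin 3) :
    ta L c x (L a *ᵥ x) (L e *ᵥ x) (L f *ᵥ x) = (x ⬝ᵥ x) ^ 2 *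
      (c.C (x ⬝ᵥ x) e e * eps e a f + c.C (x ⬝ᵥ x) a a * eps a e f) := by
  have key : ∀ a e, (L e *ᵥ (L a *ᵥ x)) ⬝ᵥ (L f *ᵥ x) = eps e a f * (x ⬝ᵥ x) := fun a e => by
    rw [h.q.mulX, add_dotProduct, sum_dotProduct]
    simp only [smul_dotProduct, h.q.XX, smul_eq_mul, mul_ite, mul_zero, Finset.sum_ite_eq',
      Finset.mem_univ, if_true]
    split_ifs <;> simp [h.q.xX]
  rw [h.ta_XX, Finset.sum_add_distrib, diag_C2 hd, diag_C2 hd, key, key, h.q.xX]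
  ring

theorem real_C2 (z : Pt) (hr : z.r ≠ 0) (hA : z.A ≠ 0) (hp : z.p ≠ 0) (hg : ∀ a, z.g a ≠ 0)
    (hs : z.G1.IsSymm) {B : ℝ} {cc : Fin 3 → ℝ} (hB : z.p = z.A + z.r * B)
    (hc : ∀ a, z.g a = z.A + z.r * cc a) :
    z.A⁻¹ * z.A⁻¹ * (z.r * z.p)⁻¹ * (z.r ^ 2 * z.A1 * (2 * B - z.A1)) * z.b +
      ∑ a, -(z.A⁻¹ * z.A⁻¹ * (z.r * z.g a)⁻¹ * (z.r * cc a) ^ 2) * z.b +
      ((z.r * z.p)⁻¹ ^ 3 * (z.r ^ 2 * z.p1) ^ 2 +
        ∑ a, ∑ e, (z.r * z.p)⁻¹ * (z.r * z.g a)⁻¹ * (z.r * z.g e)⁻¹ * z.r ^ 4 *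
          (z.G1 a e * (2 * (if a = e then B - cc a else 0) - z.G1 a e)) +
        ∑ a, ∑ e, ∑ f, (z.r * z.g a)⁻¹ * (z.r * z.g e)⁻¹ * (z.r * z.g f)⁻¹ * z.r ^ 4 *
          ((cc f * eps f a e + cc a * eps a f e) * (cc e * eps e a f + cc a * eps a e f))) =
      z.Q := by
  have e1 : B = (z.p - z.A) / z.r := by
    rw [hB]
    field_simp
    ring
  have e2 : ∀ a, cc a = (z.g a - z.A) / z.r := fun a => by
    rw [hc a]
    field_simp
    ring
  have g0 := hg 0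
  have g1 := hg 1
  have g2 := hg 2
  simp only [Pt.Q, Pt.S1, Pt.t, Pt.aa, Pt.R3, Fin.sum_univ_three, e1, e2, hs.apply 0 1,
    hs.apply 0 2, hs.apply 1 2]
  simp [eps]
  field_simp
  ring

theorem St.Q1_eq (h : St L b c) (k : Co) (hy : Gd c (‖y‖ ^ 2)) (hd : (c.C (‖y‖ ^ 2)).IsDiag) :
    Q1 (sym L c) y = (pt b c k (‖y‖ ^ 2)).Q := by
  have hx := hy.ne
  have hs := dot_self y
  have hP : ∀ i j, (sym L c y)⁻¹ i j = ∑ s, wt (n := n) (y.ofLp ⬝ᵥ y.ofLp) (c.A (‖y‖ ^ 2))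
      (pf c (‖y‖ ^ 2)) (fun a => Gm c (‖y‖ ^ 2) a a) s * fr L y.ofLp s i * fr L y.ofLp s j :=
    fun i j => by rw [h.inv_eq hy, hy.Ym_diag hd, h.q.Pm_fr hx]
  unfold Q1
  simp only [chr_sym L h.ok]
  rw [fr3 hP (ta_tri L c y.ofLp)]
  rw [← hs] at hy hd ⊢
  generalize y.ofLp = x at *
  have hz := h.q.hz_Pj hx
  rw [split_C2 _ (fun i j l => ?_) (fun i o o' => ?_) (fun i o o' => ?_) (fun i o o' => ?_)]
  · rw [← real_C2 (pt b c k (x ⬝ᵥ x)) hy.pos.ne' hy.A.ne' hy.p.ne' (fun a => (hy.g_pos a).ne')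
      (h.ok.dG_symm _) (B := c.B (x ⬝ᵥ x)) (cc := fun a => c.C (x ⬝ᵥ x) a a) rfl
      (fun a => by simp [pt, Gm])]
    congr 1
    · rw [Fintype.sum_option]
      congr 1
      · rw [show (pt b c k (x ⬝ᵥ x)).b = _ from (h.q.sum_hh2 hx h.dim).symm]
        simp only [Finset.mul_sum]
        refine Finset.sum_congr rfl fun i _ => Finset.sum_congr rfl fun j _ => ?_
        simp only [fr, wt, pt, ta_symm L h.ok x x, h.ta_hx (hz _), h.ta_hh (hz _) (hz _),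
          dotProduct_comm (Pj L x j) (Pj L x i)]
        ring
      · refine Finset.sum_congr rfl fun a _ => ?_
        have e := h.q.sum_LL hx h.dim a a
        rw [if_pos rfl] at e
        rw [show (pt b c k (x ⬝ᵥ x)).b = _ from e.symm]
        simp only [Finset.mul_sum]
        refine Finset.sum_congr rfl fun i _ => Finset.sum_congr rfl fun j _ => ?_
        have e2 : (L a *ᵥ Pj L x j) ⬝ᵥ Pj L x i = -((L a *ᵥ Pj L x i) ⬝ᵥ Pj L x j) := by
          rw [h.q.adj, dotProduct_comm]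
        simp only [fr, wt, pt, ta_symm L h.ok x (L a *ᵥ x), h.ta_hX (hz _), h.ta_hh (hz _) (hz _),
          h.q.xX, diag_C2 hd, e2]
        ring
    · have t1 : ∀ a, ta L c x x x (L a *ᵥ x) = 0 := fun a => by rw [h.ta_xx, h.q.xX, mul_zero]
      have t2 : ∀ a, ta L c x x (L a *ᵥ x) x = 0 := fun a => by
        simp only [h.ta_xX, h.q.Xx, mul_zero, Finset.sum_const_zero]
      have t3 : ∀ a, ta L c x (L a *ᵥ x) x x = 0 := fun a => by rw [ta_symm L h.ok, t2]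
      have t4 : ∀ a e, ta L c x (L a *ᵥ x) x (L e *ᵥ x) = (x ⬝ᵥ x) ^ 2 * dG c (x ⬝ᵥ x) a e :=
        fun a e => by rw [ta_symm L h.ok, xXX_C2 h]
      have sy := h.ok.dG_symm (x ⬝ᵥ x)
      simp only [Fintype.sum_option, fr, wt, pt, t1, t2, t3, t4, xXX_C2 h, XXx_C2 h x hd,
        XXX_C2 h x hd, h.ta_xx x x, mul_zero, Finset.sum_const_zero, add_zero, zero_add,
        Finset.sum_add_distrib]
      simp only [Fin.sum_univ_three, sy.apply 0 1, sy.apply 0 2, sy.apply 1 2]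
      ring
  · simp only [fr, h.ta_hh (hz _) (hz _), (hz _).1, mul_zero]
  · simp only [show fr L x (.inl i) = Pj L x i from rfl, hvv_C2 h (hz i), mul_zero]
  · simp only [show fr L x (.inl i) = Pj L x i from rfl, ta_symm L h.ok x _ (Pj L x i),
      hvv_C2 h (hz i), mul_zero]
  · simp only [show fr L x (.inl i) = Pj L x i from rfl, ta_symm L h.ok x _ (Pj L x i),
      hvv_C2 h (hz i), mul_zero, zero_mul]

end Vale.Agent.P366
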