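import Vale.Agent.P366.C1a
import Vale.Agent.P366.Fr

/-! P366 C3: |K|² and (div K)(x) when C(s) is diagonal.  K(u,v) by tn_bil: K(h,h') = AK h·h', K(h,x) = K(h,X) = 0, K(x,x) = s pf k, K(x,X_a) = s² D_a, K(X_a,X_e) = s GK a e.
nsq_eq: fr2 with bil_mat, ev_mat; sum_hh2.
div_eq: ∑ j, dvg j * x j = ∑ P i k ds_K(ev k, ev i, x) - K(Wz, x) - ∑ P i k P l m ta(ev k, x, ev m) K i l  (pd_sym, chr_sym, lin_ev).  First term: fr1 and ds_K(u,u,x) = 2 (x·u) F'(u,x) + BK (s |u|² + (x·u)²) - ∑ CK a e (X_a·u)(X_e·u)  (the D terms cancel by adj); second: Wz_eq; third: fr2 with ta_hx, ta_xx, ta_xX (ta_symm).  hf, tf, Sf in diagonal form through Ym_diag (trace of diagonal * M). -/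

namespace Vale.Agent.P366

open Matrix

variable {n b : ℕ} {L : Fin 3 → Mat n} {c k : Co} {y : E n}

theorem St.fr_C3 (h : St L b c) (hy : Gd c (‖y‖ ^ 2)) (hd : (c.C (‖y‖ ^ 2)).IsDiag)
    (i j : Fin n) : (sym L c y)⁻¹ i j = ∑ t, wt (n := n) (‖y‖ ^ 2) (c.A (‖y‖ ^ 2))
      (pf c (‖y‖ ^ 2)) (fun a => Gm c (‖y‖ ^ 2) a a) t * fr L y.ofLp t i * fr L y.ofLp t j := by
  rw [h.inv_eq hy, hy.Ym_diag hd, h.q.Pm_fr hy.ne, dot_self]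

theorem Gd.ne_C3 (hy : Gd c (‖y‖ ^ 2)) : ‖y‖ ≠ 0 ∧ c.A (‖y‖ ^ 2) ≠ 0 ∧ pf c (‖y‖ ^ 2) ≠ 0 ∧
    Gm c (‖y‖ ^ 2) 0 0 ≠ 0 ∧ Gm c (‖y‖ ^ 2) 1 1 ≠ 0 ∧ Gm c (‖y‖ ^ 2) 2 2 ≠ 0 :=
  ⟨ne_zero_pow two_ne_zero hy.pos.ne', hy.A.ne', hy.p.ne', (hy.g_pos 0).ne', (hy.g_pos 1).ne',
    (hy.g_pos 2).ne'⟩

section
variable {u : Fin n → ℝ}

theorem hv_C3 (hu : Hz L y.ofLp u) (k : Co) (v : Fin n → ℝ) :
    u ⬝ᵥ sym L k y *ᵥ v = k.A (‖y‖ ^ 2) * (u ⬝ᵥ v) := by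
  simp only [sym, tn_bil, hu.1, hu.2, zero_mul, mul_zero, add_zero, Finset.sum_const_zero]

theorem vh_C3 (hu : Hz L y.ofLp u) (k : Co) (v : Fin n → ℝ) :
    v ⬝ᵥ sym L k y *ᵥ u = k.A (‖y‖ ^ 2) * (v ⬝ᵥ u) := by
  simp only [sym, tn_bil, hu.1, hu.2, mul_zero, add_zero, Finset.sum_const_zero]

theorem xx_C3 (q : Qt L) (k : Co) (y : E n) :
    y.ofLp ⬝ᵥ sym L k y *ᵥ y.ofLp = ‖y‖ ^ 2 * pf k (‖y‖ ^ 2) := by
  simp only [sym, tn_bil, q.Xx, dot_self, pf, zero_mul, mul_zero, add_zero, Finset.sum_const_zero]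
  ring

theorem xX_C3 (q : Qt L) (k : Co) (y : E n) (a : Fin 3) :
    y.ofLp ⬝ᵥ sym L k y *ᵥ (L a *ᵥ y.ofLp) = (‖y‖ ^ 2) ^ 2 * k.D (‖y‖ ^ 2) a := by
  simp only [sym, tn_bil, q.Xx, q.xX, q.XX, dot_self, zero_mul, mul_zero, add_zero, zero_add,
    Finset.sum_const_zero, mul_ite, Finset.sum_ite_eq', Finset.mem_univ, if_true]
  ring

theorem Xx_C3 (q : Qt L) (k : Co) (y : E n) (a : Fin 3) :
    (L a *ᵥ y.ofLp) ⬝ᵥ sym L k y *ᵥ y.ofLp = (‖y‖ ^ 2) ^ 2 * k.D (‖y‖ ^ 2) a := by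
  simp only [sym, tn_bil, q.Xx, q.xX, q.XX, dot_self, zero_mul, mul_zero, add_zero, zero_add,
    Finset.sum_const_zero, mul_ite, ite_mul, Finset.sum_ite_eq', Finset.mem_univ, if_true]
  ring

theorem XX_C3 (q : Qt L) (k : Co) (y : E n) (a e : Fin 3) :
    (L a *ᵥ y.ofLp) ⬝ᵥ sym L k y *ᵥ (L e *ᵥ y.ofLp) = ‖y‖ ^ 2 * Gm k (‖y‖ ^ 2) a e := by
  simp only [sym, tn_bil, q.xX, q.XX, dot_self, zero_mul, mul_zero, add_zero, mul_ite,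
    ite_mul, Finset.sum_ite_eq', Finset.mem_univ, if_true, Gm, Matrix.add_apply,
    Matrix.smul_apply, smul_eq_mul, one_apply]
  split_ifs <;> ring

theorem ds_C3 (q : Qt L) (k : Co) (x u : Fin n → ℝ) : ds L k x u u x =
    2 * (x ⬝ᵥ u) * (u ⬝ᵥ tn L x (deriv k.A (x ⬝ᵥ x)) (deriv k.B (x ⬝ᵥ x)) (k.C1 (x ⬝ᵥ x))
      (k.D1 (x ⬝ᵥ x)) *ᵥ x) + k.B (x ⬝ᵥ x) * (u ⬝ᵥ u * (x ⬝ᵥ x) + (x ⬝ᵥ u) ^ 2) -
      ∑ a, ∑ e, k.C (x ⬝ᵥ x) a e * (((L a *ᵥ x) ⬝ᵥ u) * ((L e *ᵥ x) ⬝ᵥ u)) := by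
  have h : ∀ a, (L a *ᵥ u) ⬝ᵥ x = -((L a *ᵥ x) ⬝ᵥ u) := fun a => by rw [q.adj, dotProduct_comm]
  simp only [ds, q.Xx, h, dotProduct_comm u x, Fin.sum_univ_three]
  ring

end

theorem St.nsq_eq (h : St L b c) (hk : k.Ok) (hy : Gd c (‖y‖ ^ 2))
    (hd : (c.C (‖y‖ ^ 2)).IsDiag) : nsq (sym L c) (sym L k) y = (pt b c k (‖y‖ ^ 2)).nsq := by
  have _ := hk
  have q := h.q
  have hz := q.hz_Pj hy.ne
  have e := fr2 (h.fr_C3 hy hd) (bil_mat (sym L k y)) (bil_mat (sym L k y))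
  have h1 : ∀ α β : ℝ, ∑ i, ∑ j, α * (β * (Pj L y.ofLp i ⬝ᵥ Pj L y.ofLp j)) *
      (β * (Pj L y.ofLp i ⬝ᵥ Pj L y.ofLp j)) = α * β ^ 2 * b := fun α β => by
    rw [← q.sum_hh2 hy.ne h.dim]
    simp only [Finset.mul_sum]
    exact Finset.sum_congr rfl fun i _ => Finset.sum_congr rfl fun j _ => by ring
  simp only [ev_mat] at e
  rw [nsq, e]
  simp only [Fintype.sum_sum_type, Fintype.sum_option, wt, fr, hv_C3 (hz _), vh_C3 (hz _),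
    xx_C3 q, xX_C3 q, Xx_C3 q, XX_C3 q, dotProduct_comm (Pj L y.ofLp _) y.ofLp,
    dotProduct_comm (Pj L y.ofLp _) (L _ *ᵥ y.ofLp), (hz _).1, (hz _).2, mul_zero,
    Finset.sum_const_zero, add_zero, zero_add, h1, Pt.nsq, pt, Fin.sum_univ_three]
  obtain ⟨_, _, _, _, _, _⟩ := hy.ne_C3
  field_simp
  ring

theorem St.T1_C3 (h : St L b c) (k : Co) (hy : Gd c (‖y‖ ^ 2)) (hd : (c.C (‖y‖ ^ 2)).IsDiag) :
    ∑ i, ∑ j, (sym L c y)⁻¹ i j * ds L k y.ofLp (ev j) (ev i) y.ofLp =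
      pf k (‖y‖ ^ 2) * (pt b c k (‖y‖ ^ 2)).S - (pt b c k (‖y‖ ^ 2)).kap +
        2 * ‖y‖ ^ 2 * p1 k (‖y‖ ^ 2) / pf c (‖y‖ ^ 2) := by
  have q := h.q
  have hz := q.hz_Pj hy.ne
  have hb := (ds_tri L k y.ofLp).bil12 y.ofLp
  have h1 : ∀ α β γ : ℝ, ∑ i, α * (β * (Pj L y.ofLp i ⬝ᵥ Pj L y.ofLp i * γ)) =
      α * β * γ * b := fun α β γ => by
    rw [← q.sum_hh hy.ne h.dim, Finset.mul_sum]
    exact Finset.sum_congr rfl fun i _ => by ring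
  rw [fr1 (h.fr_C3 hy hd) (f := fun u v => ds L k y.ofLp v u y.ofLp) ⟨hb.2, hb.1⟩]
  simp only [Fintype.sum_sum_type, Fintype.sum_option, wt, fr, ds_C3 q, tn_bil, (hz _).1, (hz _).2,
    q.Xx, q.xX, q.XX, dot_self, mul_zero, zero_mul, Finset.sum_const_zero, add_zero, zero_add,
    sub_zero, ne_eq, OfNat.ofNat_ne_zero, not_false_eq_true, zero_pow, h1, if_true, mul_ite,
    ite_mul, Finset.sum_ite_eq', Finset.mem_univ]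
  have h2 : ∀ a, Gm k (‖y‖ ^ 2) a a = k.A (‖y‖ ^ 2) + ‖y‖ ^ 2 * k.C (‖y‖ ^ 2) a a := fun a => by
    simp [Gm]
  rw [pf.eq_1 k]
  simp only [Pt.S, Pt.kap, pt, Fin.sum_univ_three, p1, h2]
  obtain ⟨_, _, _, _, _, _⟩ := hy.ne_C3
  field_simp
  ring

theorem St.T3_C3 (h : St L b c) (k : Co) (hy : Gd c (‖y‖ ^ 2)) (hd : (c.C (‖y‖ ^ 2)).IsDiag) :
    ∑ i, ∑ l, ∑ j, ∑ m, (sym L c y)⁻¹ i j * (sym L c y)⁻¹ l m * sym L k y i l *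
      ta L c y.ofLp (ev j) y.ofLp (ev m) = ‖y‖ ^ 2 * (pt b c k (‖y‖ ^ 2)).ak +
        ‖y‖ ^ 2 * pf k (‖y‖ ^ 2) * p1 c (‖y‖ ^ 2) / pf c (‖y‖ ^ 2) ^ 2 := by
  have q := h.q
  have hz := q.hz_Pj hy.ne
  have e := fr2 (h.fr_C3 hy hd) (bil_mat (sym L k y)) ((ta_tri L c y.ofLp).bil13 y.ofLp)
  have h1 : ∀ α β γ : ℝ, ∑ i, ∑ j, α * (β * (Pj L y.ofLp i ⬝ᵥ Pj L y.ofLp j)) *
      (γ * (Pj L y.ofLp i ⬝ᵥ Pj L y.ofLp j)) = α * β * γ * b := fun α β γ => by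
    rw [← q.sum_hh2 hy.ne h.dim]
    simp only [Finset.mul_sum]
    exact Finset.sum_congr rfl fun i _ => Finset.sum_congr rfl fun j _ => by ring
  simp only [ev_mat] at e
  rw [e]
  simp only [Fintype.sum_sum_type, Fintype.sum_option, wt, fr, hv_C3 (hz _), vh_C3 (hz _),
    xx_C3 q, xX_C3 q, Xx_C3 q, XX_C3 q, dotProduct_comm (Pj L y.ofLp _) y.ofLp,
    dotProduct_comm (Pj L y.ofLp _) (L _ *ᵥ y.ofLp), (hz _).1, (hz _).2, mul_zero,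
    h.ta_hx (hz _), h.ta_xx, ta_symm L h.ok _ (L _ *ᵥ y.ofLp) y.ofLp, h.ta_xX, q.Xx, q.xX, q.XX,
    dot_self, mul_ite, Finset.sum_ite_eq', Finset.mem_univ, if_true,
    Finset.sum_const_zero, add_zero, zero_add, h1]
  simp only [Pt.ak, pt, Fin.sum_univ_three]
  obtain ⟨_, _, _, _, _, _⟩ := hy.ne_C3
  field_simp
  ring

theorem St.div_eq (h : St L b c) (hk : k.Ok) (hy : Gd c (‖y‖ ^ 2))
    (hd : (c.C (‖y‖ ^ 2)).IsDiag) : ∑ j, dvg (sym L c) (sym L k) j y * y j =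
      2 * ‖y‖ ^ 2 * (p1 k (‖y‖ ^ 2) / pf c (‖y‖ ^ 2) -
        pf k (‖y‖ ^ 2) * p1 c (‖y‖ ^ 2) / pf c (‖y‖ ^ 2) ^ 2) +
      (pt b c k (‖y‖ ^ 2)).h * (pt b c k (‖y‖ ^ 2)).k - (pt b c k (‖y‖ ^ 2)).kap -
        ‖y‖ ^ 2 * (pt b c k (‖y‖ ^ 2)).ak := by
  have e1 : ∀ i m, ∑ j, y j * pd m (fun z => sym L k z i j) y =
      ds L k y.ofLp (ev m) (ev i) y.ofLp := fun i m => by
    simp only [pd_sym L hk]
    exact lin_ev (((ds_tri L k y.ofLp).1 _).1 _) _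
  have e3 : ∀ l m, ∑ j, y j * chr (sym L c) l m j y =
      ∑ r, (sym L c y)⁻¹ l r * ta L c y.ofLp (ev m) y.ofLp (ev r) := fun l m => by
    simp only [chr_sym L h.ok, Finset.mul_sum, ← lin_ev (((ta_tri L c y.ofLp).1 _).2 _) y.ofLp]
    rw [Finset.sum_comm]
    exact Finset.sum_congr rfl fun _ _ => Finset.sum_congr rfl fun _ _ => by ring
  have key : ∀ i m, ∑ j, (sym L c y)⁻¹ i m * (pd m (fun z => sym L k z i j) y -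
      ∑ l, (chr (sym L c) l m i y * sym L k y l j + chr (sym L c) l m j y * sym L k y i l)) * y j =
      (sym L c y)⁻¹ i m * ds L k y.ofLp (ev m) (ev i) y.ofLp -
      ∑ l, (sym L c y)⁻¹ i m * chr (sym L c) l i m y * (sym L k y *ᵥ y.ofLp) l -
      ∑ l, ∑ r, (sym L c y)⁻¹ i m * (sym L c y)⁻¹ l r * sym L k y i l *
        ta L c y.ofLp (ev m) y.ofLp (ev r) := fun i m => by
    have e4 : ∀ l, ∑ r, (sym L c y)⁻¹ i m * (sym L c y)⁻¹ l r * sym L k y i l *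
        ta L c y.ofLp (ev m) y.ofLp (ev r) = ∑ j, (sym L c y)⁻¹ i m * sym L k y i l *
          (y j * chr (sym L c) l m j y) := fun l => by
      rw [← Finset.mul_sum, e3, Finset.mul_sum]
      exact Finset.sum_congr rfl fun _ _ => by ring
    simp only [e4, ← e1, mulVec, dotProduct, Finset.mul_sum, chr_symm (sym_symm L h.ok) _ i m]
    rw [Finset.sum_comm, Finset.sum_comm (f := fun l j => _ * sym L k y i l * _),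
      ← Finset.sum_sub_distrib, ← Finset.sum_sub_distrib]
    refine Finset.sum_congr rfl fun j _ => ?_
    simp only [mul_sub, sub_mul, Finset.mul_sum, Finset.sum_mul, sub_sub, ← Finset.sum_add_distrib]
    exact congrArg₂ _ (by ring) (Finset.sum_congr rfl fun _ _ => by ring)
  have e2 : ∑ i, ∑ m, ∑ l, (sym L c y)⁻¹ i m * chr (sym L c) l i m y * (sym L k y *ᵥ y.ofLp) l =
      ∑ l, Wz (sym L c) l y * (sym L k y *ᵥ y.ofLp) l := by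
    simp only [Wz, Finset.sum_mul]
    exact (Finset.sum_comm.trans (Finset.sum_congr rfl fun _ _ => Finset.sum_comm)).symm
  have e5 := (Finset.sum_congr rfl fun _ _ => Finset.sum_comm).trans (h.T3_C3 k hy hd)
  have e6 : ∀ α, ∑ l, α * y l * (sym L k y *ᵥ y.ofLp) l = α * (‖y‖ ^ 2 * pf k (‖y‖ ^ 2)) :=
    fun α => by simp only [← xx_C3 h.q, dotProduct, Finset.mul_sum, mul_assoc]
  have t1 : tf b c (‖y‖ ^ 2) = (pt b c k (‖y‖ ^ 2)).t := by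
    simp only [tf, hy.Ym_diag hd, trace, diag, diagonal_mul, Pt.t, pt, one_div_mul_eq_div]
  have t2 : Sf b c (‖y‖ ^ 2) = (pt b c k (‖y‖ ^ 2)).S := by
    simp only [Sf, hy.Ym_diag hd, trace_diagonal, Pt.S, pt]
  simp only [dvg, Finset.sum_mul]
  rw [Finset.sum_comm.trans (Finset.sum_congr rfl fun _ _ => Finset.sum_comm)]
  simp only [key, Finset.sum_sub_distrib, e2, e5, h.T1_C3 k hy hd, h.Wz_eq hy, e6, wf, hf, t1, t2,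
    Pt.h]
  generalize (pt b c k (‖y‖ ^ 2)).t = t
  generalize (pt b c k (‖y‖ ^ 2)).S = S
  generalize (pt b c k (‖y‖ ^ 2)).kap = κ
  generalize (pt b c k (‖y‖ ^ 2)).ak = α
  obtain ⟨_, _, _, _, _, _⟩ := hy.ne_C3
  simp only [pt]
  field_simp
  ring

end Vale.Agent.P366
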