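import Vale.Agent.P366.C1b
import Vale.Agent.P366.Fr

/-! P366 Dec: from the tensor hypotheses to the coefficients.  Fix y with ‖y‖^2 = s > 0, x = y.ofLp ≠ 0.
exists_hz: sum_hh = b > 0, so some row of Pj is non zero; normalise it.
gd: A = g(u,u) > 0, s p = g(x,x) > 0, and for v : Fin 3 → ℝ, g(∑ v_a X_a, same) = s v·G v with ∑ v_a X_a ≠ 0 (tn_bil, XX, PosDef.dotProduct_mulVec_pos, posDef_iff_dotProduct_mulVec).
bil_bd: |u ⬝ᵥ M *ᵥ v| ≤ n² m a b if |M i j| ≤ m, |u i| ≤ a, |v j| ≤ b; coordinates of x and X_a are bounded by √s = ‖y‖ (their square sums are s).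
dec: for large s take y = √s • single i0 1; A - 1 = (g-1)(u,u), s (p-1) = (g-1)(x,x), s (G-1) a e = (g-1)(X_a,X_e), ds(x,u,u) = 2 s A', ds(x,X_a,X_e) = 2 s² dG a e (= ta x X_a X_e + ta x X_e X_a, see Tab; ds x u v = ∑ k i j, x k u i v j pd k (g i j)), AK = K(u,u), s GK a e = K(X_a,X_e); (√s)^(-q) = s^(-q/2).  IsBigO.of_bound. -/

namespace Vale.Agent.P366

open Matrix Filter Topology

variable {n b : ℕ} {L : Fin 3 → Mat n} {c k : Co}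

theorem Qt.exists_hz (q : Qt L) (hn : n = b + 4) (hb : 0 < b) {x : Fin n → ℝ} (hx : x ≠ 0) :
    ∃ u, Hz L x u ∧ u ⬝ᵥ u = 1 := by
  have h := q.sum_hh hx hn
  obtain ⟨i, -, hi⟩ := Finset.exists_ne_zero_of_sum_ne_zero
    (h.trans_ne (Nat.cast_ne_zero.2 hb.ne'))
  have h0 : 0 ≤ Pj L x i ⬝ᵥ Pj L x i := Finset.sum_nonneg fun j _ => mul_self_nonneg _
  have h1 := q.hz_Pj hx i
  refine ⟨(√(Pj L x i ⬝ᵥ Pj L x i))⁻¹ • Pj L x i, ⟨?_, fun a => ?_⟩, ?_⟩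
  · rw [dotProduct_smul, h1.1, smul_zero]
  · rw [dotProduct_smul, h1.2 a, smul_zero]
  · rw [dotProduct_smul, smul_dotProduct, smul_eq_mul, smul_eq_mul, ← mul_assoc, ← mul_inv,
      Real.mul_self_sqrt h0, inv_mul_cancel₀ hi]

theorem ne_Dec {y : E n} (hy : y ≠ 0) : y.ofLp ≠ 0 := fun h => hy (by
  ext i
  exact congrFun h i)

theorem hh_Dec {x u : Fin n → ℝ} (hu : Hz L x u) (A B : ℝ) (C : Mat 3) (D : Fin 3 → ℝ) :
    u ⬝ᵥ tn L x A B C D *ᵥ u = A * (u ⬝ᵥ u) := by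
  simp [tn_bil, hu.1, hu.2]

theorem XX_Dec (q : Qt L) (x : Fin n → ℝ) (A B : ℝ) (C : Mat 3) (D : Fin 3 → ℝ) (a e : Fin 3) :
    (L a *ᵥ x) ⬝ᵥ tn L x A B C D *ᵥ (L e *ᵥ x) =
      x ⬝ᵥ x * (A • (1 : Mat 3) + (x ⬝ᵥ x) • C) a e := by
  simp only [tn_bil, q.xX, q.XX, Matrix.add_apply, Matrix.smul_apply, smul_eq_mul, one_apply]
  simp only [mul_zero, zero_mul, add_zero, Finset.sum_const_zero, mul_ite, ite_mul,
    Finset.sum_ite_eq', Finset.mem_univ, if_true]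
  split_ifs <;> ring

theorem symXX_Dec (q : Qt L) (c : Co) (y : E n) (a e : Fin 3) :
    (L a *ᵥ y.ofLp) ⬝ᵥ sym L c y *ᵥ (L e *ᵥ y.ofLp) = ‖y‖ ^ 2 * Gm c (‖y‖ ^ 2) a e := by
  rw [sym, XX_Dec q, dot_self, Gm]

theorem St.gd (h : St L b c) (hb : 0 < b) {y : E n} (hy : y ≠ 0) (hp : (sym L c y).PosDef) :
    Gd c (‖y‖ ^ 2) := by
  have hx := ne_Dec hy
  have s0 : 0 < ‖y‖ ^ 2 := pow_pos (norm_pos_iff.2 hy) 2
  have pos : ∀ v : Fin n → ℝ, v ≠ 0 → 0 < v ⬝ᵥ sym L c y *ᵥ v := fun v hv => by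
    simpa using hp.dotProduct_mulVec_pos hv
  refine ⟨s0, ?_, ?_, ?_⟩
  · obtain ⟨u, hu, h1⟩ := h.q.exists_hz h.dim hb hx
    have h2 := pos u (by rintro rfl; simp at h1)
    rwa [sym, hh_Dec hu, h1, mul_one] at h2
  · have h2 := pos _ hx
    rw [h.gxx] at h2
    exact (mul_pos_iff_of_pos_left s0).1 h2
  · refine posDef_iff_dotProduct_mulVec.2 ⟨(h.ok.Gm_symm _ :), fun v hv => ?_⟩
    have e1 : (∑ a, v a • L a *ᵥ y.ofLp) ⬝ᵥ (∑ a, v a • L a *ᵥ y.ofLp) = ‖y‖ ^ 2 * (v ⬝ᵥ v) := by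
      simp only [sum_dotProduct, dotProduct_sum, smul_dotProduct, dotProduct_smul, h.q.XX,
        dot_self, smul_eq_mul, mul_ite, mul_zero, Finset.sum_ite_eq, Finset.sum_ite_eq',
        Finset.mem_univ, if_true]
      rw [dotProduct, Finset.mul_sum]
      exact Finset.sum_congr rfl fun a _ => by ring
    have h1 : (∑ a, v a • L a *ᵥ y.ofLp) ≠ 0 := fun e => by
      rw [e, dotProduct_zero] at e1
      exact hv (dotProduct_self_eq_zero.1 ((mul_eq_zero.1 e1.symm).resolve_left s0.ne'))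
    have h2 := pos _ h1
    have e2 : (∑ a, v a • L a *ᵥ y.ofLp) ⬝ᵥ sym L c y *ᵥ (∑ a, v a • L a *ᵥ y.ofLp) =
        ‖y‖ ^ 2 * (v ⬝ᵥ Gm c (‖y‖ ^ 2) *ᵥ v) := by
      simp only [sum_dotProduct, mulVec_sum, dotProduct_sum, smul_dotProduct, mulVec_smul,
        dotProduct_smul, symXX_Dec h.q, smul_eq_mul]
      simp only [dotProduct, mulVec, Fin.sum_univ_three]
      ring
    rw [e2] at h2
    simpa using (mul_pos_iff_of_pos_left s0).1 h2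

theorem exists_norm (hn : 0 < n) {r : ℝ} (hr : 0 ≤ r) : ∃ y : E n, ‖y‖ = r :=
  ⟨EuclideanSpace.single ⟨0, hn⟩ r, by simp [abs_of_nonneg hr]⟩

theorem coord_Dec {v : Fin n → ℝ} {r : ℝ} (hr : 0 ≤ r) (h : v ⬝ᵥ v = r ^ 2) (i : Fin n) :
    |v i| ≤ r := by
  refine abs_le_of_sq_le_sq' ?_ hr |> abs_le.2
  rw [← h, sq]
  exact Finset.single_le_sum (f := fun j => v j * v j) (fun j _ => mul_self_nonneg _)
    (Finset.mem_univ i)

theorem lin_Dec {f : (Fin n → ℝ) → ℝ} (hf : IsLinearMap ℝ f) {m a : ℝ} {u : Fin n → ℝ}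
    (hm : ∀ i, |f (ev i)| ≤ m) (hu : ∀ i, |u i| ≤ a) : |f u| ≤ n * (a * m) := by
  rw [← lin_ev hf u]
  refine (Finset.abs_sum_le_sum_abs _ _).trans ((Finset.sum_le_card_nsmul _ _ (a * m)
    fun i _ => ?_).trans (by simp))
  rw [abs_mul]
  exact mul_le_mul (hu i) (hm i) (abs_nonneg _) ((abs_nonneg _).trans (hu i))

theorem bil_Dec {f : (Fin n → ℝ) → (Fin n → ℝ) → ℝ} (hf : Bil f) {m a a' : ℝ} {u v : Fin n → ℝ}
    (hm : ∀ i j, |f (ev i) (ev j)| ≤ m) (hu : ∀ i, |u i| ≤ a) (hv : ∀ i, |v i| ≤ a') :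
    |f u v| ≤ n * (a * (n * (a' * m))) :=
  lin_Dec (hf.2 v) (fun i => lin_Dec (hf.1 (ev i)) (hm i) hv) hu

theorem mat_Dec {M : Mat n} {m a a' : ℝ} {u v : Fin n → ℝ} (hm : ∀ i j, |M i j| ≤ m)
    (hu : ∀ i, |u i| ≤ a) (hv : ∀ i, |v i| ≤ a') : |u ⬝ᵥ M *ᵥ v| ≤ n * (a * (n * (a' * m))) :=
  bil_Dec (bil_mat M) (fun i j => by rw [ev_mat]; exact hm i j) hu hv

theorem tri_Dec {T : (Fin n → ℝ) → (Fin n → ℝ) → (Fin n → ℝ) → ℝ} (hT : Tri T) {m a a' a'' : ℝ}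
    {u v w : Fin n → ℝ} (hm : ∀ l i j, |T (ev l) (ev i) (ev j)| ≤ m) (hu : ∀ i, |u i| ≤ a)
    (hv : ∀ i, |v i| ≤ a') (hw : ∀ i, |w i| ≤ a'') :
    |T u v w| ≤ n * (a * (n * (a' * (n * (a'' * m))))) :=
  lin_Dec (hT.2 v w) (fun l => bil_Dec (hT.1 (ev l)) (hm l) hv hw) hu

theorem ds_Dec (ok : c.Ok) (x u v w : Fin n → ℝ) :
    ds L c x u v w = ta L c x u v w + ta L c x u w v := by
  rw [ta, ta, ds_symm L ok x u w v]
  ring

theorem big_Dec (hn : 0 < n) {f : ℝ → ℝ} {q R K : ℝ}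
    (h : ∀ y : E n, R ≤ ‖y‖ → y ≠ 0 → |f (‖y‖ ^ 2)| ≤ K * ‖y‖ ^ (-q)) :
    f =O[atTop] fun s => s ^ (-q / 2) := by
  refine Asymptotics.IsBigO.of_bound K ?_
  filter_upwards [eventually_ge_atTop (R ^ 2), eventually_gt_atTop 0] with s h1 h2
  obtain ⟨y, hy⟩ := exists_norm hn (Real.sqrt_nonneg s)
  have h3 := h y (hy ▸ Real.le_sqrt_of_sq_le h1)
    (norm_pos_iff.1 (hy ▸ Real.sqrt_pos.2 h2))
  rw [hy, Real.sq_sqrt h2.le, Real.sqrt_eq_rpow, ← Real.rpow_mul h2.le] at h3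
  rw [Real.norm_eq_abs, Real.norm_eq_abs, abs_of_nonneg (Real.rpow_nonneg h2.le _),
    show -q / 2 = 1 / 2 * -q by ring]
  exact h3

theorem canc_Dec {t a z : ℝ} (ht : 0 < t) (h : |t * a| ≤ t * z) : |a| ≤ z := by
  rw [abs_mul, abs_of_pos ht] at h
  exact le_of_mul_le_mul_left h ht

theorem St.dec (h : St L b c) (hk : k.Ok) (hb : 0 < b) {q C R : ℝ}
    (hd : ∀ y : E n, R ≤ ‖y‖ → ∀ i j l, |(sym L c y - 1) i j| ≤ C * ‖y‖ ^ (-q) ∧
      |pd l (fun z => sym L c z i j) y| ≤ C * ‖y‖ ^ (-q - 1) ∧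
      |sym L k y i j| ≤ C * ‖y‖ ^ (-1 - q)) : Dec c k q := by
  have _ := hk
  have hn : 0 < n := by rw [h.dim]; omega
  have cx : ∀ (y : E n) i, |y.ofLp i| ≤ ‖y‖ := fun y => coord_Dec (norm_nonneg y) (dot_self y)
  have cX : ∀ (y : E n) a i, |(L a *ᵥ y.ofLp) i| ≤ ‖y‖ := fun y a =>
    coord_Dec (norm_nonneg y) (by rw [h.q.XX, if_pos rfl, dot_self])
  have cu : ∀ {u : Fin n → ℝ}, u ⬝ᵥ u = 1 → ∀ i, |u i| ≤ 1 := fun hu =>
    coord_Dec zero_le_one (by rw [hu, one_pow])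
  have d1 : ∀ y : E n, R ≤ ‖y‖ → ∀ i j, |(sym L c y - 1) i j| ≤ C * ‖y‖ ^ (-q) :=
    fun y hy i j => (hd y hy i j i).1
  have d2 : ∀ y : E n, R ≤ ‖y‖ → y ≠ 0 → ∀ l i j,
      |ds L c y.ofLp (ev l) (ev i) (ev j)| ≤ C * ‖y‖ ^ (-q) / ‖y‖ := fun y hy h0 l i j => by
    rw [← pd_sym L h.ok, mul_div_assoc, ← Real.rpow_sub_one (norm_ne_zero_iff.2 h0)]
    exact (hd y hy i j l).2.1
  have d3 : ∀ y : E n, R ≤ ‖y‖ → y ≠ 0 → ∀ i j, |sym L k y i j| ≤ C * ‖y‖ ^ (-q) / ‖y‖ :=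
    fun y hy h0 i j => by
      rw [mul_div_assoc, ← Real.rpow_sub_one (norm_ne_zero_iff.2 h0),
        show -q - 1 = -1 - q by ring]
      exact (hd y hy i j i).2.2
  refine ⟨big_Dec hn (R := R) (K := n ^ 2 * C) fun y hy h0 => ?_,
    big_Dec hn (R := R) (K := n ^ 2 * C) fun y hy h0 => ?_,
    fun a e => big_Dec hn (R := R) (K := n ^ 2 * C) fun y hy h0 => ?_,
    big_Dec hn (R := R) (K := n ^ 3 * C / 2) fun y hy h0 => ?_,
    fun a e => big_Dec hn (R := R) (K := n ^ 3 * C / 2) fun y hy h0 => ?_,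
    big_Dec hn (R := R) (K := n ^ 2 * C) fun y hy h0 => ?_,
    fun a e => big_Dec hn (R := R) (K := n ^ 2 * C) fun y hy h0 => ?_⟩
  all_goals have r0 : 0 < ‖y‖ := norm_pos_iff.2 h0
  · obtain ⟨u, hu, h1⟩ := h.q.exists_hz h.dim hb (ne_Dec h0)
    have h2 := mat_Dec (d1 y hy) (cu h1) (cu h1)
    rw [sub_mulVec, dotProduct_sub, one_mulVec, sym, hh_Dec hu, h1, mul_one] at h2
    exact h2.trans_eq (by ring)
  · have h2 := mat_Dec (d1 y hy) (cx y) (cx y)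
    rw [sub_mulVec, dotProduct_sub, one_mulVec, h.gxx, dot_self, ← mul_sub_one] at h2
    exact canc_Dec (pow_pos r0 2) (h2.trans_eq (by ring))
  · have h2 := mat_Dec (d1 y hy) (cX y a) (cX y e)
    rw [sub_mulVec, dotProduct_sub, one_mulVec, symXX_Dec h.q, h.q.XX, dot_self] at h2
    refine canc_Dec (pow_pos r0 2) (le_trans (le_of_eq ?_) (h2.trans_eq (by ring)))
    congr 1
    rw [Matrix.sub_apply, one_apply]
    split_ifs <;> ring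
  · obtain ⟨u, hu, h1⟩ := h.q.exists_hz h.dim hb (ne_Dec h0)
    have h2 := tri_Dec (ds_tri L c y.ofLp) (d2 y hy h0) (cx y) (cu h1) (cu h1)
    rw [ds_Dec h.ok, ta_symm L h.ok, h.ta_hx hu, h1, dot_self, mul_one, ← two_mul] at h2
    refine canc_Dec two_pos (h2.trans_eq ?_)
    field_simp
  · have h2 := tri_Dec (ds_tri L c y.ofLp) (d2 y hy h0) (cx y) (cX y a) (cX y e)
    rw [ds_Dec h.ok, h.ta_xX, h.ta_xX] at h2
    simp only [h.q.XX, dot_self, mul_ite, mul_zero, Finset.sum_ite_eq', Finset.mem_univ,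
      if_true, (h.ok.dG_symm _).apply a e] at h2
    refine canc_Dec (t := 2 * ‖y‖ ^ 2) (by positivity) (le_trans (le_of_eq ?_) (h2.trans_eq ?_))
    · congr 1
      ring
    · field_simp
  · obtain ⟨u, hu, h1⟩ := h.q.exists_hz h.dim hb (ne_Dec h0)
    have h2 := mat_Dec (d3 y hy h0) (cu h1) (cu h1)
    rw [sym, hh_Dec hu, h1, mul_one] at h2
    rw [Real.sqrt_sq r0.le, abs_mul, abs_of_pos r0]
    refine (mul_le_mul_of_nonneg_left h2 r0.le).trans_eq ?_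
    field_simp
  · have h2 := mat_Dec (d3 y hy h0) (cX y a) (cX y e)
    rw [symXX_Dec h.q] at h2
    rw [Real.sqrt_sq r0.le]
    refine canc_Dec r0 (le_trans (le_of_eq ?_) (h2.trans_eq ?_))
    · congr 1
      ring
    · field_simp

end Vale.Agent.P366
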