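import Mathlib

/-! P366: definitions for the statement.  Tensors are written in the Cartesian chart of `ℝⁿ`. -/

namespace Vale.Agent.P366

open Matrix MeasureTheory

noncomputable section

abbrev E (n : ℕ) := EuclideanSpace ℝ (Fin n)
abbrev Mat (n : ℕ) := Matrix (Fin n) (Fin n) ℝ
abbrev Ten (n : ℕ) := E n → Mat n

variable {n : ℕ}

/-- Coordinate derivative. -/
def pd (k : Fin n) (f : E n → ℝ) (x : E n) : ℝ := fderiv ℝ f x (EuclideanSpace.single k 1)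

/-- Christoffel symbols `Γ^k_ij`. -/
def chr (g : Ten n) (k i j : Fin n) (x : E n) : ℝ :=
  ∑ l, (g x)⁻¹ k l *
    ((pd i (fun y => g y j l) x + pd j (fun y => g y i l) x - pd l (fun y => g y i j) x) / 2)

/-- Ricci tensor. -/
def ric (g : Ten n) (x : E n) : Mat n := of fun i j =>
  ∑ k, (pd k (chr g k i j) x - pd j (chr g k i k) x +
    ∑ l, (chr g k k l x * chr g l i j x - chr g k j l x * chr g l i k x))

/-- `tr_g T`. -/
def trg (g T : Ten n) (x : E n) : ℝ := ∑ i, ∑ j, (g x)⁻¹ i j * T x i j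

/-- `|T|_g²`. -/
def nsq (g T : Ten n) (x : E n) : ℝ :=
  ∑ i, ∑ j, ∑ k, ∑ l, (g x)⁻¹ i k * (g x)⁻¹ j l * T x i j * T x k l

/-- `π = K - (tr_g K) g`. -/
def mom (g K : Ten n) : Ten n := fun x => K x - trg g K x • g x

/-- Energy density `μ`. -/
def mu (g K : Ten n) (x : E n) : ℝ := (trg g (ric g) x + trg g K x ^ 2 - nsq g K x) / 2

/-- `(div_g T)_j`. -/
def dvg (g T : Ten n) (j : Fin n) (x : E n) : ℝ :=
  ∑ i, ∑ k, (g x)⁻¹ i k * (pd k (fun y => T y i j) x -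
    ∑ l, (chr g l k i x * T x l j + chr g l k j x * T x i l))

/-- `|J|_g`. -/
def curN (g K : Ten n) (x : E n) : ℝ :=
  √(∑ i, ∑ j, (g x)⁻¹ i j * dvg g (mom g K) i x * dvg g (mom g K) j x)

/-- Outward unit conormal `ν_j` of the spheres `|x| = const`. -/
def con (g : Ten n) (j : Fin n) (x : E n) : ℝ :=
  x j / √(∑ k, ∑ l, (g x)⁻¹ k l * x k * x l)

/-- `h^ij = g^ij - ν^i ν^j`. -/
def tang (g : Ten n) (x : E n) (i j : Fin n) : ℝ :=
  (g x)⁻¹ i j - (∑ k, (g x)⁻¹ i k * con g k x) * ∑ k, (g x)⁻¹ j k * con g k x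

/-- `θ₊ = div_S ν + tr_S K` on the sphere through `x`. -/
def thp (g K : Ten n) (x : E n) : ℝ :=
  ∑ i, ∑ j, tang g x i j * (pd i (con g j) x - ∑ k, chr g k i j x * con g k x) +
    ∑ i, ∑ j, tang g x i j * K x i j

/-- Integral over `|x| = r` for the Euclidean area element. -/
def sph (r : ℝ) (f : E n → ℝ) : ℝ :=
  r ^ (n - 1) * ∫ w : Metric.sphere (0 : E n) 1, f (r • (w : E n)) ∂(volume : Measure (E n)).toSphere

/-- Area of the unit sphere. -/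
def om (n : ℕ) : ℝ := sph (n := n) 1 fun _ => 1

/-- `g`-area of `|x| = r`: `dA_g = √(det g) |dr|_g dA`. -/
def area (g : Ten n) (r : ℝ) : ℝ :=
  sph r fun x => √((g x).det) * √(∑ k, ∑ l, (g x)⁻¹ k l * (x k / ‖x‖) * (x l / ‖x‖))

/-- ADM energy flux. -/
def eflux (g : Ten n) (r : ℝ) : ℝ := 1 / (2 * (n - 1) * om n) *
  sph r fun x => ∑ i, ∑ j, (pd j (fun y => g y i j) x - pd i (fun y => g y j j) x) * (x i / ‖x‖)

/-- ADM momentum flux. -/
def pflux (g K : Ten n) (i : Fin n) (r : ℝ) : ℝ := 2 * (1 / (2 * (n - 1) * om n)) *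
  sph r fun x => ∑ j, mom g K x i j * (x j / ‖x‖)

/-- A quaternionic structure on `ℝⁿ` by skew matrices. -/
structure Qt (L : Fin 3 → Mat n) : Prop where
  sk : ∀ a, (L a)ᵀ = -L a
  sq : ∀ a, L a * L a = -1
  mul : L 0 * L 1 = L 2

/-- Coefficient functions of `s = |x|²`. -/
structure Co where
  A : ℝ → ℝ
  B : ℝ → ℝ
  C : ℝ → Mat 3
  D : ℝ → Fin 3 → ℝ

structure Co.Ok (c : Co) : Prop where
  A : ContDiff ℝ 2 c.A
  B : ContDiff ℝ 2 c.B
  C : ∀ a b, ContDiff ℝ 2 fun s => c.C s a b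
  D : ∀ a, ContDiff ℝ 2 fun s => c.D s a
  sy : ∀ s, (c.C s).IsSymm

def tn (L : Fin 3 → Mat n) (x : Fin n → ℝ) (A B : ℝ) (C : Mat 3) (D : Fin 3 → ℝ) : Mat n :=
  A • 1 + B • vecMulVec x x + ∑ a, ∑ b, C a b • vecMulVec (L a *ᵥ x) (L b *ᵥ x) +
    ∑ a, D a • (vecMulVec x (L a *ᵥ x) + vecMulVec (L a *ᵥ x) x)

/-- The symmetric tensor field with coefficients `c`; these are the fields invariant under the
orthogonal maps commuting with `L`. -/
def sym (L : Fin 3 → Mat n) (c : Co) : Ten n := fun x =>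
  tn L x.ofLp (c.A (‖x‖ ^ 2)) (c.B (‖x‖ ^ 2)) (c.C (‖x‖ ^ 2)) (c.D (‖x‖ ^ 2))

end

end Vale.Agent.P366
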