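import Vale.Agent.P366.Qt2

/-! P366 Der: first derivatives of sym L c.
sym L c y i j = A(s) δ + B(s) y i y j + ∑ C a b (s) (∑ m, L a i m * y m) (∑ m, L b j m * y m) + ..., s = ‖y‖^2.
HasFDerivAt of y ↦ ‖y‖^2 (hasStrictFDerivAt_norm_sq, value 2 * y k on single k 1), of y ↦ y i (EuclideanSpace.proj) and of y ↦ (L a *ᵥ y.ofLp) i; HasDerivAt.comp_hasFDerivAt.  It is easier to prove a directional statement first: fderiv f y v = deriv of t ↦ f (y + t v) at 0, or to make small lemmas pd_add, pd_mul, pd_sum.  ev i ⬝ᵥ M *ᵥ ev j = M i j, x ⬝ᵥ ev k = x k, (L a *ᵥ ev k) ⬝ᵥ ev i = L a i k.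
ds_tri: each of the three slots by simp with add_dotProduct, dotProduct_add, mulVec_add, smul versions, Finset.sum_add_distrib, Finset.mul_sum, then ring (use tn_bil or IsLinearMap closure lemmas). -/

namespace Vale.Agent.P366

open Matrix

variable {n : ℕ} {L : Fin 3 → Mat n} {c : Co}

theorem tn_apply_Der (L : Fin 3 → Mat n) (x : Fin n → ℝ) (A B : ℝ) (C : Mat 3) (D : Fin 3 → ℝ)
    (i j : Fin n) : tn L x A B C D i j = A * (1 : Mat n) i j + B * (x i * x j) +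
      ∑ a, ∑ b, C a b * ((L a *ᵥ x) i * (L b *ᵥ x) j) +
      ∑ a, D a * (x i * (L a *ᵥ x) j + (L a *ᵥ x) i * x j) := by
  simp only [tn, Matrix.add_apply, Matrix.smul_apply, Matrix.sum_apply, vecMulVec_apply,
    smul_eq_mul]

/-- the linear form `y ↦ (M y) i` -/
noncomputable def lf_Der (M : Mat n) (i : Fin n) : E n →L[ℝ] ℝ :=
  ∑ m, M i m • (EuclideanSpace.proj m : E n →L[ℝ] ℝ)

theorem lf_apply_Der (M : Mat n) (i : Fin n) (y : E n) : lf_Der M i y = (M *ᵥ y.ofLp) i := by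
  simp [lf_Der, mulVec, dotProduct]

theorem cd_lf_Der (M : Mat n) (i : Fin n) : ContDiff ℝ 2 fun y : E n => (M *ᵥ y.ofLp) i := by
  simp only [← lf_apply_Der]
  exact (lf_Der M i).contDiff

theorem cd_pr_Der (i : Fin n) : ContDiff ℝ 2 fun y : E n => y.ofLp i :=
  (EuclideanSpace.proj i : E n →L[ℝ] ℝ).contDiff

theorem sym_contDiff (L : Fin 3 → Mat n) (ok : c.Ok) (i j : Fin n) :
    ContDiff ℝ 2 fun y => sym L c y i j := by
  have hs : ContDiff ℝ 2 fun y : E n => ‖y‖ ^ 2 := contDiff_norm_sq ℝ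
  simp only [sym, tn_apply_Der]
  refine ((((ok.A.comp hs).mul contDiff_const).add
    ((ok.B.comp hs).mul ((cd_pr_Der i).mul (cd_pr_Der j)))).add
    (ContDiff.sum fun a _ => ContDiff.sum fun b _ =>
      ((ok.C a b).comp hs).mul ((cd_lf_Der _ i).mul (cd_lf_Der _ j)))).add
    (ContDiff.sum fun a _ => ((ok.D a).comp hs).mul
      (((cd_pr_Der i).mul (cd_lf_Der _ j)).add ((cd_lf_Der _ i).mul (cd_pr_Der j))))

theorem sym_symm (L : Fin 3 → Mat n) (ok : c.Ok) (y : E n) : (sym L c y).IsSymm := by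
  refine Matrix.IsSymm.ext fun i j => ?_
  simp only [sym, tn_apply_Der]
  congr 1
  · congr 1
    · rw [Matrix.one_apply, Matrix.one_apply, mul_comm (y.ofLp j)]
      simp only [eq_comm]
    · rw [Finset.sum_comm]
      refine Finset.sum_congr rfl fun a _ => Finset.sum_congr rfl fun b _ => ?_
      rw [(ok.sy _).apply a b, mul_comm ((L b *ᵥ y.ofLp) j)]
  · exact Finset.sum_congr rfl fun a _ => by ring

theorem sym_neg (L : Fin 3 → Mat n) (c : Co) (y : E n) : sym L c (-y) = sym L c y := by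
  ext i j
  simp only [sym, tn_apply_Der, norm_neg, WithLp.ofLp_neg, mulVec_neg, Pi.neg_apply, neg_mul_neg]

/-- differentiable with given coordinate derivative -/
def HD_Der (k : Fin n) (f : E n → ℝ) (y : E n) (a : ℝ) : Prop :=
  ∃ f' : E n →L[ℝ] ℝ, HasFDerivAt f f' y ∧ f' (EuclideanSpace.single k 1) = a

section
variable {k : Fin n} {f g : E n → ℝ} {y : E n} {a b : ℝ}

theorem HD_Der.pd (h : HD_Der k f y a) : pd k f y = a := by
  obtain ⟨f', h1, h2⟩ := h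
  rw [P366.pd, h1.fderiv, h2]

theorem HD_Der.add (h : HD_Der k f y a) (h' : HD_Der k g y b) :
    HD_Der k (fun z => f z + g z) y (a + b) := by
  obtain ⟨f', h1, rfl⟩ := h
  obtain ⟨g', h2, rfl⟩ := h'
  exact ⟨_, h1.add h2, rfl⟩

theorem HD_Der.mul (h : HD_Der k f y a) (h' : HD_Der k g y b) :
    HD_Der k (fun z => f z * g z) y (a * g y + f y * b) := by
  obtain ⟨f', h1, rfl⟩ := h
  obtain ⟨g', h2, rfl⟩ := h'
  refine ⟨_, h1.mul h2, ?_⟩
  simp only [ContinuousLinearMap.add_apply, ContinuousLinearMap.smul_apply, smul_eq_mul]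
  ring

theorem hd_const_Der (k : Fin n) (y : E n) (a : ℝ) : HD_Der k (fun _ => a) y 0 :=
  ⟨0, hasFDerivAt_const a y, rfl⟩

theorem hd_sum_Der {ι : Type} [Fintype ι] {F : ι → E n → ℝ} {A : ι → ℝ}
    (h : ∀ i, HD_Der k (F i) y (A i)) : HD_Der k (fun z => ∑ i, F i z) y (∑ i, A i) := by
  choose F' h1 h2 using h
  refine ⟨_, HasFDerivAt.fun_sum fun i _ => h1 i, ?_⟩
  rw [ContinuousLinearMap.sum_apply]
  exact Finset.sum_congr rfl fun i _ => h2 i

theorem hd_pr_Der (k i : Fin n) (y : E n) : HD_Der k (fun z => z.ofLp i) y (ev k i) :=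
  ⟨_, (EuclideanSpace.proj i : E n →L[ℝ] ℝ).hasFDerivAt, by simp [ev, Pi.single_apply]⟩

theorem hd_lf_Der (M : Mat n) (k i : Fin n) (y : E n) :
    HD_Der k (fun z => (M *ᵥ z.ofLp) i) y ((M *ᵥ ev k) i) := by
  simp only [← lf_apply_Der]
  exact ⟨_, (lf_Der M i).hasFDerivAt, by rw [lf_apply_Der]; simp [ev]⟩

theorem hd_rad_Der {φ : ℝ → ℝ} {φ' : ℝ} (h : HasDerivAt φ φ' (‖y‖ ^ 2)) (k : Fin n) :
    HD_Der k (fun z => φ (‖z‖ ^ 2)) y (2 * φ' * y k) := by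
  refine ⟨_, h.comp_hasFDerivAt y (hasStrictFDerivAt_norm_sq y).hasFDerivAt, ?_⟩
  simp [EuclideanSpace.inner_single_right]
  ring

end

theorem nsq_Der (y : E n) : y.ofLp ⬝ᵥ y.ofLp = ‖y‖ ^ 2 := by
  rw [EuclideanSpace.real_norm_sq_eq, dotProduct]
  exact Finset.sum_congr rfl fun i _ => (sq _).symm

theorem dot_ev_Der (x : Fin n → ℝ) (k : Fin n) : x ⬝ᵥ ev k = x k := by
  simp [ev]

theorem ev_mul_Der (M : Mat n) (i j : Fin n) : ev i ⬝ᵥ M *ᵥ ev j = M i j := by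
  simp [ev]

theorem pd_sym (L : Fin 3 → Mat n) (ok : c.Ok) (k i j : Fin n) (y : E n) :
    pd k (fun y => sym L c y i j) y = ds L c y.ofLp (ev k) (ev i) (ev j) := by
  have hd : ∀ {φ : ℝ → ℝ}, ContDiff ℝ 2 φ →
      HD_Der k (fun z => φ (‖z‖ ^ 2)) y (2 * deriv φ (‖y‖ ^ 2) * y k) := fun h =>
    hd_rad_Der (h.differentiable (by norm_num) _).hasDerivAt k
  have h := ((((hd ok.A).mul (hd_const_Der k y ((1 : Mat n) i j))).add
    ((hd ok.B).mul ((hd_pr_Der k i y).mul (hd_pr_Der k j y)))).add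
    (hd_sum_Der fun a => hd_sum_Der fun b =>
      (hd (ok.C a b)).mul ((hd_lf_Der (L a) k i y).mul (hd_lf_Der (L b) k j y)))).add
    (hd_sum_Der fun a => (hd (ok.D a)).mul (((hd_pr_Der k i y).mul (hd_lf_Der (L a) k j y)).add
      ((hd_lf_Der (L a) k i y).mul (hd_pr_Der k j y))))
  simp only [sym, tn_apply_Der]
  rw [h.pd]
  simp only [ds, nsq_Der, dot_ev_Der, ev_mul_Der, tn_apply_Der, Co.C1, Co.D1, of_apply,
    Fin.sum_univ_three]
  ring

theorem ds_tri (L : Fin 3 → Mat n) (c : Co) (x : Fin n → ℝ) : Tri (ds L c x) := by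
  refine ⟨fun u => ⟨fun v => ⟨fun w w' => ?_, fun r w => ?_⟩, fun w => ⟨fun v v' => ?_,
    fun r v => ?_⟩⟩, fun v w => ⟨fun u u' => ?_, fun r u => ?_⟩⟩ <;>
  · simp only [ds, add_dotProduct, dotProduct_add, mulVec_add, smul_dotProduct, dotProduct_smul,
      mulVec_smul, smul_eq_mul, Fin.sum_univ_three]
    ring

theorem ta_tri (L : Fin 3 → Mat n) (c : Co) (x : Fin n → ℝ) : Tri (ta L c x) := by
  obtain ⟨h1, h3⟩ := ds_tri L c x
  refine ⟨fun u => ⟨fun v => ⟨fun w w' => ?_, fun r w => ?_⟩, fun w => ⟨fun v v' => ?_,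
    fun r v => ?_⟩⟩, fun v w => ⟨fun u u' => ?_, fun r u => ?_⟩⟩
  · rw [ta, ta, ta, ((h1 u).1 v).map_add, ((h1 v).1 u).map_add, (h3 u v).map_add]
    ring
  · rw [ta, ta, ((h1 u).1 v).map_smul, ((h1 v).1 u).map_smul, (h3 u v).map_smul]
    simp only [smul_eq_mul]
    ring
  · rw [ta, ta, ta, ((h1 u).2 w).map_add, (h3 u w).map_add, ((h1 w).1 u).map_add]
    ring
  · rw [ta, ta, ((h1 u).2 w).map_smul, (h3 u w).map_smul, ((h1 w).1 u).map_smul]
    simp only [smul_eq_mul]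
    ring
  · rw [ta, ta, ta, (h3 v w).map_add, ((h1 v).2 w).map_add, ((h1 w).2 v).map_add]
    ring
  · rw [ta, ta, (h3 v w).map_smul, ((h1 v).2 w).map_smul, ((h1 w).2 v).map_smul]
    simp only [smul_eq_mul]
    ring

theorem Tri.bil13 {T : (Fin n → ℝ) → (Fin n → ℝ) → (Fin n → ℝ) → ℝ} (h : Tri T)
    (v : Fin n → ℝ) : Bil fun u w => T u v w :=
  ⟨fun u => (h.1 u).1 v, fun w => h.2 v w⟩

theorem Tri.bil12 {T : (Fin n → ℝ) → (Fin n → ℝ) → (Fin n → ℝ) → ℝ} (h : Tri T)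
    (w : Fin n → ℝ) : Bil fun u v => T u v w :=
  ⟨fun u => (h.1 u).2 w, fun v => h.2 v w⟩

theorem chr_sym (L : Fin 3 → Mat n) (ok : c.Ok) (k i j : Fin n) (y : E n) :
    chr (sym L c) k i j y = ∑ l, (sym L c y)⁻¹ k l * ta L c y.ofLp (ev i) (ev j) (ev l) := by
  simp only [chr, ta, pd_sym L ok]

/-- Derivative of a radial function. -/
theorem pd_rad {φ : ℝ → ℝ} {φ' : ℝ} {y : E n} (h : HasDerivAt φ φ' (‖y‖ ^ 2)) (k : Fin n) :
    pd k (fun z => φ (‖z‖ ^ 2)) y = 2 * φ' * y k :=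
  (hd_rad_Der h k).pd

theorem pd_rad_mul {φ : ℝ → ℝ} {φ' : ℝ} {y : E n} (h : HasDerivAt φ φ' (‖y‖ ^ 2)) :
    ∑ k, pd k (fun z => φ (‖z‖ ^ 2) * z k) y = n * φ (‖y‖ ^ 2) + 2 * ‖y‖ ^ 2 * φ' := by
  have e : ∀ k, pd k (fun z => φ (‖z‖ ^ 2) * z k) y = φ (‖y‖ ^ 2) + 2 * φ' * (y k * y k) := by
    intro k
    rw [((hd_rad_Der h k).mul (hd_pr_Der k k y)).pd]
    simp only [ev, Pi.single_eq_same]
    ring
  simp only [e]
  rw [Finset.sum_add_distrib, Finset.sum_const, Finset.card_univ, Fintype.card_fin, nsmul_eq_mul,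
    ← Finset.mul_sum, ← dotProduct, nsq_Der]
  ring

end Vale.Agent.P366
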