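import Vale.Agent.P366.Qt2
import Vale.Agent.P366.Gen1

/-! P366 Fun: one-variable calculus of the radial functions.
deriv of a C² function is C¹ (ContDiff.deriv' or contDiff_succ_iff_deriv), so dG has differentiable entries; Ym by inv_hasDerivAt / inv_contDiffAt; traces are finite sums (Matrix.trace, mul_apply).
Diagonal values by Ym_diag.  Vf: det_fin_three, off-diagonal entries of Gm vanish at s, so (det G)' = ∑ a, dG a a * ∏ others.  Mf: HasDerivAt.rpow_const with Vf > 0; α Vf^(α-1) Vf h/s = α Vf^α h/s. -/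

namespace Vale.Agent.P366

open Matrix Filter Topology

variable {b : ℕ} {c k : Co} {s : ℝ}

theorem d1_Fun {f : ℝ → ℝ} (hf : ContDiff ℝ 2 f) (s : ℝ) : HasDerivAt f (deriv f s) s :=
  (hf.differentiable (by norm_num) s).hasDerivAt

theorem d2_Fun {f : ℝ → ℝ} (hf : ContDiff ℝ 2 f) (s : ℝ) : DifferentiableAt ℝ (deriv f) s :=
  (ContDiff.deriv' (n := 1) hf).differentiable one_ne_zero s

theorem Co.Ok.pf_deriv (ok : c.Ok) (s : ℝ) : HasDerivAt (pf c) (p1 c s) s := by
  have := (d1_Fun ok.A s).fun_add ((hasDerivAt_id' s).fun_mul (d1_Fun ok.B s))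
  refine (this.congr_deriv ?_)
  simp only [p1]; ring

theorem Co.Ok.Gm_deriv (ok : c.Ok) (s : ℝ) (a e : Fin 3) :
    HasDerivAt (fun t => Gm c t a e) (dG c s a e) s := by
  have := ((d1_Fun ok.A s).mul_const ((1 : Mat 3) a e)).fun_add
    ((hasDerivAt_id' s).fun_mul (d1_Fun (ok.C a e) s))
  refine (this.congr_deriv ?_)
  simp only [dG, Co.C1, Matrix.add_apply, Matrix.smul_apply, smul_eq_mul, of_apply]; ring

theorem Co.Ok.dG_Fun (ok : c.Ok) (s : ℝ) (a e : Fin 3) :
    DifferentiableAt ℝ (fun t => dG c t a e) s :=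
  (((d2_Fun ok.A s).mul_const ((1 : Mat 3) a e)).add (d1_Fun (ok.C a e) s).differentiableAt).add
    (differentiableAt_id.mul (d2_Fun (ok.C a e) s))

theorem Gd.Ym_Fun (h : Gd c s) (ok : c.Ok) (a e : Fin 3) :
    HasDerivAt (fun t => Ym c t a e) (-(Ym c s * dG c s * Ym c s) a e) s :=
  inv_hasDerivAt (ok.Gm_deriv s) h.G.det_pos.ne' a e

theorem tr_Fun {X Y : ℝ → Mat 3} (hX : ∀ a e, DifferentiableAt ℝ (fun t => X t a e) s)
    (hY : ∀ a e, DifferentiableAt ℝ (fun t => Y t a e) s) :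
    DifferentiableAt ℝ (fun t => (X t * Y t).trace) s := by
  simp only [Matrix.trace, diag_apply, mul_apply]
  exact DifferentiableAt.fun_sum fun a _ => DifferentiableAt.fun_sum fun e _ => (hX a e).mul (hY e a)

theorem Gd.hf_diff (h : Gd c s) (ok : c.Ok) : DifferentiableAt ℝ (hf b c) s :=
  (differentiableAt_const _).add (differentiableAt_id.mul
    ((((d2_Fun ok.A s).const_mul _).div (d1_Fun ok.A s).differentiableAt h.A.ne').add
      (tr_Fun (fun a e => (h.Ym_Fun ok a e).differentiableAt) (ok.dG_Fun s))))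

theorem Gd.kap_diff (h : Gd c s) (ok : c.Ok) (hk : k.Ok) : DifferentiableAt ℝ (kap b c k) s :=
  (((d1_Fun hk.A s).differentiableAt.const_mul _).div (d1_Fun ok.A s).differentiableAt h.A.ne').add
    (tr_Fun (fun a e => (h.Ym_Fun ok a e).differentiableAt)
      fun a e => (hk.Gm_deriv s a e).differentiableAt)

theorem Gd.Sf_pos (h : Gd c s) : 0 < Sf b c s := by
  have h1 : 0 < (Ym c s).trace := h.G.inv.trace_pos
  have := h.A
  unfold Sf
  positivity

theorem Gd.Vf_pos (h : Gd c s) : 0 < Vf b c s := by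
  have := h.G.det_pos
  have := h.A
  have := h.pos
  unfold Vf
  positivity

theorem Gd.Sf_Fun (h : Gd c s) (ok : c.Ok) : HasDerivAt (Sf b c)
    (-(b * deriv c.A s / c.A s ^ 2) - (Ym c s * dG c s * Ym c s).trace) s := by
  have h1 := ((hasDerivAt_const s (b : ℝ)).fun_div (d1_Fun ok.A s) h.A.ne').fun_add
    (HasDerivAt.fun_sum (u := Finset.univ) fun a _ => h.Ym_Fun ok a a)
  refine h1.congr_deriv ?_
  simp only [Matrix.trace, diag_apply, Finset.sum_neg_distrib]
  ring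

theorem Gd.yf_Fun (h : Gd c s) (ok : c.Ok) (hk : k.Ok) {S1 : ℝ} (hS : HasDerivAt (Sf b c) S1 s) :
    HasDerivAt (yf b c k) (((2 * hf b c s * deriv (hf b c) s / pf c s -
      hf b c s ^ 2 * p1 c s / pf c s ^ 2 - kap b c k s ^ 2 -
      2 * s * kap b c k s * deriv (kap b c k) s) * Sf b c s -
      (hf b c s ^ 2 / pf c s - s * kap b c k s ^ 2) * S1) / ((b + 3) * Sf b c s ^ 2)) s := by
  have hS0 := (h.Sf_pos (b := b)).ne'
  have hp := h.p.ne'
  have hb : (b : ℝ) + 3 ≠ 0 := by positivity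
  have h1 := ((((h.hf_diff (b := b) ok).hasDerivAt.fun_pow 2).fun_div (ok.pf_deriv s) hp).fun_sub
    ((hasDerivAt_id' s).fun_mul ((h.kap_diff (b := b) ok hk).hasDerivAt.fun_pow 2))).fun_div
      (hS.const_mul ((b : ℝ) + 3)) (mul_ne_zero hb hS0)
  refine h1.congr_deriv ?_
  simp only [Nat.cast_ofNat, Nat.add_one_sub_one, pow_one]
  field_simp
  ring

theorem Gd.Mf_diff (h : Gd c s) (ok : c.Ok) (hk : k.Ok) : DifferentiableAt ℝ (Mf b c k) s := by
  have hV : DifferentiableAt ℝ (Vf b c) s :=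
    ((differentiableAt_id.pow _).mul ((d1_Fun ok.A s).differentiableAt.pow _)).mul
      (det_diffAt_Gen1 fun a e => (ok.Gm_deriv s a e).differentiableAt)
  exact (hV.rpow_const (Or.inl h.Vf_pos.ne')).mul
    ((h.yf_Fun ok hk (h.Sf_Fun ok)).differentiableAt.const_sub 1)

theorem Gd.Ff_cont (h : Gd c s) (ok : c.Ok) (hk : k.Ok) : ContinuousAt (Ff b c k) s :=
  (h.hf_diff ok).continuousAt.sub
    ((continuousAt_id.mul (ok.pf_deriv s).continuousAt).sqrt.mul
      (h.kap_diff ok hk).continuousAt.abs)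

theorem Gd.pt_pos (h : Gd c s) : (pt b c k s).Pos :=
  ⟨h.pos, Nat.cast_nonneg b, h.A, h.p, h.g_pos⟩

theorem Gd.tf_eq (h : Gd c s) (hd : (c.C s).IsDiag) : tf b c s = (pt b c k s).t := by
  simp only [tf, Pt.t, pt, h.Ym_diag hd, Matrix.trace, diag_apply, diagonal_mul]
  exact congrArg _ (Finset.sum_congr rfl fun a _ => by ring)

theorem Gd.hf_eq (h : Gd c s) (hd : (c.C s).IsDiag) : hf b c s = (pt b c k s).h := by
  rw [hf, h.tf_eq (k := k) hd]; rfl

theorem Gd.Sf_eq (h : Gd c s) (hd : (c.C s).IsDiag) : Sf b c s = (pt b c k s).S := by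
  simp only [Sf, Pt.S, pt, h.Ym_diag hd, trace_diagonal]

theorem Gd.kap_eq (h : Gd c s) (hd : (c.C s).IsDiag) : kap b c k s = (pt b c k s).kap := by
  simp only [kap, Pt.kap, pt, h.Ym_diag hd, Matrix.trace, diag_apply, diagonal_mul]
  exact congrArg _ (Finset.sum_congr rfl fun a _ => by ring)

theorem Gd.yf_eq (h : Gd c s) (hd : (c.C s).IsDiag) : yf b c k s = (pt b c k s).y := by
  rw [yf, h.hf_eq (k := k) hd, h.kap_eq hd, h.Sf_eq (k := k) hd]; rfl

theorem Gd.Sf_deriv (h : Gd c s) (ok : c.Ok) (hd : (c.C s).IsDiag) :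
    HasDerivAt (Sf b c) (pt b c k s).S1 s := by
  refine (h.Sf_Fun ok).congr_deriv ?_
  simp only [Pt.S1, pt, h.Ym_diag hd, Matrix.trace, diag_apply, diagonal_mul, mul_diagonal]
  exact congrArg _ (Finset.sum_congr rfl fun a _ => by ring)

theorem Gd.Vf_Fun (h : Gd c s) (ok : c.Ok) (hd : (c.C s).IsDiag) :
    HasDerivAt (Vf b c) (Vf b c s * ((pt b c k s).h / s)) s := by
  have G := ok.Gm_deriv s
  have z : ∀ a e, a ≠ e → Gm c s a e = 0 := fun a e hae => by
    simp [Gm, hd hae, one_apply_ne hae]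
  have h1 : HasDerivAt (fun t => (Gm c t).det) (dG c s 0 0 * Gm c s 1 1 * Gm c s 2 2 +
      Gm c s 0 0 * dG c s 1 1 * Gm c s 2 2 + Gm c s 0 0 * Gm c s 1 1 * dG c s 2 2) s := by
    simp only [det_fin_three]
    refine ((((((((G 0 0).fun_mul (G 1 1)).fun_mul (G 2 2)).fun_sub
      (((G 0 0).fun_mul (G 1 2)).fun_mul (G 2 1))).fun_sub
      (((G 0 1).fun_mul (G 1 0)).fun_mul (G 2 2))).fun_add
      (((G 0 1).fun_mul (G 1 2)).fun_mul (G 2 0))).fun_add
      (((G 0 2).fun_mul (G 1 0)).fun_mul (G 2 1))).fun_sub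
      (((G 0 2).fun_mul (G 1 1)).fun_mul (G 2 0))).congr_deriv ?_
    rw [z 0 1 (by decide), z 0 2 (by decide), z 1 0 (by decide), z 1 2 (by decide),
      z 2 0 (by decide), z 2 1 (by decide)]
    ring
  have h2 : HasDerivAt (fun t => c.A t ^ b) (c.A s ^ b * (b * deriv c.A s / c.A s)) s := by
    refine ((d1_Fun ok.A s).fun_pow b).congr_deriv ?_
    have := h.A.ne'
    cases b with
    | zero => simp
    | succ b => rw [Nat.add_sub_cancel, pow_succ]; field_simp
  refine (((hasDerivAt_pow (b + 3) s).fun_mul h2).fun_mul h1).congr_deriv ?_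
  have e : (Gm c s).det = Gm c s 0 0 * Gm c s 1 1 * Gm c s 2 2 := by
    rw [det_fin_three, z 0 1 (by decide), z 0 2 (by decide), z 1 2 (by decide)]
    ring
  have := h.A.ne'
  have := h.pos.ne'
  have := (h.g_pos 0).ne'
  have := (h.g_pos 1).ne'
  have := (h.g_pos 2).ne'
  simp only [Vf, e, Pt.h, Pt.t, pt, Fin.sum_univ_three, show b + 3 - 1 = b + 2 from rfl]
  push_cast
  field_simp
  ring

theorem Gd.Mf_deriv (h : Gd c s) (ok : c.Ok) (hk : k.Ok) (hd : (c.C s).IsDiag) :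
    HasDerivAt (Mf b c k) (Vf b c s ^ ((b + 2) / (2 * (b + 3)) : ℝ) *
      ((b + 2) / (2 * (b + 3)) * ((pt b c k s).h / s) * (1 - (pt b c k s).y) - (pt b c k s).y1))
      s := by
  have hy : HasDerivAt (yf b c k) (pt b c k s).y1 s := by
    refine (h.yf_Fun ok hk (h.Sf_deriv (k := k) ok hd)).congr_deriv ?_
    rw [h.hf_eq (k := k) hd, h.kap_eq hd, h.Sf_eq (k := k) hd]; rfl
  have hV := (h.Vf_pos (b := b)).ne'
  refine (((h.Vf_Fun (k := k) ok hd).rpow_const (p := (b + 2) / (2 * (b + 3)))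
    (Or.inl hV)).fun_mul (hy.const_sub 1)).congr_deriv ?_
  rw [Real.rpow_sub_one hV, h.yf_eq hd]
  field_simp
  ring

end Vale.Agent.P366
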