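import Vale.Agent.P366.Gen1

/-! P366 Gen2: scalar curvature = divergence + quadratic terms.  P = g⁻¹, γ = gam, W0 = Wz.
Product rule for pd (fderiv_fun_sum, fderiv_fun_mul, with inv_diff, chr_diff):
∂k W^k = (∂k P^ij) Γ^k_ij + P^ij ∂kΓ^k_ij - (∂k P^ik) γ_i - P^ik ∂k γ_i.
By pd_inv, chr_symm, inv_symm: (∂k P^ij) Γ^k_ij = -2 Q1 and ∂k P^ik = -W0^i - P^il γ_l.
In ric: ∑ k, pd j (chr k i k) = pd j (gam i), and the quadratic part contracts to γ·W0 - Q1. -/

namespace Vale.Agent.P366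

open Matrix

variable {n : ℕ} {g : Ten n} {x : E n}

theorem s3_Gen2 {ι : Type*} [Fintype ι] (f : ι → ι → ι → ℝ) :
    ∑ i, ∑ j, ∑ k, f i j k = ∑ k, ∑ i, ∑ j, f i j k :=
  (Finset.sum_congr rfl fun _ _ => Finset.sum_comm).trans Finset.sum_comm

theorem s22_Gen2 {ι : Type*} [Fintype ι] (f : ι → ι → ι → ι → ℝ) :
    ∑ i, ∑ j, ∑ k, ∑ l, f i j k l = ∑ k, ∑ l, ∑ i, ∑ j, f i j k l :=
  (s3_Gen2 fun i j k => ∑ l, f i j k l).trans
    (Finset.sum_congr rfl fun k _ => s3_Gen2 fun i j l => f i j k l)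

theorem alg_Gen2 {ι : Type*} [Fintype ι] (P : ι → ι → ℝ) (C : ι → ι → ι → ℝ)
    (D : ι → ι → ι → ι → ℝ) (hP : ∀ i j, P i j = P j i) (hC : ∀ k i j, C k i j = C k j i)
    (hD : ∀ m k i j, D m k i j = D m k j i) :
    ∑ i, ∑ j, P i j * ∑ k, (D k k i j - D j k i k + ∑ l, (C k k l * C l i j - C k j l * C l i k)) =
    ∑ k, (∑ i, ∑ j, (P i j * D k k i j + C k i j * -∑ l, (C i k l * P l j + C j k l * P i l)) -
      ∑ i, (P i k * ∑ l, D k l l i + (∑ m, C m m i) * -∑ l, (C i k l * P l k + C k k l * P i l))) +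
      ∑ i, ∑ j, P i j * ∑ k, ∑ l, C k j l * C l i k -
      ∑ i, ∑ j, P i j * (∑ l, C l l i) * ∑ m, C m m j := by
  have a : ∑ k, ∑ i, ∑ j, P i j * D k k i j = ∑ i, ∑ j, ∑ k, P i j * D k k i j :=
    (s3_Gen2 fun i j k => P i j * D k k i j).symm
  have b : ∑ k, ∑ i, ∑ l, P i k * D k l l i = ∑ i, ∑ j, ∑ k, P i j * D j k i k := by
    rw [Finset.sum_comm]
    simp only [fun m k i => hD m k k i]
  have c1 : ∑ k, ∑ i, ∑ j, ∑ l, C k i j * (C i k l * P l j) =
      ∑ i, ∑ j, ∑ k, ∑ l, P i j * (C k j l * C l i k) := by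
    rw [s22_Gen2, Finset.sum_comm]
    refine Finset.sum_congr rfl fun i _ => Finset.sum_congr rfl fun j _ =>
      Finset.sum_congr rfl fun k _ => Finset.sum_congr rfl fun l _ => ?_
    rw [hC k l j, hC l k i]
    ring
  have c2 : ∑ k, ∑ i, ∑ j, ∑ l, C k i j * (C j k l * P i l) =
      ∑ i, ∑ j, ∑ k, ∑ l, P i j * (C k j l * C l i k) := by
    rw [← c1]
    refine Finset.sum_congr rfl fun k _ => Finset.sum_comm.trans (Finset.sum_congr rfl fun i _ =>
      Finset.sum_congr rfl fun j _ => Finset.sum_congr rfl fun l _ => ?_)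
    rw [hC k j i, hP j l]
  have d1 : ∑ k, ∑ i, ∑ l, ∑ m, C m m i * (C i k l * P l k) =
      ∑ i, ∑ j, ∑ k, ∑ l, P i j * (C k k l * C l i j) := by
    refine Finset.sum_congr rfl fun k _ => (Finset.sum_comm.trans
      (Finset.sum_congr rfl fun l _ => Finset.sum_comm.trans (Finset.sum_congr rfl fun m _ =>
        Finset.sum_congr rfl fun i _ => ?_)))
    rw [hP l k]
    ring
  have d2 : ∑ k, ∑ i, ∑ l, ∑ m, C m m i * (C k k l * P i l) =
      ∑ i, ∑ j, ∑ m, ∑ l, P i j * C l l i * C m m j := by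
    rw [← s3_Gen2 fun i l k => ∑ m, C m m i * (C k k l * P i l)]
    refine Finset.sum_congr rfl fun i _ => Finset.sum_congr rfl fun j _ =>
      Finset.sum_congr rfl fun k _ => Finset.sum_congr rfl fun l _ => ?_
    ring
  simp only [mul_neg, Finset.mul_sum, Finset.sum_mul, mul_add, mul_sub, Finset.sum_add_distrib,
    Finset.sum_sub_distrib, Finset.sum_neg_distrib]
  linarith

theorem pd_sum_Gen2 {ι : Type*} [Fintype ι] (k : Fin n) {f : ι → E n → ℝ}
    (hf : ∀ i, DifferentiableAt ℝ (f i) x) :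
    pd k (fun y => ∑ i, f i y) x = ∑ i, pd k (f i) x := by
  unfold pd
  rw [fderiv_fun_sum fun i _ => hf i, _root_.sum_apply]

theorem pd_mul_Gen2 (k : Fin n) {f f' : E n → ℝ} (hf : DifferentiableAt ℝ f x)
    (hf' : DifferentiableAt ℝ f' x) :
    pd k (fun y => f y * f' y) x = f x * pd k f' x + f' x * pd k f x := by
  unfold pd
  rw [fderiv_fun_mul hf hf']
  rfl

theorem pd_sub_Gen2 (k : Fin n) {f f' : E n → ℝ} (hf : DifferentiableAt ℝ f x)
    (hf' : DifferentiableAt ℝ f' x) :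
    pd k (fun y => f y - f' y) x = pd k f x - pd k f' x := by
  unfold pd
  rw [fderiv_fun_sub hf hf']
  rfl

theorem Rg.scal_eq (h : Rg g x) : trg g (ric g) x =
    ∑ k, pd k (Wv g k) x + Q1 g x - ∑ i, ∑ j, (g x)⁻¹ i j * gam g i x * gam g j x := by
  have hg : ∀ i, DifferentiableAt ℝ (gam g i) x := fun i =>
    DifferentiableAt.fun_sum fun l _ => h.chr_diff l l i
  have e1 : ∀ k i, pd k (gam g i) x = ∑ l, pd k (chr g l l i) x := fun k i =>
    pd_sum_Gen2 k fun l => h.chr_diff l l i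
  have e2 : ∀ k, pd k (Wv g k) x =
      ∑ i, ∑ j, ((g x)⁻¹ i j * pd k (chr g k i j) x + chr g k i j x * pd k (fun y => (g y)⁻¹ i j) x) -
        ∑ i, ((g x)⁻¹ i k * pd k (gam g i) x + gam g i x * pd k (fun y => (g y)⁻¹ i k) x) := by
    intro k
    have a1 : ∀ i j, DifferentiableAt ℝ (fun y => (g y)⁻¹ i j * chr g k i j y) x := fun i j =>
      (h.inv_diff i j).mul (h.chr_diff k i j)
    have a2 : ∀ i, DifferentiableAt ℝ (fun y => ∑ j, (g y)⁻¹ i j * chr g k i j y) x := fun i =>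
      DifferentiableAt.fun_sum fun j _ => a1 i j
    have a3 : ∀ i, DifferentiableAt ℝ (fun y => (g y)⁻¹ i k * gam g i y) x := fun i =>
      (h.inv_diff i k).mul (hg i)
    refine (pd_sub_Gen2 k (DifferentiableAt.fun_sum fun i _ => a2 i)
      (DifferentiableAt.fun_sum fun i _ => a3 i)).trans ?_
    rw [pd_sum_Gen2 k a2, pd_sum_Gen2 k a3]
    congr 1
    · refine Finset.sum_congr rfl fun i _ => (pd_sum_Gen2 k (a1 i)).trans
        (Finset.sum_congr rfl fun j _ => pd_mul_Gen2 k (h.inv_diff i j) (h.chr_diff k i j))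
    · exact Finset.sum_congr rfl fun i _ => pd_mul_Gen2 k (h.inv_diff i k) (hg i)
  simp only [e2, e1, h.pd_inv]
  exact alg_Gen2 (fun i j => (g x)⁻¹ i j) (fun k i j => chr g k i j x)
    (fun m k i j => pd m (chr g k i j) x) (h.inv_symm x)
    (fun k i j => congrFun (chr_symm h.sy k i j) x) fun m k i j => by rw [chr_symm h.sy k i j]

end Vale.Agent.P366
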