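import Vale.Agent.P366.Key

/-! P366 Ineq: the pointwise monotonicity inequality.  d = b + 3, κ = kap, θ± = h ± σ κ ≥ 0 (so h ≥ 0), μ = (R + (k+κ)² - nsq)/2, e± = σ μ ± J ≥ 0, X2 = r² (∑ D_a²/g_a)/p ≥ 0,
N = h²/p - r κ² = θ₊ θ₋/p, N1 = 2 h h1/p - h² p1/p² - κ² - 2 r κ k1, y = N/(d S), y1 = (N1 S - N S1)/(d S²), T = b/A² + ∑ 1/g_a².
c± = d + 2 r t + r² aa ± 2 σ (κ + r ak) + σ² nK, nK = b AK²/A² + ∑ GK a e²/(g_a g_e).
(I) identity (substitute p = σ²/r; field_simp; ring, with t, aa, ak, nK, X2, RS, κ as atoms and h = d + r t):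
2 (N1 - N/r) = h (RS - N)/r - (θ₋ e₊ + θ₊ e₋)/σ - 2 h X2 - (θ₋ c₊ + θ₊ c₋)/(2 σ²).
(II) c± = b χh±² + ∑ a e, (δ g_a + r G1 a e ± σ GK a e)²/(g_a g_e) ≥ b χh±² + ∑ a, χa±², where χh± = 1 + r A1/A ± σ AK/A, χa± = 1 + r G1 a a/g_a ± σ GK a a/g_a.  With U± = b χh±/A + ∑ χa±/g_a one has U₊ + U₋ = 2 (S - r S1), and b (χh - θ/(A S))² + ∑ (χa - θ/(g_a S))² ≥ 0 gives c± ≥ 2 θ± U±/S - θ±² T/S².
Hence (θ₋ c₊ + θ₊ c₋)/(2σ²) ≥ (N/r) (2 (S - r S1)/S - h T/S²), so 2 (N1 S - N S1) r/S ≤ h (RS - N + N T/S²).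
(III) with N = d S y the claim becomes RS/(d S) - y + y T/S² ≤ (d-1)/d (1 - y), which follows from key (RS/(d S) ≤ 1 - T/S²) and (1 - y)(T/S² - 1/d) ≥ 0, S² ≤ d T (Cauchy-Schwarz).
Make each step a purely real lemma. -/

namespace Vale.Agent.P366

open Matrix

theorem id_Ineq {r σ p p1 k h1 k1 t aa ak nK X2 RS κ d h : ℝ} (hr : 0 < r) (hσ : 0 < σ)
    (hs : σ ^ 2 = r * p) (hh : h = d + r * t) {μ J : ℝ}
    (hμ : μ = (RS / r - 4 * h1 / p + 2 * h * (p + r * p1) / (r * p ^ 2) - h ^ 2 / (r * p) -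
      (d + 2 * r * t + r ^ 2 * aa) / (r * p) + (k + κ) ^ 2 - (k ^ 2 + 2 * X2 + nK)) / 2)
    (hJ : J = -2 * r * k1 + h * k - κ - r * ak) :
    2 * ((2 * h * h1 / p - h ^ 2 * p1 / p ^ 2 - κ ^ 2 - 2 * r * κ * k1) -
        (h ^ 2 / p - r * κ ^ 2) / r) =
      h * (RS - (h ^ 2 / p - r * κ ^ 2)) / r -
        ((h - σ * κ) * (μ * σ + J) + (h + σ * κ) * (μ * σ - J)) / σ - 2 * h * X2 -
        ((h - σ * κ) * (d + 2 * r * t + r ^ 2 * aa + 2 * σ * (κ + r * ak) + σ ^ 2 * nK) +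
          (h + σ * κ) * (d + 2 * r * t + r ^ 2 * aa + 2 * (-σ) * (κ + r * ak) + (-σ) ^ 2 * nK)) /
          (2 * σ ^ 2) := by
  have hp : p = σ ^ 2 / r := by
    rw [hs]
    field_simp
  subst hp hμ hJ hh
  field_simp
  ring

theorem fin_Ineq {r d h N N1 RS S S1 T : ℝ} (hr : 0 < r) (hd : 0 < d) (hS : 0 < S) (hh : 0 ≤ h)
    (h1 : 2 * (N1 - N / r) ≤ h * (RS - N) / r - N / r * (2 * (S - r * S1) / S - h * T / S ^ 2))
    (hy : N / (d * S) ≤ 1) (key : RS * S ≤ d * (S ^ 2 - T)) (cs : S ^ 2 ≤ d * T) :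
    (N1 * S - N * S1) / (d * S ^ 2) ≤ (d - 1) / (2 * d) * (h / r) * (1 - N / (d * S)) := by
  set y := N / (d * S) with hyd
  have hN : N = d * S * y := by
    rw [hyd]
    field_simp
  set τ := T / S ^ 2 with hτ
  have hT : T = τ * S ^ 2 := by
    rw [hτ]
    field_simp
  have k1 : RS / (d * S) ≤ 1 - τ := by
    rw [div_le_iff₀ (by positivity)]
    refine le_of_mul_le_mul_right ?_ hS
    rw [hT] at key
    linarith
  have k2 : 1 / d ≤ τ := by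
    rw [hτ, div_le_div_iff₀ hd (by positivity)]
    linarith
  have k3 : RS / (d * S) - y + y * τ ≤ (d - 1) / d * (1 - y) := by
    have := mul_nonneg (sub_nonneg.2 hy) (sub_nonneg.2 k2)
    have e : (d - 1) / d = 1 - 1 / d := by field_simp
    rw [e]
    linarith
  have k4 : (N1 * S - N * S1) / (d * S ^ 2) =
      (2 * (N1 - N / r) + N / r * (2 * (S - r * S1) / S)) / (2 * d * S) := by
    field_simp
    ring
  have k5 : (h * (RS - N) / r + N / r * (h * T / S ^ 2)) / (2 * d * S) =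
      h / (2 * r) * (RS / (d * S) - y + y * τ) := by
    rw [hT, hN]
    field_simp
  calc (N1 * S - N * S1) / (d * S ^ 2)
      ≤ (h * (RS - N) / r + N / r * (h * T / S ^ 2)) / (2 * d * S) := by
        rw [k4]
        refine div_le_div_of_nonneg_right ?_ (by positivity)
        linarith
    _ ≤ h / (2 * r) * ((d - 1) / d * (1 - y)) := by
        rw [k5]
        exact mul_le_mul_of_nonneg_left k3 (by positivity)
    _ = _ := by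
        field_simp

theorem mid_Ineq {r σ p h κ S S1 T W cp cm : ℝ} (hr : 0 < r) (hσ : 0 < σ) (hS : 0 < S)
    (hs : σ ^ 2 = r * p) (h1 : 0 ≤ h + σ * κ) (h2 : 0 ≤ h - σ * κ)
    (hp : ∀ l, 2 * l * (S - r * S1 + σ * W) - l ^ 2 * T ≤ cp)
    (hm : ∀ l, 2 * l * (S - r * S1 + -σ * W) - l ^ 2 * T ≤ cm) :
    (h ^ 2 / p - r * κ ^ 2) / r * (2 * (S - r * S1) / S - h * T / S ^ 2) ≤
      ((h - σ * κ) * cp + (h + σ * κ) * cm) / (2 * σ ^ 2) := by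
  have a1 := mul_le_mul_of_nonneg_left (hp ((h + σ * κ) / S)) h2
  have a2 := mul_le_mul_of_nonneg_left (hm ((h - σ * κ) / S)) h1
  refine le_trans (le_of_eq ?_) (div_le_div_of_nonneg_right (add_le_add a1 a2) (by positivity))
  have hp' : p = σ ^ 2 / r := by
    rw [hs]
    field_simp
  subst hp'
  field_simp
  ring

theorem sq_Ineq {z : Pt} (h : z.Pos) (τ l : ℝ) :
    2 * l * (z.S - z.r * z.S1 + τ * (z.b * z.AK / z.A ^ 2 + ∑ a, z.GK a a / z.g a ^ 2)) -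
      l ^ 2 * (z.b / z.A ^ 2 + ∑ a, 1 / z.g a ^ 2) ≤
    z.b + 3 + 2 * z.r * z.t + z.r ^ 2 * z.aa + 2 * τ * (z.kap + z.r * z.ak) +
      τ ^ 2 * (z.b * z.AK ^ 2 / z.A ^ 2 + ∑ a, ∑ e, z.GK a e ^ 2 / (z.g a * z.g e)) := by
  have u0 : 0 < (z.g 0)⁻¹ := inv_pos.2 (h.g 0)
  have u1 : 0 < (z.g 1)⁻¹ := inv_pos.2 (h.g 1)
  have u2 : 0 < (z.g 2)⁻¹ := inv_pos.2 (h.g 2)
  have hb := h.b
  simp only [Pt.S, Pt.S1, Pt.t, Pt.aa, Pt.kap, Pt.ak, Fin.sum_univ_three, div_eq_mul_inv, mul_inv,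
    ← inv_pow]
  generalize (z.g 0)⁻¹ = a at *
  generalize (z.g 1)⁻¹ = b at *
  generalize (z.g 2)⁻¹ = c at *
  generalize z.A⁻¹ = v
  have e : 0 ≤ z.b * (1 + z.r * z.A1 * v + τ * z.AK * v - l * v) ^ 2 +
      (1 + z.r * z.G1 0 0 * a + τ * z.GK 0 0 * a - l * a) ^ 2 +
      (1 + z.r * z.G1 1 1 * b + τ * z.GK 1 1 * b - l * b) ^ 2 +
      (1 + z.r * z.G1 2 2 * c + τ * z.GK 2 2 * c - l * c) ^ 2 +
      ((z.r * z.G1 0 1 + τ * z.GK 0 1) ^ 2 + (z.r * z.G1 1 0 + τ * z.GK 1 0) ^ 2) * (a * b) +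
      ((z.r * z.G1 0 2 + τ * z.GK 0 2) ^ 2 + (z.r * z.G1 2 0 + τ * z.GK 2 0) ^ 2) * (a * c) +
      ((z.r * z.G1 1 2 + τ * z.GK 1 2) ^ 2 + (z.r * z.G1 2 1 + τ * z.GK 2 1) ^ 2) * (b * c) := by
    positivity
  linarith

theorem cs_Ineq {z : Pt} (h : z.Pos) :
    z.S ^ 2 ≤ (z.b + 3) * (z.b / z.A ^ 2 + ∑ a, 1 / z.g a ^ 2) := by
  have hb := h.b
  simp only [Pt.S, Fin.sum_univ_three, div_eq_mul_inv, ← inv_pow]
  generalize (z.g 0)⁻¹ = a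
  generalize (z.g 1)⁻¹ = b
  generalize (z.g 2)⁻¹ = c
  generalize z.A⁻¹ = v
  have e : 0 ≤ z.b * ((v - a) ^ 2 + (v - b) ^ 2 + (v - c) ^ 2) + (a - b) ^ 2 + (a - c) ^ 2 +
      (b - c) ^ 2 := by positivity
  linarith

theorem Pt.Pos.ineq {z : Pt} (h : z.Pos) {σ : ℝ} (hσ : 0 < σ) (hs : σ ^ 2 = z.r * z.p)
    (hF : σ * |z.kap| ≤ z.h) (hy : z.y ≤ 1)
    (hD : |z.J| ≤ (z.R + (z.k + z.kap) ^ 2 - z.nsq) / 2 * σ) :
    z.y1 ≤ (z.b + 2) / (2 * (z.b + 3)) * (z.h / z.r) * (1 - z.y) := by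
  have hr := h.r
  have hb := h.b
  have hp := h.p
  have hS : 0 < z.S := by
    have := h.A
    have := h.g 0
    have := h.g 1
    have := h.g 2
    simp only [Pt.S, Fin.sum_univ_three]
    positivity
  have hk : |σ * z.kap| ≤ z.h := by rwa [abs_mul, abs_of_pos hσ]
  have t1 : 0 ≤ z.h + σ * z.kap := by linarith [(abs_le.1 hk).1]
  have t2 : 0 ≤ z.h - σ * z.kap := by linarith [(abs_le.1 hk).2]
  have hh : 0 ≤ z.h := by linarith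
  have hX : 0 ≤ z.r ^ 2 * (∑ a, z.D a ^ 2 / z.g a) / z.p :=
    div_nonneg (mul_nonneg (sq_nonneg _) (Finset.sum_nonneg fun a _ =>
      div_nonneg (sq_nonneg _) (h.g a).le)) hp.le
  have hI := id_Ineq (p1 := z.p1) (k := z.k) (h1 := z.h1) (k1 := z.k1) (t := z.t) (aa := z.aa)
    (ak := z.ak) (nK := z.b * z.AK ^ 2 / z.A ^ 2 + ∑ a, ∑ e, z.GK a e ^ 2 / (z.g a * z.g e))
    (X2 := z.r ^ 2 * (∑ a, z.D a ^ 2 / z.g a) / z.p) (RS := z.RS) (κ := z.kap) (d := z.b + 3)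
    (h := z.h) hr hσ hs rfl (μ := (z.R + (z.k + z.kap) ^ 2 - z.nsq) / 2) (J := z.J)
    (by unfold Pt.R Pt.nsq; ring) rfl
  have hM := mid_Ineq hr hσ hS hs t1 t2 (sq_Ineq h σ) (sq_Ineq h (-σ))
  have e1 : 0 ≤ (z.R + (z.k + z.kap) ^ 2 - z.nsq) / 2 * σ + z.J := by linarith [(abs_le.1 hD).1]
  have e2 : 0 ≤ (z.R + (z.k + z.kap) ^ 2 - z.nsq) / 2 * σ - z.J := by linarith [(abs_le.1 hD).2]
  have e3 := div_nonneg (add_nonneg (mul_nonneg t2 e1) (mul_nonneg t1 e2)) hσ.le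
  have e4 := mul_nonneg hh hX
  have := fin_Ineq (N1 := 2 * z.h * z.h1 / z.p - z.h ^ 2 * z.p1 / z.p ^ 2 - z.kap ^ 2 -
    2 * z.r * z.kap * z.k1) (S1 := z.S1) hr (by linarith : 0 < z.b + 3) hS hh (by linarith) hy h.key
    (cs_Ineq h)
  have e5 : z.b + 3 - 1 = z.b + 2 := by ring
  rw [e5] at this
  exact this

end Vale.Agent.P366
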