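import Vale.Agent.P366.PDefs

/-! P366 Key: the orbit curvature bound.  Put v = 1/A, u_a = 1/g_a, s1 = ∑ u_a, s2 = u0 u1 + u0 u2 + u1 u2, s3 = u0 u1 u2, σ = ∑ g_a = s2/s3, m = s2/s1.
S = b v + s1, S² - T = b(b-1) v² + 2 b v s1 + 2 s2, RS = b(b+8) v - b v² σ + R3.
(1) R3 ≤ 6 m: in terms of the elementary symmetric functions σ1, σ2, σ3 of g this is 4 σ2² - σ1² σ2 ≤ 3 σ1 σ3, and σ1² σ2 + 3 σ1 σ3 - 4 σ2² = ∑ over pairs g_a g_e (g_a - g_e)².
(2) With R3 replaced by 6 m: LHS - RHS = b (b v (6 v - s1 - v² σ) + (3 v² + 2 v s1 - v² σ s1 + 6 v m - 2 m s1)).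
First bracket ≤ 0 since u_a + v² g_a ≥ 2 v.  Second: σ ≥ 3/m (s2² ≥ 3 s1 s3), s1 ≥ 3 m (s1² ≥ 3 s2), 2 v - 2 m - 3 v²/m < 0, so it is at most 3 v² + 6 v m + 3 m (2 v - 2 m - 3 v²/m) = -6 (v - m)². -/

namespace Vale.Agent.P366

open Matrix

theorem alg_Key {b v s σ m R : ℝ} (hb : 0 ≤ b) (hv : 0 < v) (hm : 0 < m) (hR : R ≤ 6 * m)
    (h1 : 6 * v ≤ s + v ^ 2 * σ) (h2 : 3 ≤ σ * m) (h3 : 3 * m ≤ s) :
    (b * (b + 8) * v - b * σ * v ^ 2 + R) * (b * v + s) ≤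
      (b + 3) * (b * (b - 1) * v ^ 2 + 2 * b * v * s + 2 * (m * s)) := by
  have hs : 0 < s := by linarith
  have k0 := mul_le_mul_of_nonneg_right hR (by positivity : 0 ≤ b * v + s)
  have k1 : v ^ 2 * 3 ≤ v ^ 2 * (σ * m) := mul_le_mul_of_nonneg_left h2 (sq_nonneg v)
  have k2 : 0 ≤ v ^ 2 * σ + 2 * m - 2 * v := by
    refine nonneg_of_mul_nonneg_right (a := m) ?_ hm
    nlinarith [sq_nonneg (v - m), sq_nonneg v, sq_nonneg m]
  have k3 := mul_le_mul_of_nonneg_right h3 k2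
  have k4 : 0 ≤ s * (v ^ 2 * σ + 2 * m - 2 * v) - 3 * v ^ 2 - 6 * v * m := by
    nlinarith [sq_nonneg (v - m)]
  have k5 := mul_nonneg hb k4
  have k6 := mul_nonneg (mul_nonneg hb (mul_nonneg hb hv.le)) (sub_nonneg.2 h1)
  nlinarith

theorem one_Key {g v : ℝ} (hg : 0 < g) : 2 * v ≤ 1 / g + v ^ 2 * g := by
  have h : 1 / g + v ^ 2 * g - 2 * v = (1 - v * g) ^ 2 / g := by
    field_simp
    ring
  have h2 : 0 ≤ (1 - v * g) ^ 2 / g := by positivity
  linarith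

theorem Pt.Pos.key {z : Pt} (h : z.Pos) :
    z.RS * z.S ≤ (z.b + 3) * (z.S ^ 2 - (z.b / z.A ^ 2 + ∑ a, 1 / z.g a ^ 2)) := by
  have hx := h.g 0
  have hy := h.g 1
  have hw := h.g 2
  have hA := h.A
  simp only [Pt.RS, Pt.S, Pt.R3, Fin.sum_univ_three]
  generalize z.g 0 = x at *
  generalize z.g 1 = y at *
  generalize z.g 2 = w at *
  have h2 : 0 < x * y + x * w + y * w := by positivity
  have k := alg_Key (b := z.b) (v := 1 / z.A) (s := 1 / x + 1 / y + 1 / w) (σ := x + y + w)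
    (m := (x + y + w) / (x * y + x * w + y * w))
    (R := 2 * (4 * (x * y + x * w + y * w) - (x + y + w) ^ 2) / (x * y * w)) h.b (by positivity)
    (by positivity) ?_ ?_ ?_ ?_
  · refine le_of_eq_of_le ?_ (k.trans_eq ?_)
    · field_simp
    · field_simp
      ring
  · rw [← mul_div_assoc, div_le_div_iff₀ (by positivity) h2]
    nlinarith [mul_nonneg (mul_pos hx hy).le (sq_nonneg (x - y)),
      mul_nonneg (mul_pos hx hw).le (sq_nonneg (x - w)),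
      mul_nonneg (mul_pos hy hw).le (sq_nonneg (y - w))]
  · nlinarith [one_Key (v := 1 / z.A) hx, one_Key (v := 1 / z.A) hy, one_Key (v := 1 / z.A) hw]
  · rw [← mul_div_assoc, le_div_iff₀ h2]
    nlinarith [sq_nonneg (x - y), sq_nonneg (x - w), sq_nonneg (y - w)]
  · have e : 1 / x + 1 / y + 1 / w = (x * y + x * w + y * w) / (x * y * w) := by
      field_simp
      ring
    rw [e, ← mul_div_assoc, div_le_div_iff₀ h2 (by positivity)]
    nlinarith [sq_nonneg (x * y - x * w), sq_nonneg (x * y - y * w), sq_nonneg (x * w - y * w)]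

end Vale.Agent.P366
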