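import Vale.Agent.P366.PDefs

/-! P366 Ode: the continuity argument.
Z = {s ≥ s0 | F s ≤ 0} is closed, bounded, contains s0; s1 = max Z.  F > 0 on (s1, ∞), so F s1 = 0 by continuity from the right, and M s1 > 0.
Claim M s1 ≤ M s for s ≥ s1: otherwise let s2 be the first point after s1 with M ≤ M s1 - δ for a small δ < M s1 (closed set, infimum); on [s1, s2] M ≥ M s1 - δ > 0, so monotoneOn_of_deriv_nonneg gives M s2 ≥ M s1, a contradiction.  ge_of_tendsto. -/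

namespace Vale.Agent.P366

open Filter Topology Set

theorem ode {F M : ℝ → ℝ} {s0 m : ℝ} (hF : ∀ s, s0 ≤ s → ContinuousAt F s)
    (hM : ∀ s, s0 ≤ s → DifferentiableAt ℝ M s) (h0 : F s0 ≤ 0) (hp : ∀ᶠ s in atTop, 0 < F s)
    (hz : ∀ s, s0 ≤ s → F s = 0 → 0 < M s)
    (hd : ∀ s, s0 < s → 0 ≤ F s → 0 ≤ M s → 0 ≤ deriv M s) (hm : Tendsto M atTop (𝓝 m)) :
    ∃ s, s0 ≤ s ∧ F s = 0 ∧ M s ≤ m := by
  obtain ⟨a, ha⟩ := eventually_atTop.1 hp
  have hFc : ContinuousOn F (Ici s0) := fun s hs => (hF s hs).continuousWithinAt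
  have hZ : IsClosed (Ici s0 ∩ F ⁻¹' Iic 0) :=
    hFc.preimage_isClosed_of_isClosed isClosed_Ici isClosed_Iic
  have hb : BddAbove (Ici s0 ∩ F ⁻¹' Iic 0) :=
    ⟨a, fun s hs => le_of_not_ge fun h => (ha s h).not_ge hs.2⟩
  obtain ⟨s1, ⟨h1, h2⟩, h3⟩ : ∃ s1, IsGreatest (Ici s0 ∩ F ⁻¹' Iic 0) s1 :=
    ⟨_, hZ.isGreatest_csSup ⟨s0, self_mem_Ici, h0⟩ hb⟩
  have h1' : s0 ≤ s1 := h1
  have hpos : ∀ s, s1 < s → 0 < F s := fun s hs =>
    lt_of_not_ge fun h => hs.not_ge (h3 ⟨h1'.trans hs.le, h⟩)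
  have h4 : F s1 = 0 := le_antisymm h2 (ge_of_tendsto
    ((hF s1 h1').tendsto.mono_left (nhdsWithin_le_nhds (s := Ioi s1)))
    (eventually_mem_nhdsWithin.mono fun s hs => (hpos s hs).le))
  have h5 := hz s1 h1' h4
  refine ⟨s1, h1', h4, ge_of_tendsto hm ((eventually_ge_atTop s1).mono fun s hs => ?_)⟩
  by_contra hc
  have hc1 : max (M s) 0 < M s1 := max_lt (lt_of_not_ge hc) h5
  have hMc : ContinuousOn M (Ici s1) := fun t ht =>
    (hM t (h1'.trans ht)).continuousAt.continuousWithinAt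
  have hW : IsClosed (Ici s1 ∩ M ⁻¹' Iic (max (M s) 0)) :=
    hMc.preimage_isClosed_of_isClosed isClosed_Ici isClosed_Iic
  obtain ⟨s2, ⟨k1, k2⟩, k3⟩ : ∃ s2, IsLeast (Ici s1 ∩ M ⁻¹' Iic (max (M s) 0)) s2 :=
    ⟨_, hW.isLeast_csInf ⟨s, hs, le_max_left (M s) 0⟩ ⟨s1, fun t ht => ht.1⟩⟩
  have hmono : MonotoneOn M (Icc s1 s2) := by
    refine monotoneOn_of_deriv_nonneg (convex_Icc s1 s2) (hMc.mono Icc_subset_Ici_self)
      (fun t ht => (hM t (h1'.trans (interior_subset ht).1)).differentiableWithinAt) fun t ht => ?_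
    rw [interior_Icc] at ht
    refine hd t (h1'.trans_lt ht.1) (hpos t ht.1).le ((le_max_right (M s) 0).trans ?_)
    exact le_of_not_ge fun h => ht.2.not_ge (k3 ⟨ht.1.le, h⟩)
  exact (hc1.trans_le (hmono ⟨le_rfl, k1⟩ ⟨k1, le_rfl⟩ k1)).not_ge k2

end Vale.Agent.P366
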