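import Vale.Agent.P366.C1b

/-! P366 Sph: integrals over spheres.
sph_const: integral_congr_ae / integral_const, ‖r • w‖ = r.  om_pos: Measure.toSphere_ne_zero or toSphere_real_apply_univ.
sph_odd: the map w ↦ -w of the unit sphere preserves toSphere (Measure.toSphere_apply', the cone over -s is minus the cone over s, Measure.measure_neg); MeasurePreserving.integral_comp' with a MeasurableEquiv; then I = -I.
area_eq: det_eq, N2_eq: √det √(N2/s) = √(A^b det G); r^(n-1) √(A^b det G) = √(Vf (r²)).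
eflux_eq: ef_eq, om cancels.  pflux_eq: sym_neg makes mom even. -/

namespace Vale.Agent.P366

open Matrix MeasureTheory

variable {n b : ℕ} {L : Fin 3 → Mat n} {c k : Co} {r : ℝ}

theorem om_eq_Sph (n : ℕ) : om n = (volume : Measure (E n)).toSphere.real Set.univ := by
  simp [om, sph]

theorem sph_const (hr : 0 ≤ r) {f : E n → ℝ} {a : ℝ} (hf : ∀ y, ‖y‖ = r → f y = a) :
    sph r f = r ^ (n - 1) * a * om n := by
  have h : ∀ w : Metric.sphere (0 : E n) 1, f (r • (w : E n)) = a := fun w => hf _ (by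
    rw [norm_smul, Real.norm_of_nonneg hr, norm_eq_of_mem_sphere, mul_one])
  simp only [sph, h]
  rw [om_eq_Sph, integral_const, smul_eq_mul]
  ring

theorem om_pos (hn : 0 < n) : 0 < om n := by
  rw [om_eq_Sph, Measure.toSphere_real_apply_univ]
  refine mul_pos (by simpa using hn) (ENNReal.toReal_pos ?_ measure_ball_lt_top.ne)
  exact (Metric.measure_ball_pos _ _ one_pos).ne'

open Pointwise in
theorem neg_Sph (n : ℕ) : MeasurePreserving (MeasurableEquiv.neg (Metric.sphere (0 : E n) 1))
    (volume : Measure (E n)).toSphere (volume : Measure (E n)).toSphere := by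
  refine ⟨(MeasurableEquiv.neg _).measurable, Measure.ext fun s hs => ?_⟩
  rw [MeasurableEquiv.map_apply, Measure.toSphere_apply' _ hs,
    Measure.toSphere_apply' _ ((MeasurableEquiv.neg _).measurable hs)]
  have e : ((↑) '' (MeasurableEquiv.neg (Metric.sphere (0 : E n) 1) ⁻¹' s) : Set (E n)) =
      -((↑) '' s) := by
    ext y
    constructor
    · rintro ⟨w, hw, rfl⟩
      exact ⟨-w, hw, rfl⟩
    · rintro ⟨w, hw, h⟩
      refine ⟨-w, ?_, ?_⟩
      · change - -w ∈ s
        rwa [neg_neg]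
      · rw [coe_neg_sphere, h, neg_neg]
  rw [e, Set.smul_neg, Measure.measure_neg]

theorem sph_odd (r : ℝ) {f : E n → ℝ} (hf : ∀ y, f (-y) = -f y) : sph r f = 0 := by
  have h := (neg_Sph n).integral_comp' fun w => f (r • (w : E n))
  have e : ∀ w : Metric.sphere (0 : E n) 1,
      f (r • ((MeasurableEquiv.neg (Metric.sphere (0 : E n) 1) w : Metric.sphere (0 : E n) 1) :
        E n)) = -f (r • (w : E n)) := fun w => by
    rw [← hf, ← smul_neg]
    rfl
  simp only [e, integral_neg] at h
  rw [sph, self_eq_neg.1 h.symm, mul_zero]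

theorem St.area_eq (h : St L b c) (hr : 0 < r) (hg : Gd c (r ^ 2)) :
    area (sym L c) r = √(Vf b c (r ^ 2)) * om n := by
  rw [area, sph_const hr.le (a := √(c.A (r ^ 2) ^ b * (Gm c (r ^ 2)).det))]
  · have e : n - 1 = b + 3 := by rw [h.dim]; rfl
    rw [Vf, e, mul_assoc ((r ^ 2) ^ (b + 3)), Real.sqrt_mul (x := (r ^ 2) ^ (b + 3)) (by positivity),
      ← pow_mul, mul_comm 2, pow_mul, Real.sqrt_sq (by positivity)]
  · intro y hy
    subst hy
    have h1 : ∑ k, ∑ l, (sym L c y)⁻¹ k l * (y k / ‖y‖) * (y l / ‖y‖) = (pf c (‖y‖ ^ 2))⁻¹ := by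
      have h2 : ∑ k, ∑ l, (sym L c y)⁻¹ k l * (y k / ‖y‖) * (y l / ‖y‖) =
          N2 (sym L c) y / ‖y‖ ^ 2 := by
        simp only [N2, Finset.sum_div]
        refine Finset.sum_congr rfl fun k _ => Finset.sum_congr rfl fun l _ => ?_
        ring
      rw [h2, h.N2_eq hg]
      field_simp
    rw [h1, h.det_eq hg, ← Real.sqrt_mul' _ (inv_nonneg.2 hg.p.le)]
    congr 1
    have := hg.p.ne'
    field_simp

theorem St.eflux_eq (h : St L b c) (hr : 0 < r) :
    eflux (sym L c) r = r ^ (b + 2) * ef b c (r ^ 2) / (2 * (b + 3)) := by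
  rw [eflux, sph_const hr.le (a := ef b c (r ^ 2) / r)]
  · have e : n - 1 = b + 3 := by rw [h.dim]; rfl
    have e' : (n : ℝ) - 1 = b + 3 := by rw [h.dim]; push_cast; ring
    have h1 := (om_pos (n := n) (by rw [h.dim]; omega)).ne'
    rw [e, e']
    field_simp
    ring
  · intro y hy
    subst hy
    rw [← h.ef_eq (norm_pos_iff.1 hr)]
    simp only [Finset.sum_div, mul_div_assoc]

theorem pflux_eq (L : Fin 3 → Mat n) (c k : Co) (i : Fin n) (r : ℝ) :
    pflux (sym L c) (sym L k) i r = 0 := by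
  rw [pflux, sph_odd, mul_zero]
  intro y
  simp only [mom, trg, sym_neg, norm_neg, PiLp.neg_apply, neg_div, mul_neg, Finset.sum_neg_distrib]

end Vale.Agent.P366
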