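import Vale.Agent.P366.Mono
import Vale.Agent.P366.Dec
import Vale.Agent.P366.Asy
import Vale.Agent.P366.Sph
import Vale.Agent.P366.Ode

/-! P366 Main: assembly. -/

namespace Vale.Agent.P366

open Matrix Filter Topology

variable {n b : ℕ} {L : Fin 3 → Mat n} {c k : Co} {s : ℝ}

theorem Gd.Mf_of_Ff (h : Gd c s) (hF : Ff b c k s = 0) :
    Mf b c k s = Vf b c s ^ ((b + 2) / (2 * (b + 3)) : ℝ) := by
  have h1 : hf b c s ^ 2 = s * pf c s * kap b c k s ^ 2 := by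
    rw [sub_eq_zero.1 hF, mul_pow, Real.sq_sqrt (mul_pos h.pos h.p).le, sq_abs]
  have h2 : hf b c s ^ 2 / pf c s - s * kap b c k s ^ 2 = 0 := by
    rw [h1]
    have := h.p.ne'
    field_simp
    ring
  rw [Mf, yf, h2, zero_div, sub_zero, mul_one]

theorem St.main (h : St L b c) (hk : k.Ok) (hb : 0 < b) {R0 q C R En : ℝ} (hR : 0 < R0)
    (hq : (b + 2 : ℝ) / 2 < q) (hg : ∀ x : E n, R0 ≤ ‖x‖ → (sym L c x).PosDef)
    (hd : ∀ y : E n, R ≤ ‖y‖ → ∀ i j l, |(sym L c y - 1) i j| ≤ C * ‖y‖ ^ (-q) ∧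
      |pd l (fun z => sym L c z i j) y| ≤ C * ‖y‖ ^ (-q - 1) ∧
      |sym L k y i j| ≤ C * ‖y‖ ^ (-1 - q))
    (hE : ∀ x : E n, R0 ≤ ‖x‖ → curN (sym L c) (sym L k) x ≤ mu (sym L c) (sym L k) x)
    (ht : ∀ x : E n, ‖x‖ = R0 → thp (sym L c) (sym L k) x ≤ 0)
    (hl : Tendsto (eflux (sym L c)) atTop (𝓝 En)) :
    ∃ r, R0 ≤ r ∧ 0 < area (sym L c) r / om n ∧
      (area (sym L c) r / om n) ^ ((b + 2 : ℝ) / (b + 3)) ≤ 2 * En := by
  have hn : 0 < n := by rw [h.dim]; omega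
  have hy : ∀ s, R0 ^ 2 ≤ s → ∃ y : E n, R0 ≤ ‖y‖ ∧ ‖y‖ ^ 2 = s := fun s hs => by
    obtain ⟨y, hy⟩ := exists_norm hn (Real.sqrt_nonneg s)
    refine ⟨y, hy ▸ Real.le_sqrt_of_sq_le hs, ?_⟩
    rw [hy, Real.sq_sqrt (le_trans (sq_nonneg _) hs)]
  have hG : ∀ s, R0 ^ 2 ≤ s → Gd c s := fun s hs => by
    obtain ⟨y, h1, rfl⟩ := hy s hs
    exact h.gd hb (norm_pos_iff.1 (hR.trans_le h1)) (hg y h1)
  have hD := h.dec hk hb hd
  have hb3 : (0 : ℝ) < b + 3 := by positivity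
  have hlim : Tendsto (Mf b c k) atTop (𝓝 (2 * En)) := by
    refine hD.Mf_lim hq ?_
    have h1 := (hl.comp Real.tendsto_sqrt_atTop).const_mul (2 * (b + 3 : ℝ))
    rw [show 2 * (b + 3 : ℝ) * En = (b + 3) * (2 * En) by ring] at h1
    refine h1.congr' ((eventually_gt_atTop 0).mono fun s hs => ?_)
    have e : √s ^ (b + 2) = s ^ ((b + 2 : ℝ) / 2) := by
      rw [Real.sqrt_eq_rpow, ← Real.rpow_natCast, ← Real.rpow_mul hs.le]
      push_cast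
      ring_nf
    simp only [Function.comp]
    rw [h.eflux_eq (Real.sqrt_pos.2 hs), Real.sq_sqrt hs.le, e]
    field_simp
  obtain ⟨s, hs, hF, hM⟩ := ode (F := Ff b c k) (M := Mf b c k) (s0 := R0 ^ 2)
    (fun s hs => (hG s hs).Ff_cont h.ok hk) (fun s hs => (hG s hs).Mf_diff h.ok hk)
    (by
      obtain ⟨y, hy⟩ := exists_norm hn hR.le
      have h0 := hG _ le_rfl
      have h1 := ht y hy
      rw [h.thp_eq hk (hy ▸ h0), hy] at h1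
      have h2 : 0 < √(R0 ^ 2 * pf c (R0 ^ 2)) := Real.sqrt_pos.2 (mul_pos h0.pos h0.p)
      have h3 := (div_le_iff₀ h2).1 (le_neg_iff_add_nonpos_right.2 h1)
      have h4 := mul_le_mul_of_nonneg_left (neg_le_abs (kap b c k (R0 ^ 2))) h2.le
      rw [Ff]
      linarith)
    (hD.Ff_pos (lt_trans (by positivity) hq))
    (fun s hs hF => by
      rw [(hG s hs).Mf_of_Ff hF]
      exact Real.rpow_pos_of_pos (hG s hs).Vf_pos _)
    (fun s hs hF hM => by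
      obtain ⟨y, h1, rfl⟩ := hy s hs.le
      exact h.mono hk ((eventually_gt_nhds hs).mono fun t ht => hG t ht.le) (hg y h1) (hE y h1)
        hF hM) hlim
  have h0 := hG s hs
  have hV := h0.Vf_pos (b := b)
  have ha : area (sym L c) √s / om n = √(Vf b c s) := by
    rw [h.area_eq (Real.sqrt_pos.2 h0.pos) (by rwa [Real.sq_sqrt h0.pos.le]),
      Real.sq_sqrt h0.pos.le, mul_div_cancel_right₀ _ (om_pos hn).ne']
  refine ⟨√s, Real.le_sqrt_of_sq_le hs, ha ▸ Real.sqrt_pos.2 hV, ?_⟩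
  rw [ha, Real.sqrt_eq_rpow, ← Real.rpow_mul hV.le]
  rw [h0.Mf_of_Ff hF] at hM
  convert hM using 2
  field_simp

theorem penrose {n : ℕ} (hn : 4 < n) (L : Fin 3 → Mat n) (hL : Qt L) (c k : Co) (hc : c.Ok)
    (hk : k.Ok) (hD : c.D = 0) (g K : Ten n) (hg : g = sym L c) (hK : K = sym L k) (R0 q : ℝ)
    (hR : 0 < R0) (hq : ((n : ℝ) - 2) / 2 < q) (hpos : ∀ x : E n, R0 ≤ ‖x‖ → (g x).PosDef)
    (hdec : ∃ C R : ℝ, ∀ x : E n, R ≤ ‖x‖ → ∀ i j l, |(g x - 1) i j| ≤ C * ‖x‖ ^ (-q) ∧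
      |pd l (fun y => g y i j) x| ≤ C * ‖x‖ ^ (-q - 1) ∧ |K x i j| ≤ C * ‖x‖ ^ (-1 - q))
    (hdom : ∀ x : E n, R0 ≤ ‖x‖ → curN g K x ≤ mu g K x)
    (htr : ∀ x : E n, ‖x‖ = R0 → thp g K x ≤ 0) (En : ℝ) (P : Fin n → ℝ)
    (hE : Tendsto (eflux g) atTop (𝓝 En)) (hP : ∀ i, Tendsto (pflux g K i) atTop (𝓝 (P i))) :
    √(∑ i, P i ^ 2) ≤ En ∧ ∃ r, R0 ≤ r ∧
      1 / 2 * (area g r / om n) ^ (((n : ℝ) - 2) / (n - 1)) ≤ √(En ^ 2 - ∑ i, P i ^ 2) := by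
  subst hg hK
  obtain ⟨b, rfl⟩ : ∃ b, n = b + 4 := ⟨n - 4, by omega⟩
  obtain ⟨C, R, hd⟩ := hdec
  have e1 : ((b + 4 : ℕ) : ℝ) - 2 = b + 2 := by push_cast; ring
  have e2 : ((b + 4 : ℕ) : ℝ) - 1 = b + 3 := by push_cast; ring
  rw [e1] at hq
  obtain ⟨r, hr, h0, h1⟩ := St.main ⟨hL, rfl, hc, hD⟩ hk (by omega) hR hq hpos hd hdom htr hE
  have hP0 : ∀ i, P i = 0 := fun i =>
    tendsto_nhds_unique (hP i) (tendsto_const_nhds.congr fun r => (pflux_eq L c k i r).symm)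
  have h2 := Real.rpow_pos_of_pos h0 ((b + 2 : ℝ) / (b + 3))
  have hEn : 0 ≤ En := by linarith
  simp only [hP0, e1, e2]
  refine ⟨by simpa using hEn, r, hr, ?_⟩
  have e : √(En ^ 2 - ∑ _i : Fin (b + 4), (0 : ℝ) ^ 2) = En := by simp [Real.sqrt_sq hEn]
  rw [e]
  linarith

end Vale.Agent.P366
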