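import Vale.Agent.P366.Qt1

/-! P366 Qt2: inverse, determinant and contractions.
With s = x·x: sym L c = A Pj + (p/s) x xᵀ + ∑ (G a b / s) X_a X_bᵀ.  inv_eq: inv_eq_right_inv; multiply out with vecMulVec_mul_vecMulVec, Pj * Pj = Pj, Pj kills x and X_a, G * Y = 1 (PosDef.isUnit / det_pos).  One may also test the product on vectors through mulVec.
det_eq: sym L c = A • (1 + U * M) with U the n×4 matrix with columns x, X_a (index Option (Fin 3) or Fin 1 ⊕ Fin 3) and M = A⁻¹ C4 Uᵀ; det_smul, det_one_add_mul_comm, Uᵀ U = s • 1, det_fromBlocks_zero₂₁.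
bil_ev: u = ∑ i, u i • ev i and linearity.  ctr_Pm: Pj i j = ∑ m, Pj m i * Pj m j (Pj_mul, Pj_symm), then bil_ev. -/

namespace Vale.Agent.P366

open Matrix

variable {n b : ℕ} {L : Fin 3 → Mat n} {c : Co} {x : Fin n → ℝ}

theorem lin_Qt2 {f : (Fin n → ℝ) → ℝ} (hf : IsLinearMap ℝ f) (u : Fin n → ℝ) :
    ∑ i, u i * f (ev i) = f u := by
  have h := map_sum (hf.mk' f) (fun i => u i • ev i) Finset.univ
  simp only [map_smul, IsLinearMap.mk'_apply, smul_eq_mul] at h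
  rw [← h]
  exact congrArg f (pi_eq_sum_univ' u).symm

/-- contraction with a bilinear function, as a linear map -/
def ctr_Qt2 (f : (Fin n → ℝ) → (Fin n → ℝ) → ℝ) : Mat n →ₗ[ℝ] ℝ where
  toFun := fun M => ∑ i, ∑ j, M i j * f (ev i) (ev j)
  map_add' := fun M N => by simp only [Matrix.add_apply, add_mul, Finset.sum_add_distrib]
  map_smul' := fun r M => by
    simp only [Matrix.smul_apply, smul_eq_mul, RingHom.id_apply, Finset.mul_sum, mul_assoc]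

theorem ne_Qt2 (hx : x ≠ 0) : x ⬝ᵥ x ≠ 0 := fun h => hx (dotProduct_self_eq_zero.1 h)

theorem Pj_Qt2 (q : Qt L) (hx : x ≠ 0) (i j : Fin n) :
    Pj L x i j = ∑ m, Pj L x m i * Pj L x m j := by
  conv_lhs => rw [← q.Pj_mul hx, mul_apply]
  exact Finset.sum_congr rfl fun m _ => by rw [(Pj_symm L x).apply m i]

/-- the matrix with columns `x`, `X_a` -/
def U_Qt2 (L : Fin 3 → Mat n) (x : Fin n → ℝ) : Matrix (Fin n) (Unit ⊕ Fin 3) ℝ :=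
  of fun i => Sum.elim (fun _ => x i) fun a => (L a *ᵥ x) i

/-- block diagonal matrix -/
def B_Qt2 (β : ℝ) (C : Mat 3) : Matrix (Unit ⊕ Fin 3) (Unit ⊕ Fin 3) ℝ :=
  fromBlocks (β • 1) 0 0 C

theorem UU_Qt2 (q : Qt L) (x : Fin n → ℝ) :
    (U_Qt2 L x)ᵀ * U_Qt2 L x = (x ⬝ᵥ x) • (1 : Matrix (Unit ⊕ Fin 3) (Unit ⊕ Fin 3) ℝ) := by
  ext (a | a) (e | e)
  · simp [U_Qt2, mul_apply, dotProduct]
  · have := q.xX e x
    simpa [U_Qt2, mul_apply, dotProduct] using this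
  · have := q.Xx a x
    simpa [U_Qt2, mul_apply, dotProduct] using this
  · have := q.XX a e x
    simpa [U_Qt2, mul_apply, dotProduct, one_apply] using this

theorem UB_Qt2 (L : Fin 3 → Mat n) (x : Fin n → ℝ) (β : ℝ) (C : Mat 3) :
    U_Qt2 L x * B_Qt2 β C * (U_Qt2 L x)ᵀ =
      β • vecMulVec x x + ∑ a, ∑ e, C a e • vecMulVec (L a *ᵥ x) (L e *ᵥ x) := by
  ext i j
  simp [U_Qt2, B_Qt2, mul_apply, Fintype.sum_sum_type, vecMulVec_apply, Fin.sum_univ_three]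
  ring

theorem B1_Qt2 : B_Qt2 1 1 = 1 := by rw [B_Qt2, one_smul, fromBlocks_one]

theorem Pj_U_Qt2 (L : Fin 3 → Mat n) (x : Fin n → ℝ) :
    Pj L x = 1 - (x ⬝ᵥ x)⁻¹ • (U_Qt2 L x * (U_Qt2 L x)ᵀ) := by
  have h := UB_Qt2 L x 1 1
  rw [B1_Qt2, Matrix.mul_one] at h
  rw [h, Pj]
  simp [one_apply, Finset.smul_sum, sub_sub]

theorem BB_Qt2 (A s β : ℝ) (C : Mat 3) :
    A • (1 : Matrix (Unit ⊕ Fin 3) (Unit ⊕ Fin 3) ℝ) + s • B_Qt2 β C =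
      B_Qt2 (A + s * β) (A • 1 + s • C) := by
  rw [← fromBlocks_one, B_Qt2, B_Qt2, fromBlocks_smul, fromBlocks_smul, fromBlocks_add]
  simp only [smul_zero, add_zero, smul_smul, add_smul]

theorem inv_Qt2 {m k : Type*} [Fintype m] [Fintype k] [DecidableEq m] [DecidableEq k]
    {U : Matrix m k ℝ} {s A : ℝ} (hs : s ≠ 0) (hA : A ≠ 0) (hU : Uᵀ * U = s • 1)
    {C Y : Matrix k k ℝ} (h : (A • 1 + s • C) * Y = s⁻¹ • 1) :
    (A • 1 + U * C * Uᵀ) * (A⁻¹ • (1 - s⁻¹ • (U * Uᵀ)) + U * Y * Uᵀ) = 1 := by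
  have h1 : U * C * Uᵀ * (U * Uᵀ) = s • (U * C * Uᵀ) := by
    rw [Matrix.mul_assoc (U * C), ← Matrix.mul_assoc Uᵀ, hU, Matrix.smul_mul, Matrix.one_mul,
      Matrix.mul_smul]
  have h2 : U * C * Uᵀ * (U * Y * Uᵀ) = s • (U * (C * Y) * Uᵀ) := by
    rw [Matrix.mul_assoc (U * C), ← Matrix.mul_assoc Uᵀ, ← Matrix.mul_assoc Uᵀ, hU,
      Matrix.smul_mul, Matrix.smul_mul, Matrix.one_mul, Matrix.mul_smul]
    simp only [Matrix.mul_assoc]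
  have h3 : A • (U * Y * Uᵀ) + s • (U * (C * Y) * Uᵀ) = s⁻¹ • (U * Uᵀ) := by
    have := congrArg (fun M => U * M * Uᵀ) h
    simpa only [Matrix.add_mul, Matrix.mul_add, Matrix.smul_mul, Matrix.mul_smul, Matrix.one_mul,
      Matrix.mul_one] using this
  simp only [Matrix.add_mul, Matrix.mul_add, Matrix.smul_mul, Matrix.mul_smul, Matrix.one_mul,
    Matrix.mul_one, Matrix.mul_sub, h1, h2, smul_smul, inv_mul_cancel₀ hs, one_smul, smul_add]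
  rw [h3, add_sub_add_right_eq_sub, smul_sub, smul_smul, smul_smul, inv_mul_cancel₀ hA, one_smul,
    mul_left_comm, inv_mul_cancel₀ hA, mul_one, sub_add_cancel]

theorem det_Qt2 {m k : Type*} [Fintype m] [Fintype k] [DecidableEq m] [DecidableEq k]
    {U : Matrix m k ℝ} {s A : ℝ} (hA : A ≠ 0) (hU : Uᵀ * U = s • 1) (C : Matrix k k ℝ) {b : ℕ}
    (hb : Fintype.card m = b + Fintype.card k) :
    (A • 1 + U * C * Uᵀ).det = A ^ b * (A • 1 + s • C).det := by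
  have h1 : A • 1 + U * C * Uᵀ = A • (1 + U * (A⁻¹ • (C * Uᵀ))) := by
    rw [smul_add, Matrix.mul_smul, smul_smul, mul_inv_cancel₀ hA, one_smul, Matrix.mul_assoc]
  have h2 : A • 1 + s • C = A • (1 + A⁻¹ • (C * Uᵀ) * U) := by
    rw [smul_add, Matrix.smul_mul, smul_smul, mul_inv_cancel₀ hA, one_smul, Matrix.mul_assoc, hU,
      Matrix.mul_smul, Matrix.mul_one]
  rw [h1, h2, det_smul, det_smul, det_one_add_mul_comm, hb, pow_add, mul_assoc]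

theorem sym_Qt2 (h : St L b c) (y : E n) : sym L c y = c.A (‖y‖ ^ 2) • 1 +
    U_Qt2 L y.ofLp * B_Qt2 (c.B (‖y‖ ^ 2)) (c.C (‖y‖ ^ 2)) * (U_Qt2 L y.ofLp)ᵀ := by
  rw [UB_Qt2, sym, tn, h.D]
  simp [add_assoc]

theorem Bil.ev {f : (Fin n → ℝ) → (Fin n → ℝ) → ℝ} (hf : Bil f) (u v : Fin n → ℝ) :
    ∑ i, ∑ j, u i * v j * f (ev i) (ev j) = f u v := by
  rw [← lin_Qt2 (hf.2 v) u]
  refine Finset.sum_congr rfl fun i _ => ?_
  rw [← lin_Qt2 (hf.1 (Vale.Agent.P366.ev i)) v, Finset.mul_sum]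
  exact Finset.sum_congr rfl fun j _ => mul_assoc _ _ _

theorem lin_ev {f : (Fin n → ℝ) → ℝ} (hf : IsLinearMap ℝ f) (u : Fin n → ℝ) :
    ∑ i, u i * f (ev i) = f u := by
  exact lin_Qt2 hf u

theorem Qt.ctr_Pm (q : Qt L) (hx : x ≠ 0) (A p : ℝ) (Y : Mat 3)
    {f : (Fin n → ℝ) → (Fin n → ℝ) → ℝ} (hf : Bil f) :
    ∑ i, ∑ j, Pm L x A p Y i j * f (ev i) (ev j) = (∑ i, f (Pj L x i) (Pj L x i)) / A +
      f x x / (x ⬝ᵥ x * p) + ∑ a, ∑ e, Y a e * f (L a *ᵥ x) (L e *ᵥ x) / (x ⬝ᵥ x) := by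
  have h1 : ∀ u v, ctr_Qt2 f (vecMulVec u v) = f u v := fun u v => hf.ev u v
  have h2 : Pj L x = ∑ m, vecMulVec (Pj L x m) (Pj L x m) := by
    ext i j
    rw [Pj_Qt2 q hx i j, Matrix.sum_apply]
    rfl
  have h3 : ctr_Qt2 f (Pj L x) = ∑ i, f (Pj L x i) (Pj L x i) := by
    conv_lhs => rw [h2]
    simp only [map_sum, h1]
  change ctr_Qt2 f (Pm L x A p Y) = _
  simp only [Pm, map_add, map_smul, map_sum, h1, h3, smul_eq_mul, div_eq_mul_inv]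
  refine congrArg₂ (· + ·) (by ring) (Finset.sum_congr rfl fun a _ =>
    Finset.sum_congr rfl fun e _ => by ring)

theorem Qt.Pm_fr (q : Qt L) (hx : x ≠ 0) (A p : ℝ) (g : Fin 3 → ℝ) (i j : Fin n) :
    Pm L x A p (diagonal fun a => 1 / g a) i j =
      ∑ s, wt (n := n) (x ⬝ᵥ x) A p g s * fr L x s i * fr L x s j := by
  simp only [Fintype.sum_sum_type, Fintype.sum_option, wt, fr, mul_assoc, ← Finset.mul_sum,
    ← Pj_Qt2 q hx i j]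
  simp [Pm, vecMulVec_apply, Fin.sum_univ_three]
  ring

theorem Qt.Pm_x (q : Qt L) (hx : x ≠ 0) (A p : ℝ) (Y : Mat 3) : Pm L x A p Y *ᵥ x = p⁻¹ • x := by
  have h1 : Pj L x *ᵥ x = 0 := by
    ext i
    exact (dotProduct_comm _ _).trans (q.hz_Pj hx i).1
  simp only [Pm, add_mulVec, smul_mulVec, sum_mulVec, vecMulVec_mulVec, h1, q.Xx, smul_zero,
    op_smul_eq_smul, zero_smul, Finset.sum_const_zero, zero_add, add_zero, smul_smul]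
  rw [mul_inv, mul_right_comm, inv_mul_cancel₀ (ne_Qt2 hx), one_mul]

theorem Qt.Pm_one (q : Qt L) (hx : x ≠ 0) : Pm L x 1 1 1 = 1 := by
  have _ := q
  have _ := hx
  simp [Pm, Pj, one_apply, ite_div]
  abel

theorem Gd.ne {y : E n} (h : Gd c (‖y‖ ^ 2)) : y.ofLp ≠ 0 := by
  intro e
  have := h.pos
  rw [← dot_self, e, zero_dotProduct] at this
  exact lt_irrefl _ this

theorem St.inv_eq (h : St L b c) {y : E n} (hy : Gd c (‖y‖ ^ 2)) : (sym L c y)⁻¹ =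
    Pm L y.ofLp (c.A (‖y‖ ^ 2)) (pf c (‖y‖ ^ 2)) (Ym c (‖y‖ ^ 2)) := by
  have hs : ‖y‖ ^ 2 ≠ 0 := hy.pos.ne'
  have hU := UU_Qt2 h.q y.ofLp
  have e : Pm L y.ofLp (c.A (‖y‖ ^ 2)) (pf c (‖y‖ ^ 2)) (Ym c (‖y‖ ^ 2)) =
      (c.A (‖y‖ ^ 2))⁻¹ • (1 - (‖y‖ ^ 2)⁻¹ • (U_Qt2 L y.ofLp * (U_Qt2 L y.ofLp)ᵀ)) +
      U_Qt2 L y.ofLp * B_Qt2 (‖y‖ ^ 2 * pf c (‖y‖ ^ 2))⁻¹ ((‖y‖ ^ 2)⁻¹ • Ym c (‖y‖ ^ 2)) *
        (U_Qt2 L y.ofLp)ᵀ := by
    rw [UB_Qt2, Pm, Pj_U_Qt2, dot_self, add_assoc]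
    simp only [Matrix.smul_apply, smul_eq_mul, div_eq_inv_mul]
  rw [dot_self] at hU
  rw [e, sym_Qt2 h]
  refine inv_eq_right_inv (inv_Qt2 hs hy.A.ne' hU ?_)
  have h1 : Gm c (‖y‖ ^ 2) * Ym c (‖y‖ ^ 2) = 1 :=
    mul_nonsing_inv _ hy.G.det_pos.ne'.isUnit
  have h2 : (‖y‖ ^ 2 * pf c (‖y‖ ^ 2))⁻¹ * pf c (‖y‖ ^ 2) = (‖y‖ ^ 2)⁻¹ := by
    rw [mul_inv, mul_assoc, inv_mul_cancel₀ hy.p.ne', mul_one]
  rw [BB_Qt2]
  change B_Qt2 (pf c (‖y‖ ^ 2)) (Gm c (‖y‖ ^ 2)) * _ = _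
  rw [B_Qt2, B_Qt2, fromBlocks_multiply, ← fromBlocks_one, fromBlocks_smul]
  simp only [Matrix.mul_zero, Matrix.zero_mul, add_zero, zero_add, Matrix.mul_smul,
    Matrix.mul_one, smul_smul, h1, h2, smul_zero]

theorem St.det_eq (h : St L b c) {y : E n} (hy : Gd c (‖y‖ ^ 2)) : (sym L c y).det =
    c.A (‖y‖ ^ 2) ^ b * pf c (‖y‖ ^ 2) * (Gm c (‖y‖ ^ 2)).det := by
  have hU := UU_Qt2 h.q y.ofLp
  rw [dot_self] at hU
  rw [sym_Qt2 h, det_Qt2 hy.A.ne' hU _ (b := b) (by simp [h.dim]), BB_Qt2, B_Qt2,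
    det_fromBlocks_zero₂₁, mul_assoc]
  simp [pf, Gm]

theorem Gd.Ym_diag {s : ℝ} (h : Gd c s) (hd : (c.C s).IsDiag) :
    Ym c s = diagonal fun a => 1 / Gm c s a a := by
  have h1 : (Gm c s).IsDiag := (isDiag_one.smul _).add (hd.smul _)
  refine inv_eq_right_inv ?_
  conv_lhs => arg 1; rw [← h1.diagonal_diag]
  rw [diagonal_mul_diagonal, ← diagonal_one]
  exact congrArg diagonal (funext fun a => mul_one_div_cancel h.G.diag_pos.ne')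

theorem Gd.g_pos {s : ℝ} (h : Gd c s) (a : Fin 3) : 0 < Gm c s a a := by
  exact h.G.diag_pos

end Vale.Agent.P366
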