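import Vale.Agent.P366.Tab
import Vale.Agent.P366.Qt2

/-! P366 Rot: rotating the quaternionic frame by O ∈ SO(3).
rot_qt: Qt.mul_eq; Oᵀ O = 1 gives orthonormal columns; Oᵀ = O⁻¹ = adjugate O (det = 1; adjugate_fin_three) gives O f 2 = ∑ e e', eps e e' f * O e 0 * O e' 1.
sym_rot: rotL L O a *ᵥ x = ∑ e, O e a • (L e *ᵥ x); O Oᵀ = 1 (mul_eq_one_comm).
Gm (c.rot O) = Oᵀ Gm c O, Ym likewise (mul_inv_rev or inv_eq_left_inv), (c.rot O).C1 = Oᵀ C1 O (deriv of a finite sum), traces by trace_mul_cycle; so tf, hf, Sf, kap, Vf, yf, Mf, Ff are unchanged (no positivity needed: if det G = 0 both inverses are 0; Matrix.mul_inv_rev holds always).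
exists_rot: IsHermitian.spectral_theorem / eigenvectorUnitary (star = transpose over ℝ); det U = ±1; replace U by -U if det U = -1. -/

namespace Vale.Agent.P366

open Matrix

variable {n b : ℕ} {L : Fin 3 → Mat n} {c k : Co} {O : Mat 3} {s : ℝ}

theorem exists_rot {C : Mat 3} (hC : C.IsSymm) :
    ∃ O : Mat 3, Oᵀ * O = 1 ∧ O.det = 1 ∧ (Oᵀ * C * O).IsDiag := by
  have hH : C.IsHermitian := by
    rw [IsHermitian, conjTranspose_eq_transpose_of_trivial]
    exact hC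
  set U : Mat 3 := (hH.eigenvectorUnitary : Mat 3) with hU
  have h1 : Uᵀ * U = 1 := by
    rw [← conjTranspose_eq_transpose_of_trivial]
    exact Unitary.coe_star_mul_self hH.eigenvectorUnitary
  have h2 : (Uᵀ * C * U).IsDiag := by
    have h3 := hH.conjStarAlgAut_star_eigenvectorUnitary
    rw [Unitary.conjStarAlgAut_star_apply, star_eq_conjTranspose,
      conjTranspose_eq_transpose_of_trivial] at h3
    rw [h3]
    exact isDiag_diagonal _
  have h4 : U.det * U.det = 1 := by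
    have h5 := congrArg det h1
    rwa [det_mul, det_transpose, det_one] at h5
  rcases mul_self_eq_one_iff.1 h4 with h6 | h6
  · exact ⟨U, h1, h6, h2⟩
  · refine ⟨-U, by simpa using h1, ?_, by simpa using h2⟩
    rw [det_neg, h6]
    norm_num

theorem mul_Rot (q : Qt L) (u v : Fin 3 → ℝ) : (∑ e, u e • L e) * (∑ e, v e • L e) =
    (-(u 0 * v 0 + u 1 * v 1 + u 2 * v 2)) • (1 : Mat n) + (u 1 * v 2 - u 2 * v 1) • L 0 +
      (u 2 * v 0 - u 0 * v 2) • L 1 + (u 0 * v 1 - u 1 * v 0) • L 2 := by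
  have h02 : L 0 * L 2 = -L 1 := by simpa [eps, Fin.sum_univ_three] using q.mul_eq 0 2
  have h10 : L 1 * L 0 = -L 2 := by simpa [eps, Fin.sum_univ_three] using q.mul_eq 1 0
  have h12 : L 1 * L 2 = L 0 := by simpa [eps, Fin.sum_univ_three] using q.mul_eq 1 2
  have h20 : L 2 * L 0 = L 1 := by simpa [eps, Fin.sum_univ_three] using q.mul_eq 2 0
  have h21 : L 2 * L 1 = -L 0 := by simpa [eps, Fin.sum_univ_three] using q.mul_eq 2 1
  simp only [Fin.sum_univ_three, add_mul, mul_add, smul_mul_assoc, mul_smul_comm, q.sq, q.mul, h02,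
    h10, h12, h20, h21]
  module

theorem Qt.rot (q : Qt L) (hO : Oᵀ * O = 1) (hd : O.det = 1) : Qt (rotL L O) := by
  have h1 : ∀ a e, O 0 a * O 0 e + O 1 a * O 1 e + O 2 a * O 2 e = (1 : Mat 3) a e := fun a e => by
    rw [← hO]
    simp [mul_apply, Fin.sum_univ_three]
  have h2 : Oᵀ = adjugate O := by
    have h3 := mul_adjugate O
    rw [hd, one_smul] at h3
    rw [← mul_one Oᵀ, ← h3, ← mul_assoc, hO, one_mul]
  rw [adjugate_fin_three] at h2
  have h4 : O 0 2 = O 1 0 * O 2 1 - O 1 1 * O 2 0 := by simpa using congrFun (congrFun h2 2) 0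
  have h5 : O 1 2 = -(O 0 0 * O 2 1) + O 0 1 * O 2 0 := by simpa using congrFun (congrFun h2 2) 1
  have h6 : O 2 2 = O 0 0 * O 1 1 - O 0 1 * O 1 0 := by simpa using congrFun (congrFun h2 2) 2
  refine ⟨fun a => ?_, fun a => ?_, ?_⟩
  · simp only [rotL, transpose_sum, transpose_smul, q.sk, smul_neg, Finset.sum_neg_distrib]
  · rw [rotL, mul_Rot q (fun e => O e a) fun e => O e a, h1, one_apply_eq]
    module
  · simp only [rotL]
    rw [mul_Rot q (fun e => O e 0) fun e => O e 1, h1, one_apply_ne (by decide),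
      Fin.sum_univ_three, h4, h5, h6]
    module

theorem Co.Ok.rot (ok : c.Ok) (O : Mat 3) : (c.rot O).Ok := by
  refine ⟨ok.A, ok.B, fun a e => ?_, fun a => ?_, fun s => ?_⟩
  · simp only [Co.rot, mul_apply]
    exact ContDiff.sum fun j _ =>
      (ContDiff.sum fun i _ => contDiff_const.mul (ok.C i j)).mul contDiff_const
  · simp only [Co.rot, mulVec, dotProduct]
    exact ContDiff.sum fun i _ => contDiff_const.mul (ok.D i)
  · simp only [Co.rot, IsSymm, transpose_mul, transpose_transpose, (ok.sy s).eq, mul_assoc]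

theorem St.rot (h : St L b c) (hO : Oᵀ * O = 1) (hd : O.det = 1) : St (rotL L O) b (c.rot O) := by
  refine ⟨h.q.rot hO hd, h.dim, h.ok.rot O, funext fun s => ?_⟩
  simp [Co.rot, h.D]

theorem tn_Rot (L : Fin 3 → Mat n) (x : Fin n → ℝ) (A B : ℝ) (C : Mat 3) (D : Fin 3 → ℝ)
    {X : Matrix (Fin n) (Fin 3) ℝ} (hX : ∀ i a, (L a *ᵥ x) i = X i a) :
    tn L x A B C D = A • 1 + B • vecMulVec x x + X * C * Xᵀ +
      (vecMulVec x (X *ᵥ D) + vecMulVec (X *ᵥ D) x) := by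
  have h : ∀ i, (X *ᵥ D) i = X i 0 * D 0 + X i 1 * D 1 + X i 2 * D 2 := fun i => by
    simp [mulVec, dotProduct, Fin.sum_univ_three]
  ext i j
  simp only [tn, Matrix.add_apply, Matrix.smul_apply, vecMulVec_apply, Fin.sum_univ_three, mul_apply,
    transpose_apply, smul_eq_mul, hX, h]
  ring

theorem sym_rot (L : Fin 3 → Mat n) (c : Co) (hO : Oᵀ * O = 1) :
    sym (rotL L O) (c.rot O) = sym L c := by
  have hO' : O * Oᵀ = 1 := mul_eq_one_comm.1 hO
  funext x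
  have h : ∀ i a, (rotL L O a *ᵥ x.ofLp) i = ((of fun i a => (L a *ᵥ x.ofLp) i) * O) i a := by
    intro i a
    simp only [rotL, Fin.sum_univ_three, add_mulVec, smul_mulVec, Pi.add_apply, Pi.smul_apply,
      smul_eq_mul, mul_apply, of_apply]
    ring
  simp only [sym]
  rw [tn_Rot _ _ _ _ _ _ h, tn_Rot L (X := of fun i a => (L a *ᵥ x.ofLp) i) _ _ _ _ _ fun _ _ => rfl]
  generalize (of fun i a => (L a *ᵥ x.ofLp) i : Matrix (Fin n) (Fin 3) ℝ) = X
  have h1 : ∀ C : Mat 3, X * O * (Oᵀ * C * O) * (X * O)ᵀ = X * C * Xᵀ := fun C => by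
    calc _ = X * (O * Oᵀ) * C * (O * Oᵀ) * Xᵀ := by simp only [transpose_mul, Matrix.mul_assoc]
      _ = _ := by rw [hO', Matrix.mul_one, Matrix.mul_one]
  have h2 : ∀ D : Fin 3 → ℝ, (X * O) *ᵥ (Oᵀ *ᵥ D) = X *ᵥ D := fun D => by
    rw [mulVec_mulVec, Matrix.mul_assoc, hO', Matrix.mul_one]
  simp only [Co.rot, h1, h2]

theorem Gm_Rot (c : Co) (hO : Oᵀ * O = 1) (s : ℝ) : Gm (c.rot O) s = Oᵀ * Gm c s * O := by
  simp [Gm, Co.rot, mul_add, add_mul, hO]

theorem Ym_Rot (c : Co) (hO : Oᵀ * O = 1) (s : ℝ) : Ym (c.rot O) s = Oᵀ * Ym c s * O := by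
  rw [Ym, Gm_Rot c hO, Matrix.mul_inv_rev, Matrix.mul_inv_rev, inv_eq_left_inv hO,
    inv_eq_right_inv hO, Ym, mul_assoc]

theorem C1_Rot (ok : c.Ok) (O : Mat 3) (s : ℝ) : (c.rot O).C1 s = Oᵀ * c.C1 s * O := by
  ext a e
  have h : ∀ i j, HasDerivAt (fun t => c.C t i j) (c.C1 s i j) s := fun i j =>
    ((ok.C i j).differentiable (by norm_num) s).hasDerivAt
  have h2 := HasDerivAt.fun_sum (u := Finset.univ) fun j _ =>
    (HasDerivAt.fun_sum (u := Finset.univ) fun i _ => (h i j).const_mul (Oᵀ a i)).mul_const (O j e)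
  simp only [mul_apply]
  exact h2.deriv

theorem dG_Rot (ok : c.Ok) (hO : Oᵀ * O = 1) (s : ℝ) : dG (c.rot O) s = Oᵀ * dG c s * O := by
  rw [dG, C1_Rot ok]
  simp [dG, Co.rot, mul_add, add_mul, hO]

theorem tr_Rot (hO : Oᵀ * O = 1) (M : Mat 3) : (Oᵀ * M * O).trace = M.trace := by
  rw [trace_mul_cycle, mul_eq_one_comm.1 hO, one_mul]

theorem tr2_Rot (hO : Oᵀ * O = 1) (M N : Mat 3) :
    (Oᵀ * M * O * (Oᵀ * N * O)).trace = (M * N).trace := by
  have h : Oᵀ * M * O * (Oᵀ * N * O) = Oᵀ * (M * (O * Oᵀ) * N) * O := by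
    simp only [mul_assoc]
  rw [h, mul_eq_one_comm.1 hO, mul_one, tr_Rot hO]

theorem det_Rot (hO : Oᵀ * O = 1) (M : Mat 3) : (Oᵀ * M * O).det = M.det := by
  rw [det_mul_comm, ← mul_assoc, mul_eq_one_comm.1 hO, one_mul]

theorem hf_Rot (ok : c.Ok) (hO : Oᵀ * O = 1) (β s : ℝ) : hf β (c.rot O) s = hf β c s := by
  rw [hf, tf, Ym_Rot c hO, dG_Rot ok hO, tr2_Rot hO]
  rfl

theorem kap_Rot (c k : Co) (hO : Oᵀ * O = 1) (β s : ℝ) :
    kap β (c.rot O) (k.rot O) s = kap β c k s := by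
  rw [kap, Ym_Rot c hO, Gm_Rot k hO, tr2_Rot hO]
  rfl

theorem Gd.rot (h : Gd c s) (hO : Oᵀ * O = 1) : Gd (c.rot O) s := by
  refine ⟨h.pos, h.A, h.p, ?_⟩
  rw [Gm_Rot c hO, ← conjTranspose_eq_transpose_of_trivial]
  refine h.G.conjTranspose_mul_mul_same (Function.LeftInverse.injective (g := Oᵀ.mulVec) fun v => ?_)
  rw [mulVec_mulVec, hO, one_mulVec]

theorem Mf_rot (ok : c.Ok) (k : Co) (hO : Oᵀ * O = 1) : Mf b (c.rot O) (k.rot O) = Mf b c k := by
  funext s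
  rw [Mf, Vf, yf, Sf, hf_Rot ok hO, kap_Rot c k hO, Gm_Rot c hO, Ym_Rot c hO, det_Rot hO,
    tr_Rot hO]
  rfl

theorem Ff_rot (ok : c.Ok) (k : Co) (hO : Oᵀ * O = 1) : Ff b (c.rot O) (k.rot O) = Ff b c k := by
  funext s
  rw [Ff, hf_Rot ok hO, kap_Rot c k hO]
  rfl

end Vale.Agent.P366
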