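import Vale.Agent.P366.Scal
import Vale.Agent.P366.Ineq
import Vale.Agent.P366.Rot

/-! P366 Mono: monotonicity of Mf. -/

namespace Vale.Agent.P366

open Matrix Filter Topology

variable {n b : ℕ} {L : Fin 3 → Mat n} {c k : Co} {y : E n}

theorem St.mono_diag (h : St L b c) (hk : k.Ok) (hU : ∀ᶠ t in 𝓝 (‖y‖ ^ 2), Gd c t)
    (hd : (c.C (‖y‖ ^ 2)).IsDiag) (hp : (sym L c y).PosDef)
    (hE : curN (sym L c) (sym L k) y ≤ mu (sym L c) (sym L k) y)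
    (hF : 0 ≤ Ff b c k (‖y‖ ^ 2)) (hM : 0 ≤ Mf b c k (‖y‖ ^ 2)) :
    0 ≤ deriv (Mf b c k) (‖y‖ ^ 2) := by
  have hy : Gd c (‖y‖ ^ 2) := hU.self_of_nhds
  have hV : 0 < Vf b c (‖y‖ ^ 2) ^ ((b + 2) / (2 * (b + 3)) : ℝ) :=
    Real.rpow_pos_of_pos hy.Vf_pos _
  rw [(hy.Mf_deriv h.ok hk hd).deriv]
  refine mul_nonneg hV.le (sub_nonneg.2 ?_)
  have hsp : 0 < ‖y‖ ^ 2 * pf c (‖y‖ ^ 2) := mul_pos hy.pos hy.p
  refine (hy.pt_pos (b := b) (k := k)).ineq (Real.sqrt_pos.2 hsp) (Real.sq_sqrt hsp.le) ?_ ?_ ?_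
  · rw [← hy.kap_eq hd, ← hy.hf_eq hd]
    exact sub_nonneg.1 hF
  · rw [← hy.yf_eq hd]
    exact sub_nonneg.1 (nonneg_of_mul_nonneg_right hM hV)
  · have h1 := cs_cur (K := sym L k) hp y.ofLp
    rw [h.cur_eq hk hU hd, h.gxx] at h1
    refine h1.trans (mul_le_mul_of_nonneg_right (hE.trans (le_of_eq ?_)) (Real.sqrt_nonneg _))
    rw [mu, h.scal_eq k hU hd, h.nsq_eq hk hy hd, h.trg_eq hk hy, hy.kap_eq hd]
    rfl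

theorem St.mono (h : St L b c) (hk : k.Ok) (hU : ∀ᶠ t in 𝓝 (‖y‖ ^ 2), Gd c t)
    (hp : (sym L c y).PosDef) (hE : curN (sym L c) (sym L k) y ≤ mu (sym L c) (sym L k) y)
    (hF : 0 ≤ Ff b c k (‖y‖ ^ 2)) (hM : 0 ≤ Mf b c k (‖y‖ ^ 2)) :
    0 ≤ deriv (Mf b c k) (‖y‖ ^ 2) := by
  obtain ⟨O, hO, hd, hD⟩ := exists_rot (h.ok.sy (‖y‖ ^ 2))
  rw [← Mf_rot h.ok k hO] at hM ⊢
  rw [← Ff_rot h.ok k hO] at hF
  refine (h.rot hO hd).mono_diag (hk.rot O) (hU.mono fun t ht => ht.rot hO) hD ?_ ?_ hF hM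
  · rwa [sym_rot L c hO]
  · rwa [sym_rot L c hO, sym_rot L k hO]

end Vale.Agent.P366
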