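import Vale.Agent.P366.Defs

/-! P366: internal definitions (not part of the statement).
Conventions: `b = n - 4`, `d = b + 3 = n - 1`, `s = |x|²`, `X_a = L a *ᵥ x`,
`p = A + s B`, `G = A + s C` (3×3), `Y = G⁻¹`, `' = d/ds`. -/

namespace Vale.Agent.P366

open Matrix

noncomputable section

variable {n : ℕ}

/-- Regularity of a metric at a point. -/
structure Rg (g : Ten n) (x : E n) : Prop where
  sm : ∀ i j, ContDiffAt ℝ 2 (fun y => g y i j) x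
  sy : ∀ y, (g y).IsSymm
  un : (g x).det ≠ 0

/-- `γ_k = Γ^l_lk`. -/
def gam (g : Ten n) (k : Fin n) (x : E n) : ℝ := ∑ l, chr g l l k x

/-- `g^ij Γ^k_ij`. -/
def Wz (g : Ten n) (k : Fin n) (x : E n) : ℝ := ∑ i, ∑ j, (g x)⁻¹ i j * chr g k i j x

def Wv (g : Ten n) (k : Fin n) (x : E n) : ℝ := Wz g k x - ∑ i, (g x)⁻¹ i k * gam g i x

def Q1 (g : Ten n) (x : E n) : ℝ :=
  ∑ i, ∑ j, (g x)⁻¹ i j * ∑ k, ∑ l, chr g k j l x * chr g l i k x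

/-- `g⁻¹(x, x)`. -/
def N2 (g : Ten n) (x : E n) : ℝ := ∑ k, ∑ l, (g x)⁻¹ k l * x k * x l

def ev (i : Fin n) : Fin n → ℝ := Pi.single i 1

def Bil (f : (Fin n → ℝ) → (Fin n → ℝ) → ℝ) : Prop :=
  (∀ u, IsLinearMap ℝ (f u)) ∧ ∀ v, IsLinearMap ℝ fun u => f u v

def Tri (T : (Fin n → ℝ) → (Fin n → ℝ) → (Fin n → ℝ) → ℝ) : Prop :=
  (∀ u, Bil (T u)) ∧ ∀ v w, IsLinearMap ℝ fun u => T u v w

/-- Levi-Civita symbol. -/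
def eps : Fin 3 → Fin 3 → Fin 3 → ℝ :=
  ![![![0, 0, 0], ![0, 0, 1], ![0, -1, 0]], ![![0, 0, -1], ![0, 0, 0], ![1, 0, 0]],
    ![![0, 1, 0], ![-1, 0, 0], ![0, 0, 0]]]

/-- Horizontal vectors. -/
def Hz (L : Fin 3 → Mat n) (x u : Fin n → ℝ) : Prop := x ⬝ᵥ u = 0 ∧ ∀ a, (L a *ᵥ x) ⬝ᵥ u = 0

/-- Projector on the horizontal space; its rows `Pj L x i` are a tight frame of that space. -/
def Pj (L : Fin 3 → Mat n) (x : Fin n → ℝ) : Mat n :=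
  1 - (x ⬝ᵥ x)⁻¹ • vecMulVec x x - ∑ a, (x ⬝ᵥ x)⁻¹ • vecMulVec (L a *ᵥ x) (L a *ᵥ x)

/-- Shape of the inverse metric. -/
def Pm (L : Fin 3 → Mat n) (x : Fin n → ℝ) (A p : ℝ) (Y : Mat 3) : Mat n :=
  A⁻¹ • Pj L x + (x ⬝ᵥ x * p)⁻¹ • vecMulVec x x +
    ∑ a, ∑ b, (Y a b / (x ⬝ᵥ x)) • vecMulVec (L a *ᵥ x) (L b *ᵥ x)

/-- The frame `h_i, x, X_a`. -/
def fr (L : Fin 3 → Mat n) (x : Fin n → ℝ) : Fin n ⊕ Option (Fin 3) → Fin n → ℝ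
  | .inl i => Pj L x i
  | .inr none => x
  | .inr (some a) => L a *ᵥ x

def wt (s A p : ℝ) (g : Fin 3 → ℝ) : Fin n ⊕ Option (Fin 3) → ℝ
  | .inl _ => A⁻¹
  | .inr none => (s * p)⁻¹
  | .inr (some a) => (s * g a)⁻¹

def Co.C1 (c : Co) (s : ℝ) : Mat 3 := of fun a b => deriv (fun t => c.C t a b) s
def Co.D1 (c : Co) (s : ℝ) : Fin 3 → ℝ := fun a => deriv (fun t => c.D t a) s

/-- `(∂_u T)(v, w)` for `T = sym L c`. -/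
def ds (L : Fin 3 → Mat n) (c : Co) (x u v w : Fin n → ℝ) : ℝ :=
  2 * (x ⬝ᵥ u) * (v ⬝ᵥ tn L x (deriv c.A (x ⬝ᵥ x)) (deriv c.B (x ⬝ᵥ x)) (c.C1 (x ⬝ᵥ x))
      (c.D1 (x ⬝ᵥ x)) *ᵥ w) +
    c.B (x ⬝ᵥ x) * ((u ⬝ᵥ v) * (x ⬝ᵥ w) + (x ⬝ᵥ v) * (u ⬝ᵥ w)) +
    ∑ a, ∑ b, c.C (x ⬝ᵥ x) a b * (((L a *ᵥ u) ⬝ᵥ v) * ((L b *ᵥ x) ⬝ᵥ w) +
      ((L a *ᵥ x) ⬝ᵥ v) * ((L b *ᵥ u) ⬝ᵥ w)) +
    ∑ a, c.D (x ⬝ᵥ x) a * ((u ⬝ᵥ v) * ((L a *ᵥ x) ⬝ᵥ w) + (x ⬝ᵥ v) * ((L a *ᵥ u) ⬝ᵥ w) +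
      ((L a *ᵥ u) ⬝ᵥ v) * (x ⬝ᵥ w) + ((L a *ᵥ x) ⬝ᵥ v) * (u ⬝ᵥ w))

/-- Christoffel symbols of the first kind as a trilinear form. -/
def ta (L : Fin 3 → Mat n) (c : Co) (x u v w : Fin n → ℝ) : ℝ :=
  (ds L c x u v w + ds L c x v u w - ds L c x w u v) / 2

def pf (c : Co) (s : ℝ) : ℝ := c.A s + s * c.B s
def p1 (c : Co) (s : ℝ) : ℝ := deriv c.A s + c.B s + s * deriv c.B s
def Gm (c : Co) (s : ℝ) : Mat 3 := c.A s • 1 + s • c.C s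
def dG (c : Co) (s : ℝ) : Mat 3 := deriv c.A s • 1 + c.C s + s • c.C1 s
def Ym (c : Co) (s : ℝ) : Mat 3 := (Gm c s)⁻¹
def tf (b : ℝ) (c : Co) (s : ℝ) : ℝ := b * deriv c.A s / c.A s + (Ym c s * dG c s).trace
def hf (b : ℝ) (c : Co) (s : ℝ) : ℝ := b + 3 + s * tf b c s
def Sf (b : ℝ) (c : Co) (s : ℝ) : ℝ := b / c.A s + (Ym c s).trace
def kap (b : ℝ) (c k : Co) (s : ℝ) : ℝ := b * k.A s / c.A s + (Ym c s * Gm k s).trace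
def wf (b : ℝ) (c : Co) (s : ℝ) : ℝ := (Sf b c s - (2 * hf b c s - (b + 3)) / pf c s) / s
def Vf (b : ℕ) (c : Co) (s : ℝ) : ℝ := s ^ (b + 3) * c.A s ^ b * (Gm c s).det
def yf (b : ℝ) (c k : Co) (s : ℝ) : ℝ :=
  (hf b c s ^ 2 / pf c s - s * kap b c k s ^ 2) / ((b + 3) * Sf b c s)
def Mf (b : ℕ) (c k : Co) (s : ℝ) : ℝ :=
  Vf b c s ^ ((b + 2) / (2 * (b + 3)) : ℝ) * (1 - yf b c k s)
def ef (b : ℝ) (c : Co) (s : ℝ) : ℝ :=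
  (b + 3) * (pf c s - 1) - b * (c.A s - 1) - ((Gm c s).trace - 3) -
    2 * s * (b * deriv c.A s + (dG c s).trace)
/-- `σ min(θ₊, θ₋)`. -/
def Ff (b : ℝ) (c k : Co) (s : ℝ) : ℝ := hf b c s - √(s * pf c s) * |kap b c k s|

structure Gd (c : Co) (s : ℝ) : Prop where
  pos : 0 < s
  A : 0 < c.A s
  p : 0 < pf c s
  G : (Gm c s).PosDef

/-- Numbers at one radius, in a frame in which `G` is diagonal. -/
structure Pt where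
  (r b A A1 p p1 AK k h1 k1 : ℝ)
  (g D : Fin 3 → ℝ)
  (G1 GK : Mat 3)

namespace Pt
variable (z : Pt)
def t : ℝ := z.b * z.A1 / z.A + ∑ a, z.G1 a a / z.g a
def h : ℝ := z.b + 3 + z.r * z.t
def S : ℝ := z.b / z.A + ∑ a, 1 / z.g a
def S1 : ℝ := -(z.b * z.A1 / z.A ^ 2) - ∑ a, z.G1 a a / z.g a ^ 2
def kap : ℝ := z.b * z.AK / z.A + ∑ a, z.GK a a / z.g a
def R3 : ℝ := 2 * (4 * (z.g 0 * z.g 1 + z.g 0 * z.g 2 + z.g 1 * z.g 2) - (∑ a, z.g a) ^ 2) /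
  (z.g 0 * z.g 1 * z.g 2)
/-- `r` times the scalar curvature of the orbit. -/
def RS : ℝ := z.b * (z.b + 8) / z.A - z.b * (∑ a, z.g a) / z.A ^ 2 + z.R3
def aa : ℝ := z.b * z.A1 ^ 2 / z.A ^ 2 + ∑ a, ∑ e, z.G1 a e ^ 2 / (z.g a * z.g e)
def ak : ℝ := z.b * z.AK * z.A1 / z.A ^ 2 + ∑ a, ∑ e, z.GK a e * z.G1 a e / (z.g a * z.g e)
def Q : ℝ := -2 * z.S1 - 2 * z.t / z.p - z.r * z.aa / z.p + z.r * z.p1 ^ 2 / z.p ^ 3 +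
  (z.R3 - (z.b + 2) * ∑ a, 1 / z.g a - z.b * (∑ a, z.g a) / z.A ^ 2 + 6 * z.b / z.A) / z.r
def R : ℝ := z.RS / z.r - 4 * z.h1 / z.p + 2 * z.h * (z.p + z.r * z.p1) / (z.r * z.p ^ 2) -
  z.h ^ 2 / (z.r * z.p) - (z.b + 3 + 2 * z.r * z.t + z.r ^ 2 * z.aa) / (z.r * z.p)
def nsq : ℝ := z.k ^ 2 + 2 * z.r ^ 2 * (∑ a, z.D a ^ 2 / z.g a) / z.p + z.b * z.AK ^ 2 / z.A ^ 2 +
  ∑ a, ∑ e, z.GK a e ^ 2 / (z.g a * z.g e)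
def J : ℝ := -2 * z.r * z.k1 + z.h * z.k - z.kap - z.r * z.ak
def y : ℝ := (z.h ^ 2 / z.p - z.r * z.kap ^ 2) / ((z.b + 3) * z.S)
def y1 : ℝ := ((2 * z.h * z.h1 / z.p - z.h ^ 2 * z.p1 / z.p ^ 2 - z.kap ^ 2 -
  2 * z.r * z.kap * z.k1) * z.S - (z.h ^ 2 / z.p - z.r * z.kap ^ 2) * z.S1) / ((z.b + 3) * z.S ^ 2)
structure Pos : Prop where
  r : 0 < z.r
  b : 0 ≤ z.b
  A : 0 < z.A
  p : 0 < z.p
  g : ∀ a, 0 < z.g a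
end Pt

def pt (b : ℝ) (c k : Co) (s : ℝ) : Pt where
  r := s
  b := b
  A := c.A s
  A1 := deriv c.A s
  p := pf c s
  p1 := p1 c s
  AK := k.A s
  k := pf k s / pf c s
  h1 := deriv (hf b c) s
  k1 := deriv (kap b c k) s
  g := fun a => Gm c s a a
  D := k.D s
  G1 := dG c s
  GK := Gm k s

/-- Standing hypotheses: `n = b + 4`, metric coefficients `c` without cross term. -/
structure St (L : Fin 3 → Mat n) (b : ℕ) (c : Co) : Prop where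
  q : Qt L
  dim : n = b + 4
  ok : c.Ok
  D : c.D = 0

def rotL (L : Fin 3 → Mat n) (O : Mat 3) : Fin 3 → Mat n := fun a => ∑ e, O e a • L e

def Co.rot (c : Co) (O : Mat 3) : Co where
  A := c.A
  B := c.B
  C := fun s => Oᵀ * c.C s * O
  D := fun s => Oᵀ *ᵥ c.D s

/-- Decay of the coefficients. -/
structure Dec (c k : Co) (q : ℝ) : Prop where
  A : (fun s => c.A s - 1) =O[Filter.atTop] fun s => s ^ (-q / 2)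
  p : (fun s => pf c s - 1) =O[Filter.atTop] fun s => s ^ (-q / 2)
  G : ∀ a b, (fun s => (Gm c s - 1) a b) =O[Filter.atTop] fun s => s ^ (-q / 2)
  A1 : (fun s => s * deriv c.A s) =O[Filter.atTop] fun s => s ^ (-q / 2)
  G1 : ∀ a b, (fun s => s * dG c s a b) =O[Filter.atTop] fun s => s ^ (-q / 2)
  AK : (fun s => √s * k.A s) =O[Filter.atTop] fun s => s ^ (-q / 2)
  GK : ∀ a b, (fun s => √s * Gm k s a b) =O[Filter.atTop] fun s => s ^ (-q / 2)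

end

end Vale.Agent.P366
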