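import Vale.Agent.P366.PDefs

/-! P366 Qt1: quaternion tables.
L 1 * L 0 = (L 0 * L 1)ᵀ = -L 2; L 1 * L 2 = L 1 L 0 L 1 = L 0, and so on; mul_eq by fin_cases and simp [eps, Fin.sum_univ_three].
adj: dotProduct_mulVec, vecMul_transpose / mulVec_transpose, dotProduct_comm.
Pj is symmetric, u ⬝ᵥ Pj L x j = (Pj L x *ᵥ u) j, Pj *ᵥ u = u - (x·u/s) x - ∑ (X_a·u/s) X_a, hence Pj *ᵥ u = u for horizontal u and Pj *ᵥ v - v is orthogonal to horizontal vectors (frame).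
sum_hh: Pj i ⬝ᵥ Pj i = Pj i i (frame property), trace Pj = n - 4.
sum_hh2, sum_hL, sum_LL: sum over j by frame, then (L a u)·u = 0 and XX applied to u = Pj i. -/

namespace Vale.Agent.P366

open Matrix

variable {n : ℕ} {L : Fin 3 → Mat n} {x u v : Fin n → ℝ}

theorem Qt.adj (q : Qt L) (a : Fin 3) (u v : Fin n → ℝ) :
    (L a *ᵥ u) ⬝ᵥ v = -(u ⬝ᵥ L a *ᵥ v) := by
  rw [dotProduct_comm, dotProduct_mulVec, ← mulVec_transpose, q.sk, neg_mulVec, neg_dotProduct,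
    dotProduct_comm]

theorem Qt.tr_Qt1 (q : Qt L) (a e : Fin 3) : L e * L a = (L a * L e)ᵀ := by
  rw [transpose_mul, q.sk, q.sk, neg_mul_neg]

theorem Qt.mul_eq (q : Qt L) (e a : Fin 3) :
    L e * L a = -(if e = a then 1 else 0) + ∑ f, eps e a f • L f := by
  have h01 := q.mul
  have h10 : L 1 * L 0 = -L 2 := by rw [q.tr_Qt1, h01, q.sk]
  have h02 : L 0 * L 2 = -L 1 := by rw [← h01, ← mul_assoc, q.sq, neg_one_mul]
  have h20 : L 2 * L 0 = L 1 := by rw [q.tr_Qt1, h02, transpose_neg, q.sk, neg_neg]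
  have h21 : L 2 * L 1 = -L 0 := by rw [← h01, mul_assoc, q.sq, mul_neg_one]
  have h12 : L 1 * L 2 = L 0 := by rw [q.tr_Qt1, h21, transpose_neg, q.sk, neg_neg]
  fin_cases e <;> fin_cases a <;>
    simp [eps, Fin.sum_univ_three, q.sq, h01, h10, h02, h20, h21, h12]

theorem Qt.mulX (q : Qt L) (e a : Fin 3) (x : Fin n → ℝ) :
    L e *ᵥ (L a *ᵥ x) = -(if e = a then x else 0) + ∑ f, eps e a f • (L f *ᵥ x) := by
  rw [mulVec_mulVec, q.mul_eq, add_mulVec, neg_mulVec, sum_mulVec]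
  simp only [smul_mulVec]
  split_ifs <;> simp

theorem Qt.Xx (q : Qt L) (a : Fin 3) (x : Fin n → ℝ) : (L a *ᵥ x) ⬝ᵥ x = 0 := by
  have h := q.adj a x x
  rw [dotProduct_comm x] at h
  linarith

theorem Qt.xX (q : Qt L) (a : Fin 3) (x : Fin n → ℝ) : x ⬝ᵥ L a *ᵥ x = 0 := by
  rw [dotProduct_comm, q.Xx]

theorem Qt.XX (q : Qt L) (a b : Fin 3) (x : Fin n → ℝ) :
    (L a *ᵥ x) ⬝ᵥ (L b *ᵥ x) = if a = b then x ⬝ᵥ x else 0 := by
  rw [q.adj, q.mulX, dotProduct_add, dotProduct_sum]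
  simp only [dotProduct_smul, q.xX]
  split_ifs <;> simp

theorem Qt.hz_mul (q : Qt L) (hu : Hz L x u) (a : Fin 3) : Hz L x (L a *ᵥ u) := by
  refine ⟨?_, fun e => ?_⟩
  · rw [← neg_eq_zero, ← q.adj, hu.2]
  · rw [← neg_eq_zero, ← q.adj, q.mulX, add_dotProduct, sum_dotProduct]
    simp only [smul_dotProduct, hu.2]
    split_ifs <;> simp [hu.1]

theorem Pj_mulVec_Qt1 (L : Fin 3 → Mat n) (x u : Fin n → ℝ) : Pj L x *ᵥ u =
    u - ((x ⬝ᵥ x)⁻¹ * (x ⬝ᵥ u)) • x - ∑ a, ((x ⬝ᵥ x)⁻¹ * ((L a *ᵥ x) ⬝ᵥ u)) • L a *ᵥ x := by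
  simp only [Pj, sub_mulVec, one_mulVec, sum_mulVec, smul_mulVec, vecMulVec_mulVec,
    op_smul_eq_smul, smul_smul]

theorem symm_Qt1 (L : Fin 3 → Mat n) (x : Fin n → ℝ) : (Pj L x)ᵀ = Pj L x := by
  simp only [Pj, transpose_sub, transpose_one, transpose_sum, transpose_smul, transpose_vecMulVec]

theorem Qt.hz_Qt1 (q : Qt L) (hx : x ≠ 0) (u : Fin n → ℝ) : Hz L x (Pj L x *ᵥ u) := by
  have hs : x ⬝ᵥ x ≠ 0 := fun h => hx (dotProduct_self_eq_zero.1 h)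
  rw [Pj_mulVec_Qt1]
  refine ⟨?_, fun e => ?_⟩
  · simp only [dotProduct_sub, dotProduct_sum, dotProduct_smul, q.xX, smul_eq_mul, mul_zero,
      Finset.sum_const_zero]
    field_simp
    ring
  · simp only [dotProduct_sub, dotProduct_sum, dotProduct_smul, q.Xx, q.XX, smul_eq_mul, mul_zero,
      mul_ite, Finset.sum_ite_eq, Finset.mem_univ, if_true]
    field_simp
    ring

theorem fix_Qt1 (hu : Hz L x u) : Pj L x *ᵥ u = u := by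
  simp [Pj_mulVec_Qt1, hu.1, hu.2]

theorem Qt.hz_Pj (q : Qt L) (hx : x ≠ 0) (i : Fin n) : Hz L x (Pj L x i) := by
  have h := q.hz_Qt1 hx (Pi.single i 1)
  rw [mulVec_single_one] at h
  rw [← symm_Qt1]
  exact h

theorem Pj_symm (L : Fin 3 → Mat n) (x : Fin n → ℝ) : (Pj L x).IsSymm := by
  exact symm_Qt1 L x

theorem Qt.Pj_mul (q : Qt L) (hx : x ≠ 0) : Pj L x * Pj L x = Pj L x := by
  ext i j
  have h := congrFun (fix_Qt1 (q.hz_Pj hx j)) i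
  rw [(Pj_symm L x).apply i j] at h
  rw [← h, mul_apply]
  exact Finset.sum_congr rfl fun k _ => by rw [(Pj_symm L x).apply k j]

theorem Qt.frame (q : Qt L) (hx : x ≠ 0) (hu : Hz L x u) (v : Fin n → ℝ) :
    ∑ j, (u ⬝ᵥ Pj L x j) * (v ⬝ᵥ Pj L x j) = u ⬝ᵥ v := by
  have h1 : ∀ (w : Fin n → ℝ) j, w ⬝ᵥ Pj L x j = (Pj L x *ᵥ w) j := fun w j => dotProduct_comm _ _
  simp only [h1, fix_Qt1 hu]
  change u ⬝ᵥ (Pj L x *ᵥ v) = _
  rw [dotProduct_mulVec, ← mulVec_transpose, symm_Qt1, fix_Qt1 hu]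

theorem Qt.sum_hh (q : Qt L) (hx : x ≠ 0) {b : ℕ} (hn : n = b + 4) :
    ∑ i, Pj L x i ⬝ᵥ Pj L x i = b := by
  have hs : x ⬝ᵥ x ≠ 0 := fun h => hx (dotProduct_self_eq_zero.1 h)
  have h1 : ∀ i, Pj L x i ⬝ᵥ Pj L x i = Pj L x i i := fun i =>
    congrFun (fix_Qt1 (q.hz_Pj hx i)) i
  simp only [h1]
  change (Pj L x).trace = _
  simp only [Pj, trace_sub, trace_one, trace_sum, trace_smul, trace_vecMulVec, q.XX, if_true,
    smul_eq_mul, inv_mul_cancel₀ hs, Fintype.card_fin]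
  rw [hn]
  simp
  ring

theorem Qt.sum_hh2 (q : Qt L) (hx : x ≠ 0) {b : ℕ} (hn : n = b + 4) :
    ∑ i, ∑ j, (Pj L x i ⬝ᵥ Pj L x j) ^ 2 = b := by
  simp only [pow_two, q.frame hx (q.hz_Pj hx _), q.sum_hh hx hn]

theorem Qt.sum_hL (q : Qt L) (hx : x ≠ 0) (a : Fin 3) :
    ∑ i, ∑ j, (Pj L x i ⬝ᵥ Pj L x j) * ((L a *ᵥ Pj L x i) ⬝ᵥ Pj L x j) = 0 := by
  simp only [q.frame hx (q.hz_Pj hx _), q.xX, Finset.sum_const_zero]

theorem Qt.sum_LL (q : Qt L) (hx : x ≠ 0) {b : ℕ} (hn : n = b + 4) (a e : Fin 3) :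
    ∑ i, ∑ j, ((L a *ᵥ Pj L x i) ⬝ᵥ Pj L x j) * ((L e *ᵥ Pj L x i) ⬝ᵥ Pj L x j) =
      if a = e then (b : ℝ) else 0 := by
  simp only [q.frame hx (q.hz_mul (q.hz_Pj hx _) a), q.XX]
  split_ifs
  · exact q.sum_hh hx hn
  · exact Finset.sum_const_zero

theorem tn_bil (L : Fin 3 → Mat n) (x u v : Fin n → ℝ) (A B : ℝ) (C : Mat 3) (D : Fin 3 → ℝ) :
    u ⬝ᵥ tn L x A B C D *ᵥ v = A * (u ⬝ᵥ v) + B * ((x ⬝ᵥ u) * (x ⬝ᵥ v)) +
      ∑ a, ∑ b, C a b * (((L a *ᵥ x) ⬝ᵥ u) * ((L b *ᵥ x) ⬝ᵥ v)) +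
      ∑ a, D a * ((x ⬝ᵥ u) * ((L a *ᵥ x) ⬝ᵥ v) + ((L a *ᵥ x) ⬝ᵥ u) * (x ⬝ᵥ v)) := by
  simp only [tn, add_mulVec, one_mulVec, sum_mulVec, smul_mulVec, vecMulVec_mulVec,
    op_smul_eq_smul, dotProduct_add, dotProduct_sum, dotProduct_smul, smul_eq_mul,
    dotProduct_comm u x, dotProduct_comm u (L _ *ᵥ x), mul_comm]

theorem dot_self (y : E n) : y.ofLp ⬝ᵥ y.ofLp = ‖y‖ ^ 2 := by
  rw [EuclideanSpace.real_norm_sq_eq]
  simp only [dotProduct, sq]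

end Vale.Agent.P366
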