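import Vale.Agent.P366.C1b
import Vale.Agent.P366.C2
import Vale.Agent.P366.C3
import Vale.Agent.P366.Fun
import Vale.Agent.P366.Gen2

/-! P366 Scal: scalar curvature and momentum density at an interior point.
Near y the functions Wv g k and trg g K are radial expressions (Wv_eq, trg_eq; hU pulled back by the continuous map z ↦ ‖z‖^2; Filter.EventuallyEq.fderiv_eq), so pd_rad_mul, pd_rad apply with the derivative of wf, resp. pf k / pf c + kap.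
scal = n w + 2 s w' + Q - (t + p'/p)² s/p with w = (S - (2h - d)/p)/s, w' = -w/s + (S1 - 2 h1/p + (2h - d) p'/p²)/s; unfold Pt.R, Pt.Q, Pt.RS, Pt.h, Pt.S; field_simp; ring (keep t, aa, R3, S1, the sums as atoms). -/

namespace Vale.Agent.P366

open Matrix Filter Topology

variable {n b : ℕ} {L : Fin 3 → Mat n} {c k : Co} {y : E n}

theorem ev_Scal (hU : ∀ᶠ t in 𝓝 (‖y‖ ^ 2), Gd c t) : ∀ᶠ z in 𝓝 y, Gd c (‖z‖ ^ 2) := by
  have hc : Continuous fun z : E n => ‖z‖ ^ 2 := by fun_prop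
  exact (hc.tendsto y).eventually hU

theorem pd_congr_Scal {f f' : E n → ℝ} (h : f =ᶠ[𝓝 y] f') (j : Fin n) :
    pd j f y = pd j f' y := by
  unfold pd
  rw [h.fderiv_eq]

theorem alg_Scal (z : Pt) (hr : z.r ≠ 0) (hp : z.p ≠ 0) (hA : z.A ≠ 0) :
    (z.b + 4) * ((z.S - (2 * z.h - (z.b + 3)) / z.p) / z.r) +
      2 * z.r * (((z.S1 - (2 * z.h1 * z.p - (2 * z.h - (z.b + 3)) * z.p1) / z.p ^ 2) * z.r -
        (z.S - (2 * z.h - (z.b + 3)) / z.p) * 1) / z.r ^ 2) + z.Q -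
      (z.t + z.p1 / z.p) ^ 2 * (z.r / z.p) = z.R := by
  unfold Pt.R Pt.Q Pt.RS Pt.h Pt.S
  generalize z.t = t
  generalize z.aa = aa
  generalize z.R3 = R3
  generalize z.S1 = S1
  generalize (∑ a, 1 / z.g a) = u
  generalize (∑ a, z.g a) = v
  field_simp
  ring

theorem St.scal_eq (h : St L b c) (k : Co) (hU : ∀ᶠ t in 𝓝 (‖y‖ ^ 2), Gd c t)
    (hd : (c.C (‖y‖ ^ 2)).IsDiag) :
    trg (sym L c) (ric (sym L c)) y = (pt b c k (‖y‖ ^ 2)).R := by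
  have hy : Gd c (‖y‖ ^ 2) := hU.self_of_nhds
  have hr : ‖y‖ ^ 2 ≠ 0 := hy.pos.ne'
  have hp : pf c (‖y‖ ^ 2) ≠ 0 := hy.p.ne'
  have hA : c.A (‖y‖ ^ 2) ≠ 0 := hy.A.ne'
  have hW : ∀ j, pd j (Wv (sym L c) j) y = pd j (fun z => wf b c (‖z‖ ^ 2) * z j) y := by
    intro j
    apply pd_congr_Scal
    filter_upwards [ev_Scal hU] with z hz
    exact h.Wv_eq hz j
  have hh : HasDerivAt (hf b c) (pt b c k (‖y‖ ^ 2)).h1 (‖y‖ ^ 2) :=
    (hy.hf_diff h.ok).hasDerivAt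
  have hw := (((hy.Sf_deriv (b := b) (k := k) h.ok hd).sub
    ((((hh.const_mul 2).sub_const ((b : ℝ) + 3))).div (h.ok.pf_deriv _) hp)).div
      (hasDerivAt_id' (‖y‖ ^ 2)) hr)
  have hw' : HasDerivAt (wf b c) _ (‖y‖ ^ 2) := hw
  have hg : ∑ i, ∑ j, (sym L c y)⁻¹ i j * gam (sym L c) i y * gam (sym L c) j y =
      (tf b c (‖y‖ ^ 2) + p1 c (‖y‖ ^ 2) / pf c (‖y‖ ^ 2)) ^ 2 *
        (‖y‖ ^ 2 / pf c (‖y‖ ^ 2)) := by
    rw [← h.N2_eq hy, N2, Finset.mul_sum]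
    refine Finset.sum_congr rfl fun i _ => ?_
    rw [Finset.mul_sum]
    refine Finset.sum_congr rfl fun j _ => ?_
    rw [h.gam_eq hy, h.gam_eq hy]
    ring
  rw [(h.rg hy).scal_eq, Finset.sum_congr rfl fun j _ => hW j, pd_rad_mul hw', hg,
    h.Q1_eq k hy hd, ← alg_Scal (pt b c k (‖y‖ ^ 2)) hr hp hA]
  simp only [Pi.sub_apply, Pi.div_apply, wf]
  have hn : (n : ℝ) = b + 4 := by exact_mod_cast h.dim
  rw [hy.Sf_eq (k := k) hd, hy.hf_eq (k := k) hd, hy.tf_eq (k := k) hd, hn]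
  rfl

theorem St.cur_eq (h : St L b c) (hk : k.Ok) (hU : ∀ᶠ t in 𝓝 (‖y‖ ^ 2), Gd c t)
    (hd : (c.C (‖y‖ ^ 2)).IsDiag) :
    ∑ j, dvg (sym L c) (mom (sym L c) (sym L k)) j y * y j = (pt b c k (‖y‖ ^ 2)).J := by
  have hy : Gd c (‖y‖ ^ 2) := hU.self_of_nhds
  have hp : pf c (‖y‖ ^ 2) ≠ 0 := hy.p.ne'
  have hφ := ((hk.pf_deriv (‖y‖ ^ 2)).div (h.ok.pf_deriv _) hp).add
    (hy.kap_diff (b := b) h.ok hk).hasDerivAt
  have hφ' : HasDerivAt (fun t => pf k t / pf c t + kap b c k t) _ (‖y‖ ^ 2) := hφ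
  have hT : ∀ j, pd j (trg (sym L c) (sym L k)) y =
      pd j (fun z : E n => pf k (‖z‖ ^ 2) / pf c (‖z‖ ^ 2) + kap b c k (‖z‖ ^ 2)) y := by
    intro j
    apply pd_congr_Scal
    filter_upwards [ev_Scal hU] with z hz
    exact h.trg_eq hk hz
  have hK : ∀ i j, DifferentiableAt ℝ (fun z => sym L k z i j) y := fun i j =>
    ((sym_contDiff L hk i j).differentiable (by norm_num)) y
  have hs : ∑ j, y j * y j = ‖y‖ ^ 2 := by
    rw [← dot_self]; rfl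
  have e : ∀ j, dvg (sym L c) (mom (sym L c) (sym L k)) j y * y j =
      dvg (sym L c) (sym L k) j y * y j -
        2 * ((p1 k (‖y‖ ^ 2) * pf c (‖y‖ ^ 2) - pf k (‖y‖ ^ 2) * p1 c (‖y‖ ^ 2)) /
          pf c (‖y‖ ^ 2) ^ 2 + (pt b c k (‖y‖ ^ 2)).k1) * (y j * y j) := by
    intro j
    rw [(h.rg hy).dvg_mom hK, hT, pd_rad hφ']
    simp only [pt]
    ring
  rw [Finset.sum_congr rfl fun j _ => e j, Finset.sum_sub_distrib, ← Finset.mul_sum, hs,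
    h.div_eq hk hy hd, Pt.J]
  have hr : (pt b c k (‖y‖ ^ 2)).r = ‖y‖ ^ 2 := rfl
  rw [hr]
  field_simp
  ring

end Vale.Agent.P366
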