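import Vale.Agent.P366.Der

/-! P366 Tab: values of the first-kind Christoffel form ta on the frame (third slot free).
First the closed form ta_eq (c.D = 0 gives c.D1 = 0; C and C1 symmetric; Qt.adj; tn_bil); then plug in with Qt.xX, Xx, XX, the Hz equations and dotProduct_comm.  F'(u,v) below is u ⬝ᵥ tn(A',B',C1,0) *ᵥ v. -/

namespace Vale.Agent.P366

open Matrix

variable {n b : ℕ} {L : Fin 3 → Mat n} {c : Co} {x u v : Fin n → ℝ}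

theorem Co.Ok.C1_symm (ok : c.Ok) (s : ℝ) : (c.C1 s).IsSymm := by
  refine IsSymm.ext fun a e => ?_
  simp only [Co.C1, of_apply, fun t => (ok.sy t).apply a e]

theorem Co.Ok.dG_symm (ok : c.Ok) (s : ℝ) : (dG c s).IsSymm := by
  exact ((isSymm_one.smul _).add (ok.sy s)).add ((ok.C1_symm s).smul _)

theorem Co.Ok.Gm_symm (ok : c.Ok) (s : ℝ) : (Gm c s).IsSymm := by
  exact (isSymm_one.smul _).add ((ok.sy s).smul _)

theorem ds_symm (L : Fin 3 → Mat n) (ok : c.Ok) (x u v w : Fin n → ℝ) :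
    ds L c x u v w = ds L c x u w v := by
  simp only [ds, tn_bil, Fin.sum_univ_three, dotProduct_comm w v,
    (ok.sy _).apply 0 1, (ok.sy _).apply 0 2, (ok.sy _).apply 1 2, (ok.C1_symm _).apply 0 1,
    (ok.C1_symm _).apply 0 2, (ok.C1_symm _).apply 1 2]
  ring

theorem ta_symm (L : Fin 3 → Mat n) (ok : c.Ok) (x u v w : Fin n → ℝ) :
    ta L c x u v w = ta L c x v u w := by
  rw [ta, ta, ds_symm L ok x w u v, add_comm]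

private theorem sk_Tab (q : Qt L) (a : Fin 3) (u v : Fin n → ℝ) :
    (L a *ᵥ v) ⬝ᵥ u = -((L a *ᵥ u) ⬝ᵥ v) := by
  rw [q.adj, dotProduct_comm]

theorem St.ta_eq (h : St L b c) (x u v w : Fin n → ℝ) : ta L c x u v w =
    (x ⬝ᵥ u) * (v ⬝ᵥ tn L x (deriv c.A (x ⬝ᵥ x)) (deriv c.B (x ⬝ᵥ x)) (c.C1 (x ⬝ᵥ x)) 0 *ᵥ w) +
    (x ⬝ᵥ v) * (u ⬝ᵥ tn L x (deriv c.A (x ⬝ᵥ x)) (deriv c.B (x ⬝ᵥ x)) (c.C1 (x ⬝ᵥ x)) 0 *ᵥ w) -
    (x ⬝ᵥ w) * (u ⬝ᵥ tn L x (deriv c.A (x ⬝ᵥ x)) (deriv c.B (x ⬝ᵥ x)) (c.C1 (x ⬝ᵥ x)) 0 *ᵥ v) +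
    c.B (x ⬝ᵥ x) * (u ⬝ᵥ v) * (x ⬝ᵥ w) +
    ∑ a, ∑ e, c.C (x ⬝ᵥ x) a e * (((L e *ᵥ x) ⬝ᵥ v) * ((L a *ᵥ u) ⬝ᵥ w) +
      ((L e *ᵥ x) ⬝ᵥ u) * ((L a *ᵥ v) ⬝ᵥ w)) := by
  have ok := h.ok
  have h1 : ∀ s, c.D1 s = 0 := fun s => funext fun a => by simp [Co.D1, h.D]
  simp only [ta, ds, tn_bil, h1, h.D, Pi.zero_apply, Fin.sum_univ_three, dotProduct_comm w v,
    dotProduct_comm w u, dotProduct_comm v u, fun a => sk_Tab h.q a u v, fun a => sk_Tab h.q a u w,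
    fun a => sk_Tab h.q a v w,
    (ok.sy _).apply 0 1, (ok.sy _).apply 0 2, (ok.sy _).apply 1 2, (ok.C1_symm _).apply 0 1,
    (ok.C1_symm _).apply 0 2, (ok.C1_symm _).apply 1 2]
  ring

theorem St.ta_hh (h : St L b c) (hu : Hz L x u) (hv : Hz L x v) (w : Fin n → ℝ) :
    ta L c x u v w = (c.B (x ⬝ᵥ x) - deriv c.A (x ⬝ᵥ x)) * (u ⬝ᵥ v) * (x ⬝ᵥ w) := by
  rw [h.ta_eq]
  simp only [tn_bil, hu.1, hv.1, hu.2, hv.2, zero_mul, mul_zero, add_zero, Finset.sum_const_zero]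
  ring

theorem St.ta_hx (h : St L b c) (hu : Hz L x u) (w : Fin n → ℝ) :
    ta L c x u x w = x ⬝ᵥ x * deriv c.A (x ⬝ᵥ x) * (u ⬝ᵥ w) := by
  rw [h.ta_eq]
  simp only [tn_bil, dotProduct_comm u x, hu.1, hu.2, h.q.Xx, zero_mul, mul_zero, add_zero,
    Finset.sum_const_zero, Pi.zero_apply]
  ring

theorem St.ta_hX (h : St L b c) (hu : Hz L x u) (a : Fin 3) (w : Fin n → ℝ) :
    ta L c x u (L a *ᵥ x) w = x ⬝ᵥ x * ∑ e, c.C (x ⬝ᵥ x) e a * ((L e *ᵥ u) ⬝ᵥ w) := by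
  rw [h.ta_eq]
  simp only [tn_bil, dotProduct_comm u (L a *ᵥ x), hu.1, hu.2, h.q.xX, h.q.XX, zero_mul, mul_zero,
    add_zero, Finset.sum_const_zero, Pi.zero_apply, ite_mul, mul_ite, Finset.sum_ite_eq',
    Finset.mem_univ, if_true, Finset.mul_sum, zero_add, sub_zero]
  exact Finset.sum_congr rfl fun e _ => by ring

theorem St.ta_xx (h : St L b c) (x w : Fin n → ℝ) :
    ta L c x x x w = x ⬝ᵥ x * p1 c (x ⬝ᵥ x) * (x ⬝ᵥ w) := by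
  rw [h.ta_eq]
  simp only [tn_bil, h.q.Xx, zero_mul, mul_zero, add_zero, Finset.sum_const_zero, Pi.zero_apply, p1]
  ring

theorem St.ta_xX (h : St L b c) (x : Fin n → ℝ) (a : Fin 3) (w : Fin n → ℝ) :
    ta L c x x (L a *ᵥ x) w = x ⬝ᵥ x * ∑ e, dG c (x ⬝ᵥ x) a e * ((L e *ᵥ x) ⬝ᵥ w) := by
  have ok := h.ok
  rw [h.ta_eq]
  simp only [tn_bil, h.q.Xx, h.q.xX, h.q.XX, zero_mul, mul_zero, add_zero, Finset.sum_const_zero,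
    Pi.zero_apply, dG, Matrix.add_apply, Matrix.smul_apply, smul_eq_mul,
    Matrix.one_apply, ite_mul, mul_ite,
    Finset.sum_ite_eq', Finset.mem_univ, if_true, zero_add, sub_zero, add_mul,
    Finset.sum_add_distrib, Finset.sum_ite_eq, mul_one, fun e => (ok.sy (x ⬝ᵥ x)).apply a e]
  rw [Finset.sum_comm]
  simp only [Finset.sum_ite_eq', Finset.mem_univ, if_true, Fin.sum_univ_three]
  ring

theorem St.ta_XX (h : St L b c) (x : Fin n → ℝ) (a a' : Fin 3) (w : Fin n → ℝ) :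
    ta L c x (L a *ᵥ x) (L a' *ᵥ x) w = (x ⬝ᵥ w) * (x ⬝ᵥ x) *
      ((if a = a' then c.B (x ⬝ᵥ x) - deriv c.A (x ⬝ᵥ x) else 0) - x ⬝ᵥ x * c.C1 (x ⬝ᵥ x) a a') +
      x ⬝ᵥ x * ∑ e, (c.C (x ⬝ᵥ x) e a' * ((L e *ᵥ (L a *ᵥ x)) ⬝ᵥ w) +
        c.C (x ⬝ᵥ x) e a * ((L e *ᵥ (L a' *ᵥ x)) ⬝ᵥ w)) := by
  rw [h.ta_eq]
  simp only [tn_bil, h.q.xX, h.q.XX, zero_mul, mul_zero, add_zero, Finset.sum_const_zero,
    Pi.zero_apply, ite_mul, mul_ite, mul_add, Finset.sum_ite_eq', Finset.mem_univ, if_true,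
    zero_add, Finset.sum_add_distrib, Finset.sum_ite_irrel]
  simp only [Fin.sum_univ_three]
  split_ifs <;> ring

end Vale.Agent.P366
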